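import Mathlib

/-! TASK BddGen: bounded elementary generation of `SL₃(ℤ)` (Carter-Keller).
Plan. Work with raw integer matrices. `Len n A`: `A` is a product of at most `n` transvections
(a list of triples `(i, j, m)`, `i ≠ j`); it is closed under products (lengths add), inverses and
transposition. `Eqv n A B`: `Len k B → Len (k + n) A`, so that one row or column operation on an
explicit matrix `!![..]` costs `1` (prove the twelve lemmas once; a signed swap costs `3`).
Write `ι(a,b,c,d) = !![a,b,0; c,d,0; 0,0,1]`.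
(1) Reduction to `ι`: the last row `(x, y, z)` of `A ∈ SL₃(ℤ)` is unimodular. If `x ≠ 0` there
is `t` with `IsCoprime x (y + t z)` (take the product of the primes dividing `x` but not `y`; or
search Mathlib for a stable range lemma); if `x = 0` then `y, z` are coprime, and first adding
column 3 and column 2 suitably reduces to a case with two coprime entries among the first two.
Then make the entry `(3,3)` equal to `1` by two column operations and clear the last row and column.
(2) Mennicke move: if `a = e + g h`, `e = ±1`, then `ι(a, g b, c, d) ~ ι(a, b, g c, d)`: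
row1 += g row3; col2 -= b col3; col1 -= h col3; col3 -= e g col1; clear column 1 by two row
operations: this gives `!![e,0,0; 0,d,-e g c; 0,-b,e a]`; finish with signed swaps (do `e = 1`
and `e = -1` separately).
(3) If `L = !![a,b;c,d]` has determinant one and `a^s ≡ ±1 mod b` then `ι(L^s)` has bounded
length: by induction `L^s = f • 1 + g • L` with `f + g a ≡ a^s mod b`; the determinant gives
`g ∣ (f+1)(f-1)`, so `g = g₁ g₂`, `g₁ ∣ f + 1`, `g₂ ∣ f - 1` (`exists_dvd_and_dvd_of_dvd_mul`). The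
first row of `L^s` is `(a', g₁ g₂ b)`, `a' = f + g a`; apply (2) three times (with `g₁`, `g₂`, `b`)
to reach the first row `(a', 1)`, then three operations give the identity.
(4) For `ι(a,b,c,d)`: make `a` odd (add column 2 if `a` is even). By Dirichlet
(`Nat.forall_exists_prime_gt_and_zmodEq` / `Nat.forall_exists_prime_gt_and_modEq`) there is a prime
`p ≡ b mod a`, `p ≡ 3 mod 4`; `u = (p-1)/2` is odd. `c ≡ -1 mod gcd(a, u)` (as `b ≡ 1` and
`-bc ≡ 1` there), so there is `r ≡ c mod a`, `r ≡ -1 mod u`, coprime to `a u`, and a prime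
`q > 2`, `q ≡ r mod |a| u`; `v = q - 1` is coprime to `u`. Two operations give
`L = !![a,p;q,e]`. Choose `k, l : ℕ` with `k u = 1 + l v`; then `L = L^(k u) (L^(l v))⁻¹`,
`a^(k u) ≡ ±1 mod p`, `a^(l v) ≡ 1 mod q` (Fermat, `ZMod.pow_card_sub_one_eq_one`), and (3) applies
to `L` and to `Lᵀ`. -/

noncomputable section

namespace Vale.Agent.P212

/-- `SL₃(ℤ)`. -/
abbrev SL3 : Type := Matrix.SpecialLinearGroup (Fin 3) ℤ

/-- The elementary matrix `1 + m E_{ij}`. -/
def el (i j : Fin 3) (h : i ≠ j) (m : ℤ) : SL3 :=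
  ⟨Matrix.transvection i j m, Matrix.det_transvection_of_ne i j h m⟩

theorem el_val (i j : Fin 3) (h : i ≠ j) (m : ℤ) :
    (el i j h m).1 = Matrix.transvection i j m := rfl

theorem el_mul_bg (i j : Fin 3) (h : i ≠ j) (m n : ℤ) :
    el i j h m * el i j h n = el i j h (m + n) :=
  Subtype.ext (Matrix.transvection_mul_transvection_same i j h m n)

theorem el_zero_bg (i j : Fin 3) (h : i ≠ j) : el i j h 0 = 1 :=
  Subtype.ext (Matrix.transvection_zero i j)

theorem el_zpow (i j : Fin 3) (h : i ≠ j) (m : ℤ) : el i j h 1 ^ m = el i j h m := by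
  induction m using Int.induction_on with
  | zero => rw [zpow_zero, el_zero_bg]
  | succ n ih => rw [zpow_add_one, ih, el_mul_bg]
  | pred n ih =>
    rw [zpow_sub_one, ih, mul_inv_eq_iff_eq_mul, el_mul_bg]
    congr 1
    ring

namespace BG

open Matrix

/-- `A` is a product of at most `k` transvections. -/
def Len (k : ℕ) (A : Matrix (Fin 3) (Fin 3) ℤ) : Prop :=
  ∃ l : List (TransvectionStruct (Fin 3) ℤ), l.length ≤ k ∧
    (l.map TransvectionStruct.toMatrix).prod = A

theorem Len.mono {k k' : ℕ} {A : Matrix (Fin 3) (Fin 3) ℤ} (h : Len k A) (hk : k ≤ k') :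
    Len k' A := by
  obtain ⟨l, h1, h2⟩ := h
  exact ⟨l, h1.trans hk, h2⟩

theorem Len.one : Len 0 1 := ⟨[], le_rfl, by simp⟩

theorem Len.mul {k k' : ℕ} {A B : Matrix (Fin 3) (Fin 3) ℤ} (h : Len k A) (h' : Len k' B) :
    Len (k + k') (A * B) := by
  obtain ⟨l, h1, rfl⟩ := h
  obtain ⟨l', h1', rfl⟩ := h'
  exact ⟨l ++ l', by simp; omega, by simp⟩

theorem Len.tv {i j : Fin 3} (h : i ≠ j) (m : ℤ) : Len 1 (transvection i j m) :=
  ⟨[⟨i, j, h, m⟩], le_rfl, by simp⟩

theorem Len.cancel {k k' : ℕ} {A B : Matrix (Fin 3) (Fin 3) ℤ} (h : Len k (A * B))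
    (h' : Len k' B) : Len (k + k') A := by
  obtain ⟨l', h1', rfl⟩ := h'
  have h3 : Len k' (l'.reverse.map (TransvectionStruct.toMatrix ∘ TransvectionStruct.inv)).prod :=
    ⟨l'.reverse.map TransvectionStruct.inv, by simpa using h1', by rw [List.map_map]⟩
  have := h.mul h3
  rwa [Matrix.mul_assoc, TransvectionStruct.prod_mul_reverse_inv_prod, Matrix.mul_one] at this

theorem Len.tr {k : ℕ} {A : Matrix (Fin 3) (Fin 3) ℤ} (h : Len k A) : Len k Aᵀ := by
  obtain ⟨l, h1, rfl⟩ := h
  refine Len.mono ?_ h1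
  clear h1
  induction l with
  | nil => simpa using Len.one
  | cons t l ih =>
    rw [List.map_cons, List.prod_cons, Matrix.transpose_mul, List.length_cons]
    refine ih.mul ?_
    have e : t.toMatrixᵀ = transvection t.j t.i t.c := by
      simp [TransvectionStruct.toMatrix, transvection, Matrix.transpose_single]
    rw [e]
    exact Len.tv t.hij.symm _

theorem Len.cop {k : ℕ} {A B : Matrix (Fin 3) (Fin 3) ℤ} {i j : Fin 3} (h : i ≠ j) (m : ℤ)
    (H : Len k B) (e : A * transvection i j m = B) : Len (k + 1) A :=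
  Len.cancel (e ▸ H) (Len.tv h m)

/-- Explicit version. -/
def L (k : ℕ) (a b c d e f g h i : ℤ) : Prop := Len k !![a, b, c; d, e, f; g, h, i]

variable {k : ℕ} {a b c d e f g h i : ℤ}

theorem L.tr (H : L k a b c d e f g h i) : L k a d g b e h c f i := by
  have := Len.tr H
  unfold L
  convert this using 1
  ext x y
  fin_cases x <;> fin_cases y <;> rfl

theorem L.mono {k' : ℕ} (H : L k a b c d e f g h i) (hk : k ≤ k') : L k' a b c d e f g h i :=
  Len.mono H hk

theorem L.one : L 0 1 0 0 0 1 0 0 0 1 := by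
  unfold L
  rw [← Matrix.one_fin_three]
  exact Len.one

theorem c12 (m : ℤ) (H : L k (a + m * b) b c (d + m * e) e f (g + m * h) h i) :
    L (k + 1) a b c d e f g h i := by
  refine Len.cop (i := 1) (j := 0) (by decide) m H ?_
  ext x y
  fin_cases x <;> fin_cases y <;>
    simp [transvection, Matrix.mul_apply, Fin.sum_univ_three, Matrix.single, mul_comm, add_comm]

theorem c13 (m : ℤ) (H : L k (a + m * c) b c (d + m * f) e f (g + m * i) h i) :
    L (k + 1) a b c d e f g h i := by
  refine Len.cop (i := 2) (j := 0) (by decide) m H ?_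
  ext x y
  fin_cases x <;> fin_cases y <;>
    simp [transvection, Matrix.mul_apply, Fin.sum_univ_three, Matrix.single, mul_comm, add_comm]

theorem c21 (m : ℤ) (H : L k a (b + m * a) c d (e + m * d) f g (h + m * g) i) :
    L (k + 1) a b c d e f g h i := by
  refine Len.cop (i := 0) (j := 1) (by decide) m H ?_
  ext x y
  fin_cases x <;> fin_cases y <;>
    simp [transvection, Matrix.mul_apply, Fin.sum_univ_three, Matrix.single, mul_comm, add_comm]

theorem c23 (m : ℤ) (H : L k a (b + m * c) c d (e + m * f) f g (h + m * i) i) :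
    L (k + 1) a b c d e f g h i := by
  refine Len.cop (i := 2) (j := 1) (by decide) m H ?_
  ext x y
  fin_cases x <;> fin_cases y <;>
    simp [transvection, Matrix.mul_apply, Fin.sum_univ_three, Matrix.single, mul_comm, add_comm]

theorem c31 (m : ℤ) (H : L k a b (c + m * a) d e (f + m * d) g h (i + m * g)) :
    L (k + 1) a b c d e f g h i := by
  refine Len.cop (i := 0) (j := 2) (by decide) m H ?_
  ext x y
  fin_cases x <;> fin_cases y <;>
    simp [transvection, Matrix.mul_apply, Fin.sum_univ_three, Matrix.single, mul_comm, add_comm]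

theorem c32 (m : ℤ) (H : L k a b (c + m * b) d e (f + m * e) g h (i + m * h)) :
    L (k + 1) a b c d e f g h i := by
  refine Len.cop (i := 1) (j := 2) (by decide) m H ?_
  ext x y
  fin_cases x <;> fin_cases y <;>
    simp [transvection, Matrix.mul_apply, Fin.sum_univ_three, Matrix.single, mul_comm, add_comm]

theorem r12 (m : ℤ) (H : L k (a + m * d) (b + m * e) (c + m * f) d e f g h i) :
    L (k + 1) a b c d e f g h i := (c12 m H.tr).tr

theorem r13 (m : ℤ) (H : L k (a + m * g) (b + m * h) (c + m * i) d e f g h i) :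
    L (k + 1) a b c d e f g h i := (c13 m H.tr).tr

theorem r21 (m : ℤ) (H : L k a b c (d + m * a) (e + m * b) (f + m * c) g h i) :
    L (k + 1) a b c d e f g h i := (c21 m H.tr).tr

theorem r23 (m : ℤ) (H : L k a b c (d + m * g) (e + m * h) (f + m * i) g h i) :
    L (k + 1) a b c d e f g h i := (c23 m H.tr).tr

theorem r31 (m : ℤ) (H : L k a b c d e f (g + m * a) (h + m * b) (i + m * c)) :
    L (k + 1) a b c d e f g h i := (c31 m H.tr).tr

theorem r32 (m : ℤ) (H : L k a b c d e f (g + m * d) (h + m * e) (i + m * f)) :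
    L (k + 1) a b c d e f g h i := (c32 m H.tr).tr

/-- The Mennicke move. -/
theorem menn {s : ℤ} (hs : g ∣ a - 1 ∨ g ∣ a + 1) (H : L k a b 0 (g * c) d 0 0 0 1)
    (e1 : s = g * b) : L (k + 12) a s 0 c d 0 0 0 1 := by
  subst e1
  rcases hs with ⟨h, hh⟩ | ⟨h, hh⟩
  · obtain rfl : a = 1 + g * h := by linarith
    refine r13 (-g) (c23 b (c13 h (c31 g (r21 (-c) (r31 (-h) (r13 1 (r31 (-1) (r13 1
      (c13 1 (c31 (-1) (c13 1 ?_)))))))))))
    convert H using 1 <;> ring
  · obtain rfl : a = -1 + g * h := by linarith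
    refine r13 (-g) (c23 b (c13 h (c31 (-g) (r21 c (r31 h (r13 1 (r31 (-1) (r13 1
      (c13 (-1) (c31 1 (c13 (-1) ?_)))))))))))
    convert H using 1 <;> ring

theorem base (hd : a * d - c = 1) : L 3 a 1 0 c d 0 0 0 1 := by
  refine c12 (1 - a) (c21 (-1) (r21 (-(c + (1 - a) * d)) ?_))
  convert L.one using 1
  · ring
  · ring
  · ring
  · linear_combination hd
  · ring
  · ring
  · ring

theorem pow_case {t : ℤ} (hq : f ^ 2 + f * g * t + g ^ 2 = 1)
    (hb : b ∣ f + g * a - 1 ∨ b ∣ f + g * a + 1) (hd : (f + g * a) * d - g * b * c = 1) :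
    L 39 (f + g * a) (g * b) 0 c d 0 0 0 1 := by
  have hg : g ∣ (f + 1) * (f - 1) := ⟨-(f * t + g), by linear_combination hq⟩
  obtain ⟨g₁, g₂, ⟨u, hu⟩, ⟨v, hv⟩, rfl⟩ := exists_dvd_and_dvd_of_dvd_mul hg
  have h0 : L 3 (f + g₁ * g₂ * a) 1 0 (b * (g₂ * (g₁ * c))) d 0 0 0 1 :=
    base (by linear_combination hd)
  have h1 := menn hb h0 (mul_one b).symm
  have h2 := menn (g := g₂) (Or.inl ⟨v + g₁ * a, by linear_combination hv⟩) h1 rfl
  exact menn (g := g₁) (Or.inr ⟨u + g₂ * a, by linear_combination hu⟩) h2 (by ring)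

theorem pow_form (hd : a * d - b * c = 1) (s : ℕ) : ∃ f g : ℤ,
    f ^ 2 + f * g * (a + d) + g ^ 2 = 1 ∧ b * c ∣ f + g * a - a ^ s ∧
    !![a, b, 0; c, d, 0; 0, 0, 1] ^ s = !![f + g * a, g * b, 0; g * c, f + g * d, 0; 0, 0, 1] := by
  induction s with
  | zero =>
    refine ⟨1, 0, by ring, by simp, ?_⟩
    rw [pow_zero, Matrix.one_fin_three]
    simp
  | succ s ih =>
    obtain ⟨f, g, h1, ⟨w, hw⟩, h3⟩ := ih
    refine ⟨-g, f + g * (a + d), by linear_combination h1, ⟨a * w + g, ?_⟩, ?_⟩
    · rw [pow_succ]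
      linear_combination a * hw + g * hd
    · rw [pow_succ, h3, Matrix.mul_fin_three]
      ext x y
      fin_cases x <;> fin_cases y <;> simp
      · linear_combination (-g) * hd
      · ring
      · ring
      · linear_combination (-g) * hd

theorem pow_len (hd : a * d - b * c = 1) (s : ℕ)
    (hs : (b ∣ a ^ s - 1 ∨ b ∣ a ^ s + 1) ∨ c ∣ a ^ s - 1) :
    Len 39 (!![a, b, 0; c, d, 0; 0, 0, 1] ^ s) := by
  obtain ⟨f, g, h1, ⟨w, hw⟩, h3⟩ := pow_form hd s
  rw [h3]
  rcases hs with hs | ⟨z, hz⟩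
  · refine pow_case h1 ?_ (by linear_combination h1 + g ^ 2 * hd)
    rcases hs with ⟨z, hz⟩ | ⟨z, hz⟩
    · exact Or.inl ⟨z + c * w, by linear_combination hw + hz⟩
    · exact Or.inr ⟨z + c * w, by linear_combination hw + hz⟩
  · have : L 39 (f + g * a) (g * c) 0 (g * b) (f + g * d) 0 0 0 1 :=
      pow_case h1 (Or.inl ⟨z + b * w, by linear_combination hw + hz⟩)
        (by linear_combination h1 + g ^ 2 * hd)
    exact this.tr

theorem prime_case {p q u : ℕ} (hp : p.Prime) (hq : q.Prime) (hq2 : 2 < q) (hu : p = 2 * u + 1)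
    (hc : Nat.Coprime u (q - 1)) (hd : a * d - p * q = 1) : L 78 a p 0 q d 0 0 0 1 := by
  obtain ⟨m, -, hm⟩ := Nat.exists_mul_mod_eq_one_of_coprime hc (by omega)
  have e : u * m = 1 + (q - 1) * (u * m / (q - 1)) := by
    have := Nat.div_add_mod (u * m) (q - 1)
    omega
  have hap : IsCoprime a (p : ℤ) := ⟨d, -q, by linear_combination hd⟩
  have haq : IsCoprime a (q : ℤ) := ⟨d, -p, by linear_combination hd⟩
  have f1 := (Int.ModEq.pow_card_sub_one_eq_one hp hap).pow m
  have f2 := (Int.ModEq.pow_card_sub_one_eq_one hq haq).pow (u * m / (q - 1))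
  rw [one_pow, ← pow_mul] at f1 f2
  have g1 : (p : ℤ) ∣ (a ^ (u * m) - 1) * (a ^ (u * m) + 1) := by
    have e2 : (p - 1) * m = u * m * 2 := by
      rw [hu, Nat.add_sub_cancel]; ring
    rw [e2, pow_mul] at f1
    have := f1.symm.dvd
    convert this using 1
    ring
  have h1 := pow_len hd (u * m) (Or.inl ((Nat.prime_iff_prime_int.1 hp).dvd_or_dvd g1))
  have h2 := pow_len hd _ (Or.inr f2.symm.dvd)
  rw [e, pow_add, pow_one] at h1
  exact Len.cancel h1 h2

theorem odd_case (ha : Odd a) (hd : a * d - b * c = 1) : L 80 a b 0 c d 0 0 0 1 := by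
  obtain ⟨n, hn⟩ := ha
  have ha0 : a ≠ 0 := by omega
  have hab : IsCoprime b a := ⟨-c, d, by linear_combination hd⟩
  have hac : IsCoprime c a := ⟨-b, d, by linear_combination hd⟩
  have hA : ((a.natAbs : ℕ) : ℤ) = |a| := Int.natCast_natAbs a
  have cop1 : IsCoprime (b + a * (a * (3 - b))) ((a.natAbs * 4 : ℕ) : ℤ) := by
    push_cast
    refine IsCoprime.mul_right ?_ ?_
    · exact (IsCoprime.add_mul_left_left hab _).abs_right
    · exact ⟨-1, 1 + (n ^ 2 + n) * (3 - b), by rw [hn]; ring⟩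
  obtain ⟨p, -, hp, hpm⟩ := Nat.forall_exists_prime_gt_and_zmodEq 0
    (mul_ne_zero (Int.natAbs_ne_zero.2 ha0) (by norm_num)) cop1
  have hpm' := hpm.symm.dvd
  push_cast at hpm'
  obtain ⟨s, hs⟩ : a ∣ (p : ℤ) - b := by
    have h1 : a ∣ (p : ℤ) - (b + a * (a * (3 - b))) :=
      ((self_dvd_abs a).mul_right 4).trans hpm'
    obtain ⟨w, hw⟩ := h1
    exact ⟨w + a * (3 - b), by linear_combination hw⟩
  obtain ⟨y, hy⟩ : ∃ y : ℕ, p = 4 * y + 3 := by
    obtain ⟨w, hw⟩ := (Dvd.intro_left _ rfl : (4 : ℤ) ∣ |a| * 4).trans hpm'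
    have h4 : (p : ℤ) = 4 * (w + (n ^ 2 + n) * (3 - b)) + 3 := by
      rw [hn] at hw
      linear_combination hw
    exact ⟨p / 4, by omega⟩
  have hyz : (p : ℤ) = 4 * y + 3 := by exact_mod_cast hy
  set u : ℕ := 2 * y + 1 with hu
  have huz : (u : ℤ) = 2 * y + 1 := by exact_mod_cast hu
  have hdel : ((Int.gcd a u : ℕ) : ℤ) ∣ c + 1 := by
    obtain ⟨a', ha'⟩ := Int.gcd_dvd_left a u
    obtain ⟨u', hu'⟩ := Int.gcd_dvd_right a u
    refine ⟨a' * (d + s * c) - 2 * u' * c, ?_⟩
    linear_combination (-1 : ℤ) * hd + (d + s * c) * ha' - 2 * c * hu' + c * hs - c * hyz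
      + 2 * c * huz
  obtain ⟨m, hm⟩ := hdel
  rw [Int.gcd_eq_gcd_ab] at hm
  set X := Int.gcdA a u
  set Y := Int.gcdB a u
  have cop2 : IsCoprime (c + a * (-(X * m))) ((a.natAbs * u : ℕ) : ℤ) := by
    push_cast
    refine IsCoprime.mul_right ?_ ?_
    · exact (IsCoprime.add_mul_left_left hac _).abs_right
    · exact ⟨-1, Y * m, by linear_combination (-1 : ℤ) * hm⟩
  obtain ⟨q, hq2, hq, hqm⟩ := Nat.forall_exists_prime_gt_and_zmodEq 2
    (mul_ne_zero (Int.natAbs_ne_zero.2 ha0) (by omega : u ≠ 0)) cop2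
  have hqm' := hqm.symm.dvd
  rw [Nat.cast_mul, hA] at hqm'
  obtain ⟨s', hs'⟩ : a ∣ (q : ℤ) - c := by
    obtain ⟨w, hw⟩ := ((self_dvd_abs a).mul_right (u : ℤ)).trans hqm'
    exact ⟨w - X * m, by linear_combination hw⟩
  have hcop : Nat.Coprime u (q - 1) := by
    obtain ⟨w, hw⟩ := (Dvd.intro_left _ rfl : (u : ℤ) ∣ |a| * u).trans hqm'
    rw [← Nat.isCoprime_iff_coprime, Nat.cast_sub (by omega : 1 ≤ q)]
    refine ⟨1 - y * (w + Y * m), y, ?_⟩
    push_cast
    linear_combination (y : ℤ) * hw + (y : ℤ) * hm + huz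
  have hfin : L 78 a p 0 q (d + s * c + s' * p) 0 0 0 1 :=
    prime_case hp hq hq2 (u := u) (by omega) hcop
      (by linear_combination hd - p * hs' - c * hs)
  refine c21 s (r21 s' ?_)
  convert hfin using 1
  · linear_combination (-1 : ℤ) * hs
  · linear_combination (-1 : ℤ) * hs'
  · linear_combination (-s') * hs
  · ring
  · ring

theorem sl2_case (hd : a * d - b * c = 1) : L 81 a b 0 c d 0 0 0 1 := by
  rcases Int.even_or_odd a with ha | ha
  · have hb : Odd b := by
      by_contra hb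
      rw [Int.not_odd_iff_even] at hb
      have : Even (a * d - b * c) := (ha.mul_right d).sub (hb.mul_right c)
      rw [hd] at this
      exact Int.not_even_one this
    refine c12 1 ?_
    have := odd_case (a := a + 1 * b) (b := b) (c := c + 1 * d) (d := d)
      (by rw [one_mul]; exact ha.add_odd hb) (by linear_combination hd)
    convert this using 1
    ring
  · exact (odd_case ha hd).mono (by norm_num)

theorem one_case (hd : a * (e - f * h) - b * (d - f * g) + c * (d * h - e * g) = 1) :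
    L 85 a b c d e f g h 1 := by
  refine c13 (-g) (c23 (-h) (r13 (-c) (r23 (-f) ?_)))
  have := sl2_case (a := a - g * c) (b := b - h * c) (c := d - g * f) (d := e - h * f)
    (by linear_combination hd)
  convert this using 1 <;> ring

theorem stable (hg : g ≠ 0) {X Y Z : ℤ} (hu : g * X + h * Y + i * Z = 1) :
    ∃ t, IsCoprime g (h + t * i) := by
  classical
  refine ⟨∏ p ∈ g.natAbs.primeFactors.filter (fun p : ℕ => ¬ (p : ℤ) ∣ h), (p : ℤ), ?_⟩
  refine isCoprime_of_prime_dvd (fun hh => hg hh.1) fun z hz hzg hzh => ?_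
  have hz' : z.natAbs.Prime := Int.prime_iff_natAbs_prime.1 hz
  by_cases hh : z ∣ h
  · rcases hz.dvd_or_dvd ((dvd_add_right hh).1 hzh) with h1 | h1
    · obtain ⟨p, hp, hzp⟩ := (Prime.dvd_finsetProd_iff hz _).1 h1
      rw [Finset.mem_filter] at hp
      have hpp := Nat.prime_of_mem_primeFactors hp.1
      have e : z.natAbs = p :=
        (Nat.prime_dvd_prime_iff_eq hz' hpp).1 (Int.natAbs_dvd_natAbs.2 hzp)
      exact hp.2 (e ▸ Int.natAbs_dvd.2 hh)
    · exact hz.not_dvd_one (hu ▸ ((hzg.mul_right X).add (hh.mul_right Y)).add (h1.mul_right Z))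
  · have hm : z.natAbs ∈ g.natAbs.primeFactors.filter (fun p : ℕ => ¬ (p : ℤ) ∣ h) := by
      rw [Finset.mem_filter, Nat.mem_primeFactors]
      exact ⟨⟨hz', Int.natAbs_dvd_natAbs.2 hzg, Int.natAbs_ne_zero.2 hg⟩,
        fun h2 => hh (Int.natAbs_dvd.1 h2)⟩
    have h3 := Int.natAbs_dvd.1 (Finset.dvd_prod_of_mem (fun p : ℕ => (p : ℤ)) hm)
    exact hh ((dvd_add_left (h3.mul_right i)).1 hzh)

theorem ne_case (hg : g ≠ 0)
    (hd : a * (e * i - f * h) - b * (d * i - f * g) + c * (d * h - e * g) = 1) :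
    L 88 a b c d e f g h i := by
  obtain ⟨t, u, v, huv⟩ := stable (h := h) (i := i) hg (X := b * f - c * e) (Y := c * d - a * f)
    (Z := a * e - b * d) (by linear_combination hd)
  refine c23 t (c31 ((1 - i) * u) (c32 ((1 - i) * v) ?_))
  have e1 : i + (1 - i) * u * g + (1 - i) * v * (h + t * i) = 1 := by
    linear_combination (1 - i) * huv
  rw [e1]
  refine one_case ?_
  linear_combination hd - (a * (e + t * f) - (b + t * c) * d) * e1

theorem all_case (hd : a * (e * i - f * h) - b * (d * i - f * g) + c * (d * h - e * g) = 1) :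
    L 89 a b c d e f g h i := by
  by_cases hg : g = 0
  · by_cases hh : h = 0
    · have hi : i ≠ 0 := by
        rintro rfl
        rw [hg, hh] at hd
        simp at hd
      exact c13 1 (ne_case (by rw [hg]; simpa using hi) (by linear_combination hd))
    · exact c12 1 (ne_case (by rw [hg]; simpa using hh) (by linear_combination hd))
  · exact (ne_case hg hd).mono (by norm_num)

end BG

theorem bdd_gen : ∃ k : ℕ, ∀ g : SL3, ∃ l : List SL3, l.length ≤ k ∧
    (∀ e ∈ l, ∃ (i j : Fin 3) (h : i ≠ j) (m : ℤ), e = el i j h m) ∧ l.prod = g := by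
  refine ⟨89, fun g => ?_⟩
  have hd := g.2
  rw [Matrix.det_fin_three] at hd
  have H : BG.Len 89 g.1 := by
    rw [Matrix.eta_fin_three g.1]
    exact BG.all_case (by linear_combination hd)
  obtain ⟨l, h1, h2⟩ := H
  refine ⟨l.map fun t => el t.i t.j t.hij t.c, by simpa using h1, ?_, ?_⟩
  · intro e he
    obtain ⟨t, -, rfl⟩ := List.mem_map.1 he
    exact ⟨_, _, _, _, rfl⟩
  · apply Subtype.ext
    rw [← h2]
    clear h1 h2
    induction l with
    | nil => rfl
    | cons t l ih =>
      simp only [List.map_cons, List.prod_cons, Matrix.SpecialLinearGroup.coe_mul]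
      rw [← ih]
      rfl

end Vale.Agent.P212
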