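import Mathlib

/-! TASK CocApprox: approximate integrality of the coboundary of `φ · Ξ`.
Plan. `exists_ginv`: over `ℚ` the linear map `f = M.mulVecLin` has `g` with `f g f = f` (compose a
right inverse of `f.rangeRestrict` with a projection onto the range:
`LinearMap.exists_rightInverse_of_surjective`, `LinearMap.exists_extend`/
`Submodule.exists_isCompl`); clear denominators (`IsLocalization.exist_integer_multiples` or the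
product of the denominators of the nine entries).
`approx_int`: the matrices `M = γ₂ γ₁ - γ₃` range over a finite set; take a common `D` (product) and
a bound `B` for the entries of all `M, K` with `M K M = D M`. Let `ζ = Ξ₂ + γ₂ Ξ₁ - Ξ₃ ∈ ℤ³`; then
`ζ = M va + O(ε)`, so the integer vector `D ζ - M K ζ = (D - M K)(ζ - M va)` is `O(ε)`, hence zero
for `ε ≤ ε₀`. Also `fc M = η + O(ε)` with `η = Ψ₃ - Ψ₁ - Ψ₂ γ₁ ∈ ℤ³` (from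
`fb γ₁ = fa - Ψ₁ + O(ε)`, `fc γ₂ = fb - Ψ₂ + O(ε)`, `fc γ₃ = fa - Ψ₃ + O(ε)`), and
`fb = Ψ₂ + fc γ₂ + O(ε)`, `|Ξ₁|, |ζ| = O(1)` (take `ε₀ ≤ 1`). Therefore
`D (fc·Ξ₂ - fc·Ξ₃ + fb·Ξ₁) = D Ψ₂·Ξ₁ + D fc·ζ + O(ε) = D Ψ₂·Ξ₁ + (fc M)·(K ζ) + O(ε)
= D Ψ₂·Ξ₁ + η·(K ζ) + O(ε)`. It is convenient to use the sup norm on `Fin 3 → ℝ` with
`‖A *ᵥ x‖ ≤ 3 B ‖x‖`, `‖x ᵥ* A‖ ≤ 3 B ‖x‖`, `|x ⬝ᵥ y| ≤ 3 ‖x‖ ‖y‖`. -/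

noncomputable section

open Matrix

namespace Vale.Agent.P212

theorem exists_ginv (M : Matrix (Fin 3) (Fin 3) ℤ) :
    ∃ (D : ℕ) (K : Matrix (Fin 3) (Fin 3) ℤ), 0 < D ∧ M * K * M = (D : ℤ) • M := by
  classical
  obtain ⟨Mq, hMq⟩ : ∃ Mq : Matrix (Fin 3) (Fin 3) ℚ, Mq = M.map (Int.castRingHom ℚ) := ⟨_, rfl⟩
  obtain ⟨f, hf⟩ : ∃ f : (Fin 3 → ℚ) →ₗ[ℚ] (Fin 3 → ℚ), f = Matrix.toLin' Mq := ⟨_, rfl⟩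
  obtain ⟨g, hg⟩ := f.rangeRestrict.exists_rightInverse_of_surjective f.range_rangeRestrict
  obtain ⟨p, hp⟩ := (LinearMap.range f).subtype.exists_leftInverse_of_injective
    (Submodule.ker_subtype _)
  have hfgf : f ∘ₗ (g ∘ₗ p) ∘ₗ f = f := by
    refine LinearMap.ext fun x => ?_
    have h1 : p (f x) = f.rangeRestrict x := LinearMap.congr_fun hp (f.rangeRestrict x)
    have h2 := congrArg Subtype.val (LinearMap.congr_fun hg (f.rangeRestrict x))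
    simp only [LinearMap.comp_apply, h1]
    exact h2
  obtain ⟨K₀, hK₀⟩ : ∃ K₀ : Matrix (Fin 3) (Fin 3) ℚ, K₀ = LinearMap.toMatrix' (g ∘ₗ p) := ⟨_, rfl⟩
  have hM : Mq * K₀ * Mq = Mq := by
    have := congrArg LinearMap.toMatrix' hfgf
    rw [LinearMap.toMatrix'_comp, LinearMap.toMatrix'_comp, ← hK₀, hf,
      LinearMap.toMatrix'_toLin'] at this
    rw [Matrix.mul_assoc]
    exact this
  obtain ⟨b, hb⟩ := IsLocalization.exist_integer_multiples_of_finite (nonZeroDivisors ℤ)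
    (fun ij : Fin 3 × Fin 3 => K₀ ij.1 ij.2)
  have hb' : ∀ i j, ∃ t : ℤ, (t : ℚ) = (b : ℤ) * K₀ i j := fun i j => by
    obtain ⟨t, ht⟩ := hb (i, j)
    exact ⟨t, by simpa using ht⟩
  choose K₁ hK₁ using hb'
  have hb0 : (b : ℤ) ≠ 0 := nonZeroDivisors.coe_ne_zero b
  refine ⟨(b : ℤ).natAbs * (b : ℤ).natAbs, (b : ℤ) • Matrix.of K₁,
    Nat.mul_pos (Int.natAbs_pos.2 hb0) (Int.natAbs_pos.2 hb0), ?_⟩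
  have hK : (Matrix.of K₁).map (Int.castRingHom ℚ) = ((b : ℤ) : ℚ) • K₀ := by
    ext i j
    simpa using hK₁ i j
  have key : M * Matrix.of K₁ * M = (b : ℤ) • M := by
    apply Matrix.map_injective (f := Int.castRingHom ℚ) Int.cast_injective
    change (M * Matrix.of K₁ * M).map (Int.castRingHom ℚ) = ((b : ℤ) • M).map (Int.castRingHom ℚ)
    rw [Matrix.map_mul, Matrix.map_mul, hK, ← hMq, Matrix.mul_smul, Matrix.smul_mul, hM, hMq]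
    ext i j
    simp only [Matrix.smul_apply, Matrix.map_apply, smul_eq_mul, map_mul, eq_intCast]
  rw [Matrix.mul_smul, Matrix.smul_mul, key, smul_smul]
  congr 1
  push_cast
  exact (abs_mul_abs_self _).symm

theorem cocA_common (C : ℕ) : ∃ D B : ℕ, 0 < D ∧ ∀ M : Matrix (Fin 3) (Fin 3) ℤ,
    (∀ i j, |M i j| ≤ C) → ∃ K : Matrix (Fin 3) (Fin 3) ℤ, (∀ i j, |K i j| ≤ B) ∧
      M * K * M = (D : ℤ) • M := by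
  classical
  have hfin : {M : Matrix (Fin 3) (Fin 3) ℤ | ∀ i j, |M i j| ≤ C}.Finite := by
    have h := Set.Finite.pi' (fun _ : Fin 3 => Set.Finite.pi' (fun _ : Fin 3 =>
      Set.finite_Icc (-(C : ℤ)) C))
    refine h.subset fun M hM => ?_
    intro i j
    exact abs_le.1 (hM i j)
  choose D K hD hK using exists_ginv
  obtain ⟨D₀, hD₀⟩ : ∃ D₀ : ℕ, D₀ = ∏ M ∈ hfin.toFinset, D M := ⟨_, rfl⟩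
  obtain ⟨B, hB⟩ := (hfin.image fun M => ∑ i, ∑ j,
    ((((D₀ / D M : ℕ) : ℤ) • K M) i j).natAbs).bddAbove
  refine ⟨D₀, B, hD₀ ▸ Finset.prod_pos fun M _ => hD M, fun M hM =>
    ⟨((D₀ / D M : ℕ) : ℤ) • K M, fun i j => ?_, ?_⟩⟩
  · have h1 := hB ⟨M, hM, rfl⟩
    have h2 : ((((D₀ / D M : ℕ) : ℤ) • K M) i j).natAbs ≤
        ∑ j, ((((D₀ / D M : ℕ) : ℤ) • K M) i j).natAbs :=
      Finset.single_le_sum (f := fun j => ((((D₀ / D M : ℕ) : ℤ) • K M) i j).natAbs)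
        (fun _ _ => Nat.zero_le _) (Finset.mem_univ j)
    have h3 : ∑ j, ((((D₀ / D M : ℕ) : ℤ) • K M) i j).natAbs ≤
        ∑ i, ∑ j, ((((D₀ / D M : ℕ) : ℤ) • K M) i j).natAbs :=
      Finset.single_le_sum (f := fun i => ∑ j, ((((D₀ / D M : ℕ) : ℤ) • K M) i j).natAbs)
        (fun _ _ => Nat.zero_le _) (Finset.mem_univ i)
    rw [← Int.natCast_natAbs]
    exact_mod_cast h2.trans (h3.trans h1)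
  · have hdvd : D M ∣ D₀ := hD₀ ▸ Finset.dvd_prod_of_mem _ (hfin.mem_toFinset.2 hM)
    rw [Matrix.mul_smul, Matrix.smul_mul, hK, smul_smul, ← Nat.cast_mul, Nat.div_mul_cancel hdvd]

theorem cocA_dot_le (x y : Fin 3 → ℝ) : |x ⬝ᵥ y| ≤ 3 * ‖x‖ * ‖y‖ := by
  have h : ∀ j, |x j * y j| ≤ ‖x‖ * ‖y‖ := fun j => by
    rw [abs_mul]
    exact mul_le_mul (norm_le_pi_norm x j) (norm_le_pi_norm y j) (abs_nonneg _) (norm_nonneg _)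
  have h0 := abs_le.1 (h 0)
  have h1 := abs_le.1 (h 1)
  have h2 := abs_le.1 (h 2)
  simp only [dotProduct, Fin.sum_univ_three]
  rw [abs_le]
  constructor <;> linarith [h0.1, h0.2, h1.1, h1.2, h2.1, h2.2]

theorem cocA_mulVec_le {A : Matrix (Fin 3) (Fin 3) ℝ} {B : ℝ} (hB : 0 ≤ B)
    (hA : ∀ i j, |A i j| ≤ B) (x : Fin 3 → ℝ) : ‖A *ᵥ x‖ ≤ 3 * B * ‖x‖ := by
  refine (pi_norm_le_iff_of_nonneg (by positivity)).2 fun i => ?_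
  have h1 : ‖fun j => A i j‖ ≤ B := (pi_norm_le_iff_of_nonneg hB).2 fun j => hA i j
  refine (cocA_dot_le (fun j => A i j) x).trans ?_
  gcongr

theorem cocA_vecMul_le {A : Matrix (Fin 3) (Fin 3) ℝ} {B : ℝ} (hB : 0 ≤ B)
    (hA : ∀ i j, |A i j| ≤ B) (x : Fin 3 → ℝ) : ‖x ᵥ* A‖ ≤ 3 * B * ‖x‖ := by
  refine (pi_norm_le_iff_of_nonneg (by positivity)).2 fun j => ?_
  have h1 : ‖fun i => A i j‖ ≤ B := (pi_norm_le_iff_of_nonneg hB).2 fun i => hA i j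
  refine (cocA_dot_le x (fun i => A i j)).trans ?_
  calc 3 * ‖x‖ * ‖fun i => A i j‖ ≤ 3 * ‖x‖ * B := by gcongr
    _ = 3 * B * ‖x‖ := by ring

/-- An integer vector as a real vector. -/
def rv (Ξ : Fin 3 → ℤ) : Fin 3 → ℝ := fun k => Ξ k

/-- An integer matrix as a real matrix. -/
def rm (γ : Matrix (Fin 3) (Fin 3) ℤ) : Matrix (Fin 3) (Fin 3) ℝ := γ.map (fun t => (t : ℝ))

theorem cocA_rv_add (x y : Fin 3 → ℤ) : rv (x + y) = rv x + rv y := by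
  ext k; simp [rv]

theorem cocA_rv_sub (x y : Fin 3 → ℤ) : rv (x - y) = rv x - rv y := by
  ext k; simp [rv]

theorem cocA_rv_smul (c : ℤ) (x : Fin 3 → ℤ) : rv (c • x) = (c : ℝ) • rv x := by
  ext k; simp [rv]

theorem cocA_rv_mulVec (A : Matrix (Fin 3) (Fin 3) ℤ) (x : Fin 3 → ℤ) :
    rv (A *ᵥ x) = rm A *ᵥ rv x := by
  ext k; simp [rv, rm, mulVec, dotProduct]

theorem cocA_rv_vecMul (A : Matrix (Fin 3) (Fin 3) ℤ) (x : Fin 3 → ℤ) :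
    rv (x ᵥ* A) = rv x ᵥ* rm A := by
  ext k; simp [rv, rm, vecMul, dotProduct]

theorem cocA_rv_dot (x y : Fin 3 → ℤ) : ((x ⬝ᵥ y : ℤ) : ℝ) = rv x ⬝ᵥ rv y := by
  simp [rv, dotProduct]

theorem cocA_rm_mul (A B : Matrix (Fin 3) (Fin 3) ℤ) : rm (A * B) = rm A * rm B := by
  ext i j; simp [rm, Matrix.mul_apply]

theorem cocA_rm_sub (A B : Matrix (Fin 3) (Fin 3) ℤ) : rm (A - B) = rm A - rm B := by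
  ext i j; simp [rm]

theorem cocA_rm_smul (c : ℤ) (A : Matrix (Fin 3) (Fin 3) ℤ) : rm (c • A) = (c : ℝ) • rm A := by
  ext i j
  simp only [rm, Matrix.smul_apply, Matrix.map_apply, smul_eq_mul, Int.cast_mul]

theorem cocA_rm_le {A : Matrix (Fin 3) (Fin 3) ℤ} {C : ℕ} (h : ∀ i j, |A i j| ≤ C) (i j : Fin 3) :
    |rm A i j| ≤ C := by
  have := h i j
  simp only [rm, Matrix.map_apply]
  exact_mod_cast this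

theorem cocA_eq_zero {x : Fin 3 → ℤ} (h : ‖rv x‖ < 1) : x = 0 := by
  ext k
  have h1 : |((x k : ℤ) : ℝ)| < 1 := (norm_le_pi_norm (rv x) k).trans_lt h
  have h2 : |x k| < 1 := by exact_mod_cast h1
  exact Int.abs_lt_one_iff.1 h2

theorem cocA_entry_le {C₀ : ℕ} {γ₁ γ₂ γ₃ : Matrix (Fin 3) (Fin 3) ℤ} (h₁ : ∀ i j, |γ₁ i j| ≤ C₀)
    (h₂ : ∀ i j, |γ₂ i j| ≤ C₀) (h₃ : ∀ i j, |γ₃ i j| ≤ C₀) (i j : Fin 3) :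
    |(γ₂ * γ₁ - γ₃) i j| ≤ ((3 * C₀ * C₀ + C₀ : ℕ) : ℤ) := by
  have h : ∀ k, |γ₂ i k * γ₁ k j| ≤ (C₀ : ℤ) * C₀ := fun k => by
    rw [abs_mul]
    exact mul_le_mul (h₂ i k) (h₁ k j) (abs_nonneg _) (by positivity)
  have h0 := abs_le.1 (h 0)
  have h1 := abs_le.1 (h 1)
  have h2 := abs_le.1 (h 2)
  have h3 := abs_le.1 (h₃ i j)
  simp only [Matrix.sub_apply, Matrix.mul_apply, Fin.sum_univ_three]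
  push_cast
  rw [abs_le]
  constructor <;> linarith [h0.1, h0.2, h1.1, h1.2, h2.1, h2.2, h3.1, h3.2]

/-- `Ξ ≈ γ va - vb` and `Ψ ≈ fa - fb γ`. -/
structure Appr (ε : ℝ) (γ : Matrix (Fin 3) (Fin 3) ℤ) (va vb fa fb : Fin 3 → ℝ)
    (Ξ Ψ : Fin 3 → ℤ) : Prop where
  hΞ : ‖rv Ξ - (rm γ *ᵥ va - vb)‖ ≤ ε
  hΨ : ‖rv Ψ - (fa - fb ᵥ* rm γ)‖ ≤ ε

theorem Appr.mono {ε ε' : ℝ} {γ : Matrix (Fin 3) (Fin 3) ℤ} {va vb fa fb : Fin 3 → ℝ}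
    {Ξ Ψ : Fin 3 → ℤ} (h : Appr ε γ va vb fa fb Ξ Ψ) (hε : ε ≤ ε') :
    Appr ε' γ va vb fa fb Ξ Ψ := ⟨h.hΞ.trans hε, h.hΨ.trans hε⟩

theorem approx_int (C₀ : ℕ) : ∃ (D : ℕ) (C ε₀ : ℝ), 0 < D ∧ 0 ≤ C ∧ 0 < ε₀ ∧
    ∀ (ε : ℝ) (γ₁ γ₂ γ₃ : Matrix (Fin 3) (Fin 3) ℤ) (va vb vc fa fb fc : Fin 3 → ℝ)
      (Ξ₁ Ξ₂ Ξ₃ Ψ₁ Ψ₂ Ψ₃ : Fin 3 → ℤ), ε ≤ ε₀ → (∀ i j, |γ₁ i j| ≤ C₀) → (∀ i j, |γ₂ i j| ≤ C₀) →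
      (∀ i j, |γ₃ i j| ≤ C₀) → ‖va‖ ≤ 1 → ‖vb‖ ≤ 1 → ‖vc‖ ≤ 1 → ‖fa‖ ≤ 1 → ‖fb‖ ≤ 1 → ‖fc‖ ≤ 1 →
      Appr ε γ₁ va vb fa fb Ξ₁ Ψ₁ → Appr ε γ₂ vb vc fb fc Ξ₂ Ψ₂ → Appr ε γ₃ va vc fa fc Ξ₃ Ψ₃ →
      ∃ z : ℤ, |D * (fc ⬝ᵥ rv Ξ₂ - fc ⬝ᵥ rv Ξ₃ + fb ⬝ᵥ rv Ξ₁) - z| ≤ C * ε := by
  obtain ⟨D, B, hD, hB⟩ := cocA_common (3 * C₀ * C₀ + C₀)
  obtain ⟨m, hm⟩ : ∃ m : ℝ, m = ((3 * C₀ * C₀ + C₀ : ℕ) : ℝ) := ⟨_, rfl⟩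
  obtain ⟨a, ha⟩ : ∃ a : ℝ, a = 2 + 3 * C₀ := ⟨_, rfl⟩
  have hm0 : 0 ≤ m := by rw [hm]; positivity
  have ha0 : 0 ≤ a := by rw [ha]; positivity
  have hc0 : (0 : ℝ) ≤ C₀ := by positivity
  have hB0 : (0 : ℝ) ≤ B := by positivity
  obtain ⟨Q, hQ⟩ : ∃ Q : ℝ, Q = (D + 3 * m * (3 * B)) * a := ⟨_, rfl⟩
  have hQ0 : 0 ≤ Q := by rw [hQ]; positivity
  refine ⟨D, 3 * a * (3 * B * (3 * m + a)) + D * (3 * a), 1 / (Q + 1), hD, by positivity,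
    by positivity, ?_⟩
  intro ε γ₁ γ₂ γ₃ va vb vc fa fb fc Ξ₁ Ξ₂ Ξ₃ Ψ₁ Ψ₂ Ψ₃ hε h₁ h₂ h₃ hva hvb hvc hfa hfb hfc A₁ A₂ A₃
  have hε0 : 0 ≤ ε := (norm_nonneg _).trans A₁.hΞ
  have hεQ : Q * ε < 1 := by
    have := (le_div_iff₀ (by positivity : 0 < Q + 1)).1 hε
    rcases hε0.eq_or_lt with h | h
    · rw [← h]; simp
    · nlinarith
  have hε1 : ε ≤ 1 := by
    have := (le_div_iff₀ (by positivity : 0 < Q + 1)).1 hε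
    nlinarith
  obtain ⟨M, hM⟩ : ∃ M, M = γ₂ * γ₁ - γ₃ := ⟨_, rfl⟩
  have hMle : ∀ i j, |M i j| ≤ ((3 * C₀ * C₀ + C₀ : ℕ) : ℤ) := hM ▸ cocA_entry_le h₁ h₂ h₃
  obtain ⟨K, hK, hMK⟩ := hB M hMle
  have hMr : ∀ i j, |rm M i j| ≤ m := hm ▸ cocA_rm_le hMle
  have hKr := cocA_rm_le hK
  have hg₁ := cocA_rm_le h₁
  have hg₂ := cocA_rm_le h₂
  obtain ⟨e₁, he₁⟩ : ∃ e, e = rv Ξ₁ - (rm γ₁ *ᵥ va - vb) := ⟨_, rfl⟩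
  obtain ⟨e₂, he₂⟩ : ∃ e, e = rv Ξ₂ - (rm γ₂ *ᵥ vb - vc) := ⟨_, rfl⟩
  obtain ⟨e₃, he₃⟩ : ∃ e, e = rv Ξ₃ - (rm γ₃ *ᵥ va - vc) := ⟨_, rfl⟩
  obtain ⟨d₁, hd₁⟩ : ∃ e, e = rv Ψ₁ - (fa - fb ᵥ* rm γ₁) := ⟨_, rfl⟩
  obtain ⟨d₂, hd₂⟩ : ∃ e, e = rv Ψ₂ - (fb - fc ᵥ* rm γ₂) := ⟨_, rfl⟩
  obtain ⟨d₃, hd₃⟩ : ∃ e, e = rv Ψ₃ - (fa - fc ᵥ* rm γ₃) := ⟨_, rfl⟩
  have ne₁ : ‖e₁‖ ≤ ε := he₁ ▸ A₁.hΞ
  have ne₂ : ‖e₂‖ ≤ ε := he₂ ▸ A₂.hΞ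
  have ne₃ : ‖e₃‖ ≤ ε := he₃ ▸ A₃.hΞ
  have nd₁ : ‖d₁‖ ≤ ε := hd₁ ▸ A₁.hΨ
  have nd₂ : ‖d₂‖ ≤ ε := hd₂ ▸ A₂.hΨ
  have nd₃ : ‖d₃‖ ≤ ε := hd₃ ▸ A₃.hΨ
  obtain ⟨ζ, hζ⟩ : ∃ ζ, ζ = Ξ₂ + γ₂ *ᵥ Ξ₁ - Ξ₃ := ⟨_, rfl⟩
  obtain ⟨η, hη⟩ : ∃ η, η = Ψ₃ - Ψ₁ - Ψ₂ ᵥ* γ₁ := ⟨_, rfl⟩
  obtain ⟨eζ, heζ⟩ : ∃ e, e = e₂ + rm γ₂ *ᵥ e₁ - e₃ := ⟨_, rfl⟩
  obtain ⟨dη, hdη⟩ : ∃ e, e = d₃ - d₁ - d₂ ᵥ* rm γ₁ := ⟨_, rfl⟩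
  have hrM : rm M = rm γ₂ * rm γ₁ - rm γ₃ := by rw [hM, cocA_rm_sub, cocA_rm_mul]
  have hζr : rv ζ = rv Ξ₂ + rm γ₂ *ᵥ rv Ξ₁ - rv Ξ₃ := by
    rw [hζ, cocA_rv_sub, cocA_rv_add, cocA_rv_mulVec]
  have hζe : rv ζ = rm M *ᵥ va + eζ := by
    rw [hζr, heζ, he₁, he₂, he₃, hrM]
    simp only [Matrix.mulVec_sub, Matrix.sub_mulVec, Matrix.mulVec_mulVec]
    abel
  have hηe : rv η = fc ᵥ* rm M + dη := by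
    rw [hη, cocA_rv_sub, cocA_rv_sub, cocA_rv_vecMul, hdη, hd₁, hd₂, hd₃, hrM]
    simp only [Matrix.vecMul_sub, Matrix.sub_vecMul, Matrix.vecMul_vecMul]
    abel
  have neζ : ‖eζ‖ ≤ a * ε := by
    have h1 := cocA_mulVec_le hc0 hg₂ e₁
    have h2 : 3 * (C₀ : ℝ) * ‖e₁‖ ≤ 3 * C₀ * ε := by gcongr
    have h3 : ‖eζ‖ ≤ ‖e₂‖ + ‖rm γ₂ *ᵥ e₁‖ + ‖e₃‖ := by
      rw [heζ]
      exact (norm_sub_le _ _).trans (by gcongr; exact norm_add_le _ _)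
    rw [ha]; linarith
  have ndη : ‖dη‖ ≤ a * ε := by
    have h1 := cocA_vecMul_le hc0 hg₁ d₂
    have h2 : 3 * (C₀ : ℝ) * ‖d₂‖ ≤ 3 * C₀ * ε := by gcongr
    have h3 : ‖dη‖ ≤ ‖d₃‖ + ‖d₁‖ + ‖d₂ ᵥ* rm γ₁‖ := by
      rw [hdη]
      exact (norm_sub_le _ _).trans (by gcongr; exact norm_sub_le _ _)
    rw [ha]; linarith
  have hMKr : rm M * rm K * rm M = (D : ℝ) • rm M := by
    rw [← cocA_rm_mul, ← cocA_rm_mul, hMK, cocA_rm_smul, Int.cast_natCast]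
  have hzero : (D : ℤ) • ζ - M *ᵥ (K *ᵥ ζ) = 0 := by
    apply cocA_eq_zero
    have h1 : rv ((D : ℤ) • ζ - M *ᵥ (K *ᵥ ζ)) = (D : ℝ) • eζ - rm M *ᵥ (rm K *ᵥ eζ) := by
      rw [cocA_rv_sub, cocA_rv_smul, cocA_rv_mulVec, cocA_rv_mulVec, hζe, Matrix.mulVec_add,
        Matrix.mulVec_add, Matrix.mulVec_mulVec, Matrix.mulVec_mulVec, hMKr, Int.cast_natCast,
        Matrix.smul_mulVec, smul_add]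
      abel
    have h2 := cocA_mulVec_le hm0 hMr (rm K *ᵥ eζ)
    have h3 := cocA_mulVec_le hB0 hKr eζ
    have h4 : ‖(D : ℝ) • eζ‖ ≤ D * (a * ε) := by
      rw [norm_smul, Real.norm_natCast]; gcongr
    have h5 : 3 * m * ‖rm K *ᵥ eζ‖ ≤ 3 * m * (3 * B * (a * ε)) := by
      gcongr
      exact h3.trans (by gcongr)
    rw [h1]
    refine (norm_sub_le _ _).trans_lt (lt_of_le_of_lt ?_ hεQ)
    rw [hQ]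
    linarith
  have hDζ : (D : ℝ) • rv ζ = rm M *ᵥ (rm K *ᵥ rv ζ) := by
    have := congrArg rv (sub_eq_zero.1 hzero)
    rwa [cocA_rv_smul, cocA_rv_mulVec, cocA_rv_mulVec, Int.cast_natCast] at this
  refine ⟨D * (Ψ₂ ⬝ᵥ Ξ₁) + η ⬝ᵥ (K *ᵥ ζ), ?_⟩
  have hfb' : fb = rv Ψ₂ - d₂ + fc ᵥ* rm γ₂ := by rw [hd₂]; abel
  have hmain : (D : ℝ) * (fc ⬝ᵥ rv Ξ₂ - fc ⬝ᵥ rv Ξ₃ + fb ⬝ᵥ rv Ξ₁) -
      ((D * (Ψ₂ ⬝ᵥ Ξ₁) + η ⬝ᵥ (K *ᵥ ζ) : ℤ) : ℝ) =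
      -(dη ⬝ᵥ (rm K *ᵥ rv ζ)) - D * (d₂ ⬝ᵥ rv Ξ₁) := by
    have h1 : fb ⬝ᵥ rv Ξ₁ = rv Ψ₂ ⬝ᵥ rv Ξ₁ - d₂ ⬝ᵥ rv Ξ₁ + fc ⬝ᵥ (rm γ₂ *ᵥ rv Ξ₁) := by
      rw [Matrix.dotProduct_mulVec, ← sub_dotProduct, ← add_dotProduct, ← hfb']
    have h2 : fc ⬝ᵥ rv ζ = fc ⬝ᵥ rv Ξ₂ + fc ⬝ᵥ (rm γ₂ *ᵥ rv Ξ₁) - fc ⬝ᵥ rv Ξ₃ := by
      rw [hζr, dotProduct_sub, dotProduct_add]
    have h3 : (D : ℝ) * (fc ⬝ᵥ rv ζ) = (fc ᵥ* rm M) ⬝ᵥ (rm K *ᵥ rv ζ) := by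
      rw [← Matrix.dotProduct_mulVec, ← hDζ, dotProduct_smul, smul_eq_mul]
    have h4 : rv η ⬝ᵥ (rm K *ᵥ rv ζ) =
        (fc ᵥ* rm M) ⬝ᵥ (rm K *ᵥ rv ζ) + dη ⬝ᵥ (rm K *ᵥ rv ζ) := by
      rw [hηe, add_dotProduct]
    rw [Int.cast_add, Int.cast_mul, cocA_rv_dot, cocA_rv_dot, cocA_rv_mulVec, Int.cast_natCast, h4,
      ← h3, h1, h2]
    ring
  have nΞ₁ : ‖rv Ξ₁‖ ≤ a := by
    have h1 : rv Ξ₁ = e₁ + (rm γ₁ *ᵥ va - vb) := by rw [he₁]; abel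
    have h2 := cocA_mulVec_le hc0 hg₁ va
    have h3 : 3 * (C₀ : ℝ) * ‖va‖ ≤ 3 * C₀ * 1 := by gcongr
    have h4 : ‖rv Ξ₁‖ ≤ ‖e₁‖ + (‖rm γ₁ *ᵥ va‖ + ‖vb‖) := by
      rw [h1]
      exact (norm_add_le _ _).trans (by gcongr; exact norm_sub_le _ _)
    rw [ha]; linarith
  have nζ : ‖rv ζ‖ ≤ 3 * m + a := by
    have h2 := cocA_mulVec_le hm0 hMr va
    have h3 : 3 * m * ‖va‖ ≤ 3 * m * 1 := by gcongr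
    have h4 : a * ε ≤ a * 1 := by gcongr
    have h5 : ‖rv ζ‖ ≤ ‖rm M *ᵥ va‖ + ‖eζ‖ := by rw [hζe]; exact norm_add_le _ _
    linarith
  have nKζ : ‖rm K *ᵥ rv ζ‖ ≤ 3 * B * (3 * m + a) :=
    (cocA_mulVec_le hB0 hKr _).trans (by gcongr)
  have b1 : |dη ⬝ᵥ (rm K *ᵥ rv ζ)| ≤ 3 * (a * ε) * (3 * B * (3 * m + a)) :=
    (cocA_dot_le _ _).trans (by gcongr)
  have b2 : |d₂ ⬝ᵥ rv Ξ₁| ≤ 3 * ε * a := (cocA_dot_le _ _).trans (by gcongr)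
  have b3 : |(D : ℝ) * (d₂ ⬝ᵥ rv Ξ₁)| ≤ D * (3 * ε * a) := by
    rw [abs_mul, Nat.abs_cast]; gcongr
  rw [hmain]
  refine (abs_sub _ _).trans ?_
  rw [abs_neg]
  linarith

end Vale.Agent.P212
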