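import Vale.Agent.P212.Space
import Vale.Agent.P212.CocApprox

/-! TASK CocData: the integer transition data of two close points of `Xsp`.
Plan. By `iter_rel` there is `g` with `Small C g` and `λ = b.w⁻¹ * (dil j g * a.w) ∈ Lam n`,
`j = a.i - r ≤ a.i`. Write `λ = (γ, N Ξ, N Ψ, R κ, R κ', R² σ)` and compare the coordinates of
`dil j g * a.w = b.w * λ` (`a.w.γ = b.w.γ = 1`): `γ = g.γ`, `N Ξ = 2^j g.v + γ a.v - b.v`,
`N Ψ = 2^j g.φ + a.φ - b.φ γ`, `R κ = 2^j g.x + a.x - b.x`, `R κ' = 2^j g.y + a.y - b.y`,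
`R² σ = 4^j g.s + a.s - b.s + 2^j g.φ · a.v + 2^j g.y a.x - N b.φ · Ξ - R b.y κ`. Divide; note
`N² / R² = R` and `N / R² = 1 / 2^ν`. `E = 5 C` works. (`a.n = b.n` by `Iter.lv_eq`.) -/

noncomputable section

open Matrix

namespace Vale.Agent.P212

theorem cocD_norm_le {N : ℕ} (hN : 0 < N) {u : Fin 3 → ℤ} (h : ∀ k, 0 ≤ u k ∧ u k < N) :
    ‖fun k => (u k : ℝ) / N‖ ≤ 1 := by
  refine (pi_norm_le_iff_of_nonneg zero_le_one).2 fun k => ?_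
  have h0 : (0 : ℝ) ≤ u k := by exact_mod_cast (h k).1
  have h1 : (u k : ℝ) < N := by exact_mod_cast (h k).2
  have hN' : (0 : ℝ) < N := by exact_mod_cast hN
  rw [Real.norm_eq_abs, abs_of_nonneg (by positivity), div_le_one hN']
  exact h1.le

namespace Xsp

/-- Normalized coordinates. -/
def vb (p : Xsp) : Fin 3 → ℝ := fun k => p.w.v k / NN p.n
/-- Normalized coordinates. -/
def fb (p : Xsp) : Fin 3 → ℝ := fun k => p.w.φ k / NN p.n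
/-- Normalized coordinates. -/
def xb (p : Xsp) : ℝ := p.w.x / RR p.n
/-- Normalized coordinates. -/
def yb (p : Xsp) : ℝ := p.w.y / RR p.n
/-- Normalized coordinates. -/
def sb (p : Xsp) : ℝ := p.w.s / (RR p.n : ℝ) ^ 2

theorem norm_vb_le (p : Xsp) : ‖p.vb‖ ≤ 1 :=
  cocD_norm_le (NN_pos _) p.isRed.v

theorem norm_fb_le (p : Xsp) : ‖p.fb‖ ≤ 1 :=
  cocD_norm_le (NN_pos _) p.isRed.φ

end Xsp

/-- Transition data. -/
structure PairDat : Type where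
  γ : Matrix (Fin 3) (Fin 3) ℤ
  Ξ : Fin 3 → ℤ
  Ψ : Fin 3 → ℤ
  κ : ℤ
  κ' : ℤ
  σ : ℤ

/-- The estimates satisfied by the transition data of `a, b`. -/
structure PairEst (C₀ : ℕ) (E : ℝ) (a b : Xsp) (d : PairDat) : Prop where
  γ : ∀ i j, |d.γ i j| ≤ C₀
  appr : Appr (E * 2 ^ a.i / 8 ^ nu a.n) d.γ a.vb b.vb a.fb b.fb d.Ξ d.Ψ
  κ : |d.κ - (a.xb - b.xb)| ≤ E * 2 ^ a.i / 4 ^ nu a.n
  κ' : |d.κ' - (a.yb - b.yb)| ≤ E * 2 ^ a.i / 4 ^ nu a.n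
  σ : |d.σ + b.yb * d.κ + RR a.n * (b.fb ⬝ᵥ rv d.Ξ) + b.sb - a.sb| ≤ E * 4 ^ a.i / 2 ^ nu a.n

theorem cocD_div_le {C : ℕ} {t : ℤ} (ht : |t| ≤ C) {i j : ℕ} (hj : j ≤ i) {N : ℝ} (hN : 0 < N) :
    |(2 ^ j * t : ℝ) / N| ≤ 5 * C * 2 ^ i / N := by
  have h1 : |(t : ℝ)| ≤ C := by exact_mod_cast ht
  have h2 : (2 : ℝ) ^ j ≤ 2 ^ i := pow_le_pow_right₀ one_le_two hj
  have h3 : (0 : ℝ) ≤ C := by positivity
  rw [abs_div, abs_of_pos hN, abs_mul, abs_of_pos (by positivity : (0 : ℝ) < 2 ^ j)]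
  refine div_le_div_of_nonneg_right ?_ hN.le
  have h4 : (2 : ℝ) ^ j * |(t : ℝ)| ≤ 2 ^ i * C := by gcongr
  have h5 : (0 : ℝ) ≤ 2 ^ i * C := by positivity
  linarith

theorem cocD_s_le {C : ℕ} {g : G9} (hg : Small C g) {i j : ℕ} (hj : j ≤ i) {n : ℕ} {w : G9}
    (hw : IsRed n w) :
    |((4 ^ j * g.s + ((2 ^ j : ℤ) • g.φ) ⬝ᵥ w.v + 2 ^ j * g.y * w.x : ℤ) : ℝ) / (RR n : ℝ) ^ 2| ≤
      5 * C * 4 ^ i / 2 ^ nu n := by
  have hN : (RR n : ℤ) ≤ NN n := by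
    have : RR n ≤ NN n := Nat.pow_le_pow_left (by norm_num) _
    exact_mod_cast this
  have hN1 : (1 : ℤ) ≤ NN n := by exact_mod_cast NN_pos n
  have h2 : (2 : ℤ) ^ j ≤ 4 ^ i :=
    (pow_le_pow_left₀ (by norm_num) (by norm_num) j).trans (pow_le_pow_right₀ (by norm_num) hj)
  have h4 : (4 : ℤ) ^ j ≤ 4 ^ i := pow_le_pow_right₀ (by norm_num) hj
  have hC : (0 : ℤ) ≤ C := by positivity
  have hs : |4 ^ j * g.s| ≤ 4 ^ i * (C * NN n) := by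
    rw [abs_mul, abs_of_pos (by positivity : (0 : ℤ) < 4 ^ j)]
    exact mul_le_mul h4 (hg.s.trans (le_mul_of_one_le_right hC hN1)) (abs_nonneg _)
      (by positivity)
  have hk : ∀ k, |2 ^ j * g.φ k * w.v k| ≤ 4 ^ i * (C * NN n) := fun k => by
    rw [mul_assoc, abs_mul, abs_mul, abs_of_pos (by positivity : (0 : ℤ) < 2 ^ j),
      abs_of_nonneg (hw.v k).1]
    exact mul_le_mul h2 (mul_le_mul (hg.φ k) (hw.v k).2.le (hw.v k).1 hC)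
      (mul_nonneg (abs_nonneg _) (hw.v k).1) (by positivity)
  have hy : |2 ^ j * g.y * w.x| ≤ 4 ^ i * (C * NN n) := by
    rw [mul_assoc, abs_mul, abs_mul, abs_of_pos (by positivity : (0 : ℤ) < 2 ^ j),
      abs_of_nonneg hw.x.1]
    exact mul_le_mul h2 (mul_le_mul hg.y (hw.x.2.le.trans hN) hw.x.1 hC)
      (mul_nonneg (abs_nonneg _) hw.x.1) (by positivity)
  have hall : |4 ^ j * g.s + ((2 ^ j : ℤ) • g.φ) ⬝ᵥ w.v + 2 ^ j * g.y * w.x| ≤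
      5 * (4 ^ i * (C * NN n)) := by
    have h0 := abs_le.1 (hk 0)
    have h1 := abs_le.1 (hk 1)
    have h2 := abs_le.1 (hk 2)
    have h3 := abs_le.1 hs
    have h4 := abs_le.1 hy
    simp only [dotProduct, Fin.sum_univ_three, Pi.smul_apply, smul_eq_mul]
    rw [abs_le]
    constructor <;> linarith [h0.1, h0.2, h1.1, h1.2, h2.1, h2.2, h3.1, h3.2, h4.1, h4.2]
  have hall' : |((4 ^ j * g.s + ((2 ^ j : ℤ) • g.φ) ⬝ᵥ w.v + 2 ^ j * g.y * w.x : ℤ) : ℝ)| ≤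
      5 * (4 ^ i * (C * NN n)) := by exact_mod_cast hall
  have hR : (0 : ℝ) < (RR n : ℝ) ^ 2 := by have := RR_pos n; positivity
  have hNR : (RR n : ℝ) ^ 2 = NN n * 2 ^ nu n := by
    simp only [RR, NN, Nat.cast_pow, Nat.cast_ofNat]
    rw [← mul_pow, ← pow_mul, mul_comm, pow_mul]
    norm_num
  have hN0 : (0 : ℝ) < NN n := by exact_mod_cast NN_pos n
  rw [abs_div, abs_of_pos hR, div_le_div_iff₀ hR (by positivity), hNR]
  calc _ ≤ 5 * (4 ^ i * (C * NN n)) * (2 : ℝ) ^ nu n := by gcongr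
    _ = _ := by ring

theorem exists_pairEst (r : ℕ) : ∃ (C₀ : ℕ) (E : ℝ), 0 ≤ E ∧
    ∀ a b : Xsp, Iter StepX r a b → ∃ d, PairEst C₀ E a b d := by
  obtain ⟨C, hC⟩ := iter_rel r
  refine ⟨C, 5 * C, by positivity, fun a b hab => ?_⟩
  obtain ⟨-, -, -, -, g, hg, hl⟩ := hC a b hab
  have hn : b.n = a.n := (Iter.lv_eq r a b hab).symm
  have hj : a.i - r ≤ a.i := Nat.sub_le _ _
  generalize a.i - r = j at hj hl
  obtain ⟨l, hl'⟩ : ∃ l, l = b.w⁻¹ * (dil j g * a.w) := ⟨_, rfl⟩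
  rw [← hl'] at hl
  have he : b.w * l = dil j g * a.w := by rw [hl', mul_inv_cancel_left]
  obtain ⟨hv, hφ, ⟨κ, hκ⟩, ⟨κ', hκ'⟩, ⟨σ, hσ⟩⟩ := mem_Lam.1 hl
  choose Ξ hΞ using hv
  choose Ψ hΨ using hφ
  have haγ := a.isRed.γ
  have hbγ := b.isRed.γ
  have eγ : l.γ = g.γ := by simpa [haγ, hbγ] using congrArg G9.γ he
  have ev : b.w.v + l.v = (2 ^ j : ℤ) • g.v + g.γ.1 *ᵥ a.w.v := by
    simpa [haγ, hbγ] using congrArg G9.v he
  have eφ : b.w.φ ᵥ* g.γ.1 + l.φ = (2 ^ j : ℤ) • g.φ + a.w.φ := by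
    have := congrArg G9.φ he
    rw [G9.mul_φ, G9.mul_φ, eγ, haγ, dil_φ] at this
    simpa using this
  have ex : b.w.x + l.x = 2 ^ j * g.x + a.w.x := congrArg G9.x he
  have ey : b.w.y + l.y = 2 ^ j * g.y + a.w.y := congrArg G9.y he
  have es : b.w.s + l.s + b.w.φ ⬝ᵥ l.v + b.w.y * l.x =
      4 ^ j * g.s + a.w.s + ((2 ^ j : ℤ) • g.φ) ⬝ᵥ a.w.v + 2 ^ j * g.y * a.w.x :=
    congrArg G9.s he
  have hN0 : (0 : ℝ) < NN a.n := by exact_mod_cast NN_pos a.n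
  have hR0 : (0 : ℝ) < RR a.n := by exact_mod_cast RR_pos a.n
  have hN8 : (8 : ℝ) ^ nu a.n = NN a.n := by simp [NN]
  have hR4 : (4 : ℝ) ^ nu a.n = RR a.n := by simp [RR]
  have hNR : (NN a.n : ℝ) ^ 2 = (RR a.n : ℝ) ^ 3 := by
    rw [← hN8, ← hR4, ← pow_mul, ← pow_mul, mul_comm, pow_mul, mul_comm _ 3, pow_mul]
    norm_num
  refine ⟨⟨g.γ.1, Ξ, Ψ, κ, κ', σ⟩, hg.γ, ⟨?_, ?_⟩, ?_, ?_, ?_⟩
  · refine (pi_norm_le_iff_of_nonneg (by positivity)).2 fun k => ?_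
    have h1 := congrFun ev k
    simp only [Pi.add_apply, Pi.smul_apply, smul_eq_mul, hΞ, mulVec, dotProduct,
      Fin.sum_univ_three] at h1
    have h2 := congrArg (Int.cast (R := ℝ)) h1
    push_cast at h2
    have h3 : (rv Ξ - (rm g.γ.1 *ᵥ a.vb - b.vb)) k = (2 ^ j * g.v k : ℝ) / NN a.n := by
      simp only [Pi.sub_apply, rv, rm, mulVec, dotProduct, Fin.sum_univ_three, Matrix.map_apply,
        Xsp.vb, hn]
      field_simp
      linarith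
    rw [hN8, Real.norm_eq_abs, h3]
    exact cocD_div_le (hg.v k) hj hN0
  · refine (pi_norm_le_iff_of_nonneg (by positivity)).2 fun k => ?_
    have h1 := congrFun eφ k
    simp only [Pi.add_apply, Pi.smul_apply, smul_eq_mul, hΨ, vecMul, dotProduct,
      Fin.sum_univ_three] at h1
    have h2 := congrArg (Int.cast (R := ℝ)) h1
    push_cast at h2
    have h3 : (rv Ψ - (a.fb - b.fb ᵥ* rm g.γ.1)) k = (2 ^ j * g.φ k : ℝ) / NN a.n := by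
      simp only [Pi.sub_apply, rv, rm, vecMul, dotProduct, Fin.sum_univ_three, Matrix.map_apply,
        Xsp.fb, hn]
      field_simp
      linarith
    rw [hN8, Real.norm_eq_abs, h3]
    exact cocD_div_le (hg.φ k) hj hN0
  · rw [hκ] at ex
    have h2 := congrArg (Int.cast (R := ℝ)) ex
    push_cast at h2
    have h3 : (κ : ℝ) - (a.xb - b.xb) = (2 ^ j * g.x : ℝ) / RR a.n := by
      simp only [Xsp.xb, hn]
      field_simp
      linarith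
    rw [hR4, h3]
    exact cocD_div_le hg.x hj hR0
  · rw [hκ'] at ey
    have h2 := congrArg (Int.cast (R := ℝ)) ey
    push_cast at h2
    have h3 : (κ' : ℝ) - (a.yb - b.yb) = (2 ^ j * g.y : ℝ) / RR a.n := by
      simp only [Xsp.yb, hn]
      field_simp
      linarith
    rw [hR4, h3]
    exact cocD_div_le hg.y hj hR0
  · have h1 : b.w.φ ⬝ᵥ l.v = NN a.n * (b.w.φ ⬝ᵥ Ξ) := by
      simp only [dotProduct, Fin.sum_univ_three, hΞ]
      ring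
    have h2 : ((b.w.φ ⬝ᵥ Ξ : ℤ) : ℝ) = NN a.n * (b.fb ⬝ᵥ rv Ξ) := by
      simp only [dotProduct, Fin.sum_univ_three, Xsp.fb, rv, hn]
      push_cast
      field_simp
    obtain ⟨Z, hZ⟩ : ∃ Z : ℤ,
      Z = 4 ^ j * g.s + ((2 ^ j : ℤ) • g.φ) ⬝ᵥ a.w.v + 2 ^ j * g.y * a.w.x := ⟨_, rfl⟩
    have h4 : b.w.s + (RR a.n : ℤ) ^ 2 * σ + NN a.n * (b.w.φ ⬝ᵥ Ξ) + b.w.y * (RR a.n * κ) =
        Z + a.w.s := by
      rw [← hσ, ← h1, ← hκ, es, hZ]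
      ring
    have h5 := congrArg (Int.cast (R := ℝ)) h4
    simp only [Int.cast_add, Int.cast_mul, Int.cast_pow, Int.cast_natCast, h2] at h5
    have h3 : (σ : ℝ) + b.yb * κ + RR a.n * (b.fb ⬝ᵥ rv Ξ) + b.sb - a.sb =
        (Z : ℝ) / (RR a.n : ℝ) ^ 2 := by
      simp only [Xsp.yb, Xsp.sb, hn]
      field_simp
      linear_combination h5 - (b.fb ⬝ᵥ rv Ξ) * hNR
    change |(σ : ℝ) + b.yb * κ + RR a.n * (b.fb ⬝ᵥ rv Ξ) + b.sb - a.sb| ≤ _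
    rw [h3, hZ]
    exact cocD_s_le hg hj a.isRed

end Vale.Agent.P212
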