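import Vale.Agent.P212.Defs1

/-! The column operator `ξ ↦ (π (φ x) ξ)_x`, and the universal seminorm. -/

noncomputable section

open scoped ZeroAtInfty

namespace Vale.Agent.P212

section Cover

variable {X Ω H : Type} [TopologicalSpace Ω] [NormedAddCommGroup H] [InnerProductSpace ℂ H]
  [CompleteSpace H]

theorem cover_norm_le (π : C0Rep Ω H) (f : C0 Ω) : ‖π f‖ ≤ ‖f‖ :=
  NonUnitalStarAlgHom.norm_apply_le (A := C₀(Ω, ℂ)) (B := H →L[ℂ] H) π f

theorem cover_sum_apply {φ : X → C0 Ω} (s : Finset X) (ω : Ω) :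
    (∑ x ∈ s, star (φ x) * φ x) ω = ((∑ x ∈ s, ‖φ x ω‖ ^ 2 : ℝ) : ℂ) := by
  classical
  induction s using Finset.induction_on with
  | empty => simp
  | insert a s ha ih =>
    rw [Finset.sum_insert ha, Finset.sum_insert ha, ZeroAtInftyContinuousMap.add_apply, ih]
    have h : (star (φ a) * φ a) ω = ((‖φ a ω‖ ^ 2 : ℝ) : ℂ) := by
      change star (φ a ω) * φ a ω = _
      rw [Complex.star_def, Complex.conj_mul']
      push_cast
      rfl
    rw [h]
    push_cast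
    rfl

theorem cover_sum_norm_le {φ : X → C0 Ω} (hφ : SumSqLe φ) (s : Finset X) :
    ‖∑ x ∈ s, star (φ x) * φ x‖ ≤ 1 := by
  rw [← ZeroAtInftyContinuousMap.norm_toBCF_eq_norm, BoundedContinuousFunction.norm_le zero_le_one]
  intro ω
  change ‖(∑ x ∈ s, star (φ x) * φ x) ω‖ ≤ 1
  rw [cover_sum_apply, Complex.norm_real, Real.norm_of_nonneg (by positivity)]
  exact hφ s ω

theorem sum_cover_le (π : C0Rep Ω H) {φ : X → C0 Ω} (hφ : SumSqLe φ) (ξ : H) (s : Finset X) :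
    ∑ x ∈ s, ‖π (φ x) ξ‖ ^ 2 ≤ ‖ξ‖ ^ 2 := by
  have h1 : ∀ x, ((‖π (φ x) ξ‖ ^ 2 : ℝ) : ℂ) = inner ℂ ξ (π (star (φ x) * φ x) ξ) := by
    intro x
    rw [map_mul, map_star]
    change _ = inner ℂ ξ (ContinuousLinearMap.adjoint (π (φ x)) (π (φ x) ξ))
    rw [ContinuousLinearMap.adjoint_inner_right, inner_self_eq_norm_sq_to_K]
    push_cast
    rfl
  have h2 : ((∑ x ∈ s, ‖π (φ x) ξ‖ ^ 2 : ℝ) : ℂ) =
      inner ℂ ξ (π (∑ x ∈ s, star (φ x) * φ x) ξ) := by
    rw [Complex.ofReal_sum, map_sum, sum_apply, inner_sum]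
    exact Finset.sum_congr rfl fun x _ => h1 x
  have h3 : ‖inner ℂ ξ (π (∑ x ∈ s, star (φ x) * φ x) ξ)‖ ≤ ‖ξ‖ ^ 2 := by
    refine (norm_inner_le_norm _ _).trans ?_
    have h4 : ‖π (∑ x ∈ s, star (φ x) * φ x) ξ‖ ≤ ‖ξ‖ := by
      refine ((π _).le_opNorm ξ).trans ?_
      have := (cover_norm_le π _).trans (cover_sum_norm_le hφ s)
      exact mul_le_of_le_one_left (norm_nonneg _) this
    rw [sq]
    exact mul_le_mul_of_nonneg_left h4 (norm_nonneg _)
  rw [← h2, Complex.norm_real, Real.norm_of_nonneg (by positivity)] at h3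
  exact h3

theorem memℓp_cover_aux (π : C0Rep Ω H) {φ : X → C0 Ω} (hφ : SumSqLe φ) (ξ : H) :
    Memℓp (columnFun π φ ξ) 2 := by
  refine memℓp_gen' (C := ‖ξ‖ ^ 2) fun s => ?_
  have := sum_cover_le π hφ ξ s
  simpa [columnFun] using this

theorem norm_cover_aux (π : C0Rep Ω H) {φ : X → C0 Ω} (hφ : SumSqLe φ) (ξ : H) (η : L2 X H)
    (h : ∀ x, η x = π (φ x) ξ) : ‖η‖ ≤ 1 * ‖ξ‖ := by
  rw [one_mul]
  refine lp.norm_le_of_forall_sum_le (p := 2) (by norm_num) (norm_nonneg ξ) fun s => ?_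
  have := sum_cover_le π hφ ξ s
  simpa [h] using this

end Cover

section Max

variable {A : Type} [Ring A] [StarRing A] [Algebra ℂ A]

theorem maxNorm_nonneg (a : A) : 0 ≤ maxNorm a := by
  refine Real.sSup_nonneg ?_
  rintro t ⟨K, _, _, _, ρ, rfl⟩
  exact norm_nonneg (ρ a)

theorem maxNorm_le {a : A} {C : ℝ} (hC : 0 ≤ C) 
    (h : ∀ (K : Type) [NormedAddCommGroup K] [InnerProductSpace ℂ K] [CompleteSpace K]
      (ρ : RepOn A K), ‖ρ a‖ ≤ C) :
    maxNorm a ≤ C := by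
  refine Real.sSup_le ?_ hC
  rintro t ⟨K, _, _, _, ρ, rfl⟩
  exact h K ρ

theorem le_maxNorm [RepBdd A] {K : Type} [NormedAddCommGroup K] [InnerProductSpace ℂ K]
    [CompleteSpace K] (ρ : RepOn A K) (a : A) : ‖ρ a‖ ≤ maxNorm a :=
  le_csSup (RepBdd.bdd a) ⟨K, _, _, _, ρ, rfl⟩

theorem maxNorm_zero_aux : maxNorm (0 : A) = 0 := by
  refine le_antisymm (maxNorm_le le_rfl fun K _ _ _ ρ => ?_) (maxNorm_nonneg _)
  rw [map_zero]
  exact norm_zero.le

theorem maxNorm_neg_aux (a : A) : maxNorm (-a) = maxNorm a := by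
  have h : repNorms (-a) = repNorms a := by
    ext t
    constructor
    · rintro ⟨K, _, _, _, ρ, rfl⟩
      refine ⟨K, _, _, _, ρ, ?_⟩
      unfold homNorm
      rw [map_neg]
      exact norm_neg (ρ a)
    · rintro ⟨K, _, _, _, ρ, rfl⟩
      refine ⟨K, _, _, _, ρ, ?_⟩
      unfold homNorm
      rw [map_neg]
      exact (norm_neg (ρ a)).symm
  unfold maxNorm
  rw [h]

theorem maxNorm_add_aux [RepBdd A] (a b : A) : maxNorm (a + b) ≤ maxNorm a + maxNorm b := by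
  refine maxNorm_le (add_nonneg (maxNorm_nonneg a) (maxNorm_nonneg b)) fun K _ _ _ ρ => ?_
  rw [map_add]
  exact (norm_add_le (ρ a) (ρ b)).trans (add_le_add (le_maxNorm ρ a) (le_maxNorm ρ b))

theorem maxNorm_mul_aux [RepBdd A] (a b : A) : maxNorm (a * b) ≤ maxNorm a * maxNorm b := by
  refine maxNorm_le (mul_nonneg (maxNorm_nonneg a) (maxNorm_nonneg b)) fun K _ _ _ ρ => ?_
  rw [map_mul]
  exact (norm_mul_le (ρ a) (ρ b)).trans
    (mul_le_mul (le_maxNorm ρ a) (le_maxNorm ρ b) (norm_nonneg (ρ b)) (maxNorm_nonneg a))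

end Max

end Vale.Agent.P212
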