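import Vale.Agent.P212.RipsTop
import Vale.Agent.P212.Cover

open scoped ZeroAtInfty

noncomputable section

namespace Vale.Agent.P212

/-! ### The universal completion -/

section Max

variable (A : Type) [Ring A] [StarRing A] [Algebra ℂ A]

/-- The universal norm as a ring seminorm. -/
def maxSeminorm [RepBdd A] : RingSeminorm A where
  toFun := maxNorm
  map_zero' := (by exact id maxNorm_zero_aux)
  add_le' := (by exact id maxNorm_add_aux)
  neg' := (by exact id maxNorm_neg_aux)
  mul_le' := (by exact id maxNorm_mul_aux)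

/-- The seminormed ring `(R, p)`. -/
abbrev normedBy {R : Type} [Ring R] (p : RingSeminorm R) : SeminormedRing R := p.toSeminormedRing

/-- `A`, to be equipped with the universal norm. -/
def WithMaxNorm : Type := A

instance WithMaxNorm.seminormedRing [RepBdd A] : SeminormedRing (WithMaxNorm A) :=
  normedBy (R := A) (maxSeminorm A)

/-- The completion of `A` in the universal norm. -/
def CStarMax [RepBdd A] : Type := UniformSpace.Completion (WithMaxNorm A)

instance CStarMax.normedRing [RepBdd A] : NormedRing (CStarMax A) :=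
  UniformSpace.Completion.instNormedRing (WithMaxNorm A)

instance CStarMax.ring [RepBdd A] : Ring (CStarMax A) := (CStarMax.normedRing A).toRing

/-- The canonical map of `A` to its completion. -/
def toMax [RepBdd A] : A →+* CStarMax A := UniformSpace.Completion.coeRingHom (α := WithMaxNorm A)

end Max

section Column

variable {X Ω H : Type} [TopologicalSpace Ω] [NormedAddCommGroup H] [InnerProductSpace ℂ H]
  [CompleteSpace H]

/-- The vector `(π (φ_x) ξ)_x ∈ ℓ²(X, H)`. -/
def columnVec (π : C0Rep Ω H) {φ : X → C0 Ω} (h : SumSqLe φ) (ξ : H) : L2 X H :=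
  ⟨columnFun π φ ξ, by exact id (memℓp_cover_aux π h ξ)⟩

theorem isBddLin_columnVec (π : C0Rep Ω H) {φ : X → C0 Ω} (h : SumSqLe φ) :
    IsBddLin (columnVec π h) :=
  ⟨⟨fun _ _ => lp.ext (funext fun _ => map_add (π _) _ _),
    fun _ _ => lp.ext (funext fun _ => map_smul (π _) _ _)⟩, 1, one_pos,
    fun ξ => norm_cover_aux π h ξ (columnVec π h ξ) fun _ => rfl⟩

/-- The operator `V : H → ℓ²(X, H)`, `V ξ = (π (φ_x) ξ)_x`. -/
def column (π : C0Rep Ω H) {φ : X → C0 Ω} (h : SumSqLe φ) : Op H (L2 X H) :=
  mkOp (columnVec π h) (isBddLin_columnVec π h)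

end Column

/-! ### The algebraic Roe algebra, coarse `K`-homology, and the covering projection -/

section Roe

variable (X H : Type) [PseudoEMetricSpace X] [BddGeom X] [NormedAddCommGroup H]
  [InnerProductSpace ℂ H] [CompleteSpace H]

theorem isStarAlg_roe : IsStarAlgOp {T : Op (L2 X H) (L2 X H) | IsRoe T} := isStarAlg_roe_aux

/-- `ℂ[X]`: the bounded operators on `ℓ²(X, H)` with compact entries and finite propagation. -/
def roeAlg : StarSub (L2 X H) := starSub (isStarAlg_roe X H)

/-- The unitization `ℂ[X]⁺`. -/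
abbrev RoePlus : Type := Plus (roeAlg X H)

variable {X H}

/-- The function `√t_x ∈ C₀(P_r(X))`. -/
def sqrtCoord (r : ℕ) (x : X) : C0 (Rips X r) where
  toFun := Rips.sqrtAt x
  continuous_toFun := (by exact id (Rips.continuous_sqrtAt x))
  zero_at_infty' := (by exact id (Rips.tendsto_sqrtAt x))

/-- The inclusion `P_r(X) ⊆ P_{r'}(X)` as a proper map. -/
def ripsIncl {r r' : ℕ} (h : r ≤ r') : CocompactMap (Rips X r) (Rips X r') where
  toFun := Rips.incl h
  continuous_toFun := (by exact id (Rips.continuous_incl h))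
  cocompact_tendsto' := (by exact id (Rips.tendsto_incl h))

theorem sumSqLe_sqrtCoord (r : ℕ) : SumSqLe (sqrtCoord r : X → C0 (Rips X r)) :=
  fun s μ => Rips.sum_sqrtAt_le s μ

/-- The projection `P = V V*` for the covering map `V : H → ℓ²(X, H)`, `V ξ = (π (√t_x) ξ)_x`;
its entries are `P_{xy} = π (√(t_x t_y))`. -/
def coverProj {r : ℕ} (π : C0Rep (Rips X r) H) : Op (L2 X H) (L2 X H) :=
  rangeOp (column π (sumSqLe_sqrtCoord r))

/-- The index idempotent of the cycle `z = (π, γ, F)`: that of `P₋ (1 ⊗ F) P₊`, where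
`P_± = P (1 ± 1 ⊗ γ) / 2`; note `P (1 ⊗ F) P = V (∑_x √t_x F √t_x) V*`. -/
def indexOp {r : ℕ} (z : Cycle0 (Rips X r) H) : M2 (Op (L2 X H) (L2 X H)) :=
  indexMatOp (coverProj z.π) (ampl X z.γ) (ampl X z.F)

variable (X H)

/-- A cycle on some Rips complex `P_r(X)`. -/
def Gen : Type := Σ r : ℕ, Cycle0 (Rips X r) H

variable {X H}

/-- The generator attached to a cycle on `P_r(X)`. -/
def gen {r : ℕ} (z : Cycle0 (Rips X r) H) : FreeAbelianGroup (Gen X H) :=
  FreeAbelianGroup.of (Sigma.mk r z)

variable (X H)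

/-- The relations of `K`-homology on each `P_r(X)` (unitary equivalence, operator homotopy,
direct sum), and those of the direct limit along the inclusions `P_r(X) ⊆ P_{r'}(X)`. -/
inductive KRel : FreeAbelianGroup (Gen X H) → Prop
  | unitary (r : ℕ) (x z : Cycle0 (Rips X r) H) : Cycle0.Unitary x z → KRel (gen x - gen z)
  | homotopy (r : ℕ) (x z : Cycle0 (Rips X r) H) : Cycle0.Homotopic x z → KRel (gen x - gen z)
  | sum (r : ℕ) (z x y : Cycle0 (Rips X r) H) : Cycle0.IsSum z x y → KRel (gen z - (gen x + gen y))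
  | incl (r r' : ℕ) (h : r ≤ r') (z : Cycle0 (Rips X r) H) :
      KRel (gen z - gen (Cycle0.push (ripsIncl h) z))

/-- Coarse `K`-homology `KX₀(X) = lim_r KK₀(C₀(P_r(X)), ℂ)`. -/
abbrev KX0 : Type := Presented (Gen X H) {w | KRel X H w}

end Roe

end Vale.Agent.P212
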