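import Vale.Agent.P212.Hat
import Vale.Agent.P212.Defs2

/-! TASK LineBundle (small): the idempotent of the line bundle of an integral `2`-cocycle.
Plan. Evaluate at `μ`. If `μ a = 0` or `μ d = 0` both sides vanish. Otherwise the support of `μ`
lies in `I` (`hI`, `μ.diam`), and for `b` with `μ b ≠ 0`
`∑_e μ e (c a b e + c b d e - c a d e) = ∑_e μ e c a b d = c a b d ∈ ℤ` (`Rips.sum_eq_one`), so
`p a b μ * p b d μ = μ b * p a d μ` (`ec_add`, `ec_int`, `Rips.sqrtAt_mul_self`); sum over `b`.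
(For the evaluation of a finite sum in `C₀` prove a small lemma by `Finset.induction`, or use
`map_sum` for the additive map `f ↦ f μ`.) -/

noncomputable section

namespace Vale.Agent.P212

variable {X : Type} [PseudoEMetricSpace X] [BddGeom X]

/-- `c` is a cocycle on the `r`-cliques meeting `I`. -/
def IsCocycle (I : Finset X) (r : ℕ) (c : X → X → X → ℤ) : Prop :=
  ∀ a ∈ I, ∀ b d e, edist a b ≤ r → edist a d ≤ r → edist a e ≤ r → edist b d ≤ r →
    edist b e ≤ r → edist d e ≤ r → c b d e - c a d e + c a b e - c a b d = 0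

/-- The idempotent `√μ_a e(∑_d μ_d c(a, b, d)) √μ_b`. -/
def lineProj (I : Finset X) (c : X → X → X → ℤ) (r : ℕ) : Matrix I I (C0 (Rips X r)) :=
  Matrix.of fun a b =>
    { toFun := fun μ =>
        Rips.sqrtAt a.1 μ * Rips.sqrtAt b.1 μ * ec (∑ d ∈ I, μ.t d * c a.1 b.1 d)
      continuous_toFun := ((Rips.continuous_sqrtAt _).mul (Rips.continuous_sqrtAt _)).mul
        (continuous_ec.comp (continuous_finsetSum _ fun d _ =>
          (Rips.continuous_t d).mul continuous_const))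
      zero_at_infty' := tendsto_cocompact_of_star a.1 _ fun μ h => by
        simp [Rips.sqrtAt_eq_zero.2 h] }

theorem lineProj_apply (I : Finset X) (c : X → X → X → ℤ) (r : ℕ) (a b : I) (μ : Rips X r) :
    lineProj I c r a b μ =
      Rips.sqrtAt a.1 μ * Rips.sqrtAt b.1 μ * ec (∑ d ∈ I, μ.t d * c a.1 b.1 d) := rfl

theorem c0_sum_apply_lb {Ω ι : Type} [TopologicalSpace Ω] (s : Finset ι) (f : ι → C0 Ω) (x : Ω) :
    (∑ i ∈ s, f i) x = ∑ i ∈ s, f i x := by
  classical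
  induction s using Finset.induction_on with
  | empty => simp
  | insert i s hi ih =>
    rw [Finset.sum_insert hi, Finset.sum_insert hi, ← ih]
    rfl

theorem lineProj_idem {I : Finset X} {c : X → X → X → ℤ} {r : ℕ}
    (hI : ∀ a ∈ I, ∀ b, edist a b ≤ r → b ∈ I) (hc : IsCocycle I r c) :
    lineProj I c r * lineProj I c r = lineProj I c r := by
  ext a d μ
  rw [Matrix.mul_apply, c0_sum_apply_lb]
  simp only [ZeroAtInftyContinuousMap.mul_apply, lineProj_apply]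
  by_cases ha : μ.t a.1 = 0
  · simp [Rips.sqrtAt_eq_zero.2 ha]
  by_cases hd : μ.t d.1 = 0
  · simp [Rips.sqrtAt_eq_zero.2 hd]
  have hsupp : ∀ x, μ.t x ≠ 0 → x ∈ I := fun x hx => hI a.1 a.2 x (μ.diam _ _ ha hx)
  have hsum := μ.sum_eq_one I hsupp
  have key : ∀ b : I, Rips.sqrtAt a.1 μ * Rips.sqrtAt b.1 μ * ec (∑ e ∈ I, μ.t e * c a.1 b.1 e) *
      (Rips.sqrtAt b.1 μ * Rips.sqrtAt d.1 μ * ec (∑ e ∈ I, μ.t e * c b.1 d.1 e)) =
      (μ.t b.1 : ℂ) * (Rips.sqrtAt a.1 μ * Rips.sqrtAt d.1 μ *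
        ec (∑ e ∈ I, μ.t e * c a.1 d.1 e)) := fun b => by
    by_cases hb : μ.t b.1 = 0
    · simp [Rips.sqrtAt_eq_zero.2 hb, hb]
    have h1 : (∑ e ∈ I, μ.t e * c a.1 b.1 e) + ∑ e ∈ I, μ.t e * c b.1 d.1 e =
        (∑ e ∈ I, μ.t e * c a.1 d.1 e) + (c a.1 b.1 d.1 : ℤ) := by
      rw [← one_mul ((c a.1 b.1 d.1 : ℤ) : ℝ), ← hsum, Finset.sum_mul, ← Finset.sum_add_distrib,
        ← Finset.sum_add_distrib]
      refine Finset.sum_congr rfl fun e _ => ?_
      by_cases he : μ.t e = 0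
      · simp [he]
      have h2 := hc a.1 a.2 b.1 d.1 e (μ.diam _ _ ha hb) (μ.diam _ _ ha hd) (μ.diam _ _ ha he)
        (μ.diam _ _ hb hd) (μ.diam _ _ hb he) (μ.diam _ _ hd he)
      have h3 : (c b.1 d.1 e : ℝ) - c a.1 d.1 e + c a.1 b.1 e - c a.1 b.1 d.1 = 0 := by
        exact_mod_cast h2
      linear_combination μ.t e * h3
    have h4 : ec (∑ e ∈ I, μ.t e * c a.1 b.1 e) * ec (∑ e ∈ I, μ.t e * c b.1 d.1 e) =
        ec (∑ e ∈ I, μ.t e * c a.1 d.1 e) := by
      rw [← ec_add, h1, ec_add, ec_int, mul_one]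
    rw [← Rips.sqrtAt_mul_self, ← h4]
    ring
  rw [Finset.sum_congr rfl fun b _ => key b, ← Finset.sum_mul, ← Complex.ofReal_sum,
    Finset.sum_coe_sort I fun b => μ.t b, hsum, Complex.ofReal_one, one_mul]

end Vale.Agent.P212
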