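import Vale.Agent.P212.CocData
import Vale.Agent.P212.LineBundle

/-! TASK Cocycle: at every scale `r` there is an integral cocycle on some level of `Xsp` which is
`D` times the fundamental class on the tip at height `0` and vanishes on the other tip.
Plan. Take `C₀, E` from `exists_pairEst r`, `D, C, ε₀` from `approx_int C₀`, and `n ≥ r` so large
that `K / 2^ν` is small for a suitable constant `K = K(r)` (`ν = nu n`, `R = RR n = 4^ν`; also
`r < ν`). On level `n`, `edist a b ≤ r ↔ Iter StepX r a b`. Choose data `d a b` (default if not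
close). Put `θ a b = b.fb ⬝ᵥ rv (d a b).Ξ`, `nB a b c = round (D * (θ b c - θ a c + θ a b))`,
`ρ a b = -D * (d a b).σ`, `base a b c = if a.k < 3ν then D * wrap a.y.x b.y.x * wrap b.y.y c.y.y
else if a.k < 7ν then -R * nB a b c else 0`, `ρ' p b c = if 3ν ≤ p.k ∧ p.k < 7ν then 0 else ρ b c`,
and `c a b e = base a b e + ρ' b b e - ρ' a b e`. On a clique `a, b, d, e`:
* if some height is `< 3ν - r` all are `< 3ν` and `c = D wrap · wrap`, a cocycle by `wrap_add`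
(`iter_rel` gives `Cyc`); if some height is `> 7ν + r` all are `≥ 7ν` and `c = 0`.
* Otherwise all heights are in `[3ν - r, 7ν + r]`, so `i ≤ 2ν` and `ε = E / 2^ν`: by `approx_int`
`|D δθ - nB| ≤ C ε` for each triple, so the integer `δ nB` has absolute value `≤ 4 C ε < 1` and
vanishes. CLAIM: for each triple `(p, q, u)` of the clique
`base p q u = -R nB p q u + (ρ' p q u - ρ' p p u + ρ' p p q)`; then
`c = -R nB + δρ̃` with `ρ̃ p q = ρ' p p q` and we are done. The claim is trivial if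
`3ν ≤ p.k < 7ν`. Otherwise `p.k` is within `r` of `3ν` or `7ν`, so the three points have
`i ≤ 2r`, `|D δθ - nB| ≤ C E 4^r / 8^ν`, and by the `σ` estimates
`δρ = D (u.yb κ_{qu} - u.yb κ_{pu} + q.yb κ_{pq}) + R D δθ + O(K / 2^ν)`.
Near `7ν` all `k > 5ν`, `xb = 0`, so all `κ = 0`. Near `3ν` all `k ≤ 5ν`, `|w.x - y.x| < 4^r`
(`cc`), so `κ_{pq} = wrap p.y.x q.y.x`, `κ'_{qu} = wrap q.y.y u.y.y` (`wrap_spec`), `κ` is additive,
`|κ| ≤ 1`, and `q.yb - u.yb = κ'_{qu} + O(K / 2^ν)`. In both cases the integer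
`δρ - R nB - base` is small, hence zero. -/

noncomputable section

namespace Vale.Agent.P212

/-- The points of level `n`. -/
def levelX (n : ℕ) : Finset Xsp := (Xsp.finite_level n).toFinset

theorem mem_levelX {n : ℕ} {p : Xsp} : p ∈ levelX n ↔ p.n = n := Set.Finite.mem_toFinset _

open Matrix

section CocDefs

variable (d : Xsp → Xsp → PairDat) (n D : ℕ)

/-- The real `1`-cochain `θ`. -/
def cocTheta (a b : Xsp) : ℝ := b.fb ⬝ᵥ rv (d a b).Ξ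

/-- The integer nearest to `D δθ`. -/
def cocNB (a b c : Xsp) : ℤ := round (D * (cocTheta d b c - cocTheta d a c + cocTheta d a b))

/-- The correcting `1`-cochain seen from `p`. -/
def cocRho (p a b : Xsp) : ℤ :=
  if 3 * nu n ≤ p.k ∧ p.k < 7 * nu n then 0 else -(D : ℤ) * (d a b).σ

/-- The local cocycles. -/
def cocBase (a b c : Xsp) : ℤ :=
  if a.k < 3 * nu n then D * wrap (RR n) a.y.x b.y.x * wrap (RR n) b.y.y c.y.y
  else if a.k < 7 * nu n then -(RR n : ℤ) * cocNB d D a b c else 0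

/-- The glued cocycle. -/
def cocC (a b e : Xsp) : ℤ := cocBase d n D a b e + cocRho d n D b b e - cocRho d n D a b e

end CocDefs

/-- The conclusion of `approx_int`. -/
def CocAI (C₀ D : ℕ) (C ε₀ : ℝ) : Prop :=
  ∀ (ε : ℝ) (γ₁ γ₂ γ₃ : Matrix (Fin 3) (Fin 3) ℤ) (va vb vc fa fb fc : Fin 3 → ℝ)
    (Ξ₁ Ξ₂ Ξ₃ Ψ₁ Ψ₂ Ψ₃ : Fin 3 → ℤ), ε ≤ ε₀ → (∀ i j, |γ₁ i j| ≤ C₀) → (∀ i j, |γ₂ i j| ≤ C₀) →
    (∀ i j, |γ₃ i j| ≤ C₀) → ‖va‖ ≤ 1 → ‖vb‖ ≤ 1 → ‖vc‖ ≤ 1 → ‖fa‖ ≤ 1 → ‖fb‖ ≤ 1 → ‖fc‖ ≤ 1 →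
    Appr ε γ₁ va vb fa fb Ξ₁ Ψ₁ → Appr ε γ₂ vb vc fb fc Ξ₂ Ψ₂ → Appr ε γ₃ va vc fa fc Ξ₃ Ψ₃ →
    ∃ z : ℤ, |D * (fc ⬝ᵥ rv Ξ₂ - fc ⬝ᵥ rv Ξ₃ + fb ⬝ᵥ rv Ξ₁) - z| ≤ C * ε

theorem coc_pow_le {E b c : ℝ} (hE : 0 ≤ E) (hb : 1 ≤ b) (hc : 0 ≤ c) {i j : ℕ} (h : i ≤ j) :
    E * b ^ i / c ≤ E * b ^ j / c :=
  div_le_div_of_nonneg_right (mul_le_mul_of_nonneg_left (pow_le_pow_right₀ hb h) hE) hc

theorem coc_nb_est {C₀ D n j : ℕ} {C ε₀ E : ℝ} (hAI : CocAI C₀ D C ε₀) (hE : 0 ≤ E)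
    (d : Xsp → Xsp → PairDat) {p q u : Xsp} (hp : p.n = n) (hq : q.n = n) (ip : p.i ≤ j)
    (iq : q.i ≤ j) (hε : E * 2 ^ j / 8 ^ nu n ≤ ε₀) (h₁ : PairEst C₀ E p q (d p q))
    (h₂ : PairEst C₀ E q u (d q u)) (h₃ : PairEst C₀ E p u (d p u)) :
    |D * (cocTheta d q u - cocTheta d p u + cocTheta d p q) - cocNB d D p q u| ≤
      C * (E * 2 ^ j / 8 ^ nu n) := by
  have a₁ := h₁.appr
  have a₂ := h₂.appr
  have a₃ := h₃.appr
  rw [hp] at a₁ a₃
  rw [hq] at a₂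
  have h8 : (0 : ℝ) ≤ 8 ^ nu n := by positivity
  obtain ⟨z, hz⟩ := hAI _ _ _ _ _ _ _ _ _ _ _ _ _ _ _ _ hε h₁.γ h₂.γ h₃.γ p.norm_vb_le q.norm_vb_le
    u.norm_vb_le p.norm_fb_le q.norm_fb_le u.norm_fb_le
    (a₁.mono (coc_pow_le hE one_le_two h8 ip))
    (a₂.mono (coc_pow_le hE one_le_two h8 iq))
    (a₃.mono (coc_pow_le hE one_le_two h8 ip))
  exact (round_le _ z).trans hz

theorem coc_sigma {D R σ₁ σ₂ σ₃ κ₁ κ₂ κ₃ θ₁ θ₂ θ₃ yq yu sp sq su nB B η η' η'' : ℝ}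
    (hD : 0 ≤ D) (hR : 0 ≤ R) (h₁ : |σ₁ + yq * κ₁ + R * θ₁ + sq - sp| ≤ η)
    (h₂ : |σ₂ + yu * κ₂ + R * θ₂ + su - sq| ≤ η) (h₃ : |σ₃ + yu * κ₃ + R * θ₃ + su - sp| ≤ η)
    (hn : |D * (θ₂ - θ₃ + θ₁) - nB| ≤ η') (hB : |D * (yu * κ₂ - yu * κ₃ + yq * κ₁) - B| ≤ η'') :
    |-R * nB + (-D * σ₂ - -D * σ₃ + -D * σ₁) - B| ≤ 3 * D * η + R * η' + η'' := by
  have e : -R * nB + (-D * σ₂ - -D * σ₃ + -D * σ₁) - B =
      -(D * (σ₂ + yu * κ₂ + R * θ₂ + su - sq)) + D * (σ₃ + yu * κ₃ + R * θ₃ + su - sp) -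
        D * (σ₁ + yq * κ₁ + R * θ₁ + sq - sp) + R * (D * (θ₂ - θ₃ + θ₁) - nB) +
        (D * (yu * κ₂ - yu * κ₃ + yq * κ₁) - B) := by ring
  rw [e]
  obtain ⟨a1, a2⟩ := abs_le.1 h₁
  obtain ⟨b1, b2⟩ := abs_le.1 h₂
  obtain ⟨c1, c2⟩ := abs_le.1 h₃
  obtain ⟨d1, d2⟩ := abs_le.1 hn
  obtain ⟨e1, e2⟩ := abs_le.1 hB
  have := mul_le_mul_of_nonneg_left a1 hD
  have := mul_le_mul_of_nonneg_left a2 hD
  have := mul_le_mul_of_nonneg_left b1 hD
  have := mul_le_mul_of_nonneg_left b2 hD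
  have := mul_le_mul_of_nonneg_left c1 hD
  have := mul_le_mul_of_nonneg_left c2 hD
  have := mul_le_mul_of_nonneg_left d1 hR
  have := mul_le_mul_of_nonneg_left d2 hR
  rw [abs_le]
  constructor <;> linarith

theorem coc_cc_near {n k b : ℕ} (hk : k ≤ 5 * nu n) : b < cc n k b + 2 ^ dep n k := by
  rw [cc, if_pos hk]
  have h1 := Nat.div_add_mod b (2 ^ dep n k)
  have h2 := Nat.mod_lt b (show 0 < 2 ^ dep n k by positivity)
  omega

theorem coc_wrap_est {R r a b a' b' B : ℕ} (h : Cyc R r a b) (hr : 2 * r < R) (ha : a' ≤ a)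
    (ha' : a < a' + B) (hb : b' ≤ b) (hb' : b < b' + B) :
    |(a' : ℝ) / R - (b' : ℝ) / R - wrap R a b| ≤ ((B : ℝ) + r) / R := by
  obtain ⟨e, he, hw⟩ := wrap_spec h hr
  have hR : (0 : ℝ) < R := by exact_mod_cast (by omega : 0 < R)
  have hw' : (a : ℝ) - b = e + R * wrap R a b := by exact_mod_cast hw
  have he' : |(e : ℝ)| ≤ r := by exact_mod_cast he
  have e1 : (a' : ℝ) / R - (b' : ℝ) / R - wrap R a b = ((a' - a) - (b' - b) + e) / R := by
    field_simp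
    linarith
  rw [e1, abs_div, abs_of_pos hR]
  refine div_le_div_of_nonneg_right ?_ hR.le
  have h1 : (a' : ℝ) ≤ a := by exact_mod_cast ha
  have h2 : (a : ℝ) < a' + B := by exact_mod_cast ha'
  have h3 : (b' : ℝ) ≤ b := by exact_mod_cast hb
  have h4 : (b : ℝ) < b' + B := by exact_mod_cast hb'
  obtain ⟨h5, h6⟩ := abs_le.1 he'
  rw [abs_le]
  constructor <;> linarith

theorem coc_xb (p : Xsp) {n : ℕ} (hp : p.n = n) : p.xb = (cc n p.k p.y.x : ℝ) / RR n := by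
  subst hp
  rw [Xsp.xb, p.hx, Int.cast_natCast]

theorem coc_yb (p : Xsp) {n : ℕ} (hp : p.n = n) : p.yb = (cc n p.k p.y.y : ℝ) / RR n := by
  subst hp
  rw [Xsp.yb, p.hy, Int.cast_natCast]

theorem coc_cc_near' (p : Xsp) {n j : ℕ} (hp : p.n = n) (hk : p.k ≤ 5 * nu n) (hi : p.i ≤ j)
    (b : ℕ) : b < cc n p.k b + 2 ^ j := by
  subst hp
  exact (coc_cc_near hk).trans_le (Nat.add_le_add_left (Nat.pow_le_pow_right two_pos hi) _)

theorem coc_int_eq {a b : ℤ} (h : |(a : ℝ) - b| < 1) : a = b := by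
  have h1 : |a - b| < 1 := by exact_mod_cast h
  have := Int.abs_lt_one_iff.1 h1
  omega

theorem coc_kappa {C₀ n r j : ℕ} {E : ℝ} (hE : 0 ≤ E) {p q : Xsp} {δ : PairDat}
    (h : PairEst C₀ E p q δ) (hp : p.n = n) (hq : q.n = n) (kp : p.k ≤ 5 * nu n)
    (kq : q.k ≤ 5 * nu n) (ip : p.i ≤ j) (iq : q.i ≤ j) (hc : Cyc (RR n) r p.y.x q.y.x)
    (hr : 2 * r < RR n) (hs : E * 2 ^ j / 4 ^ nu n + (2 ^ j + r) / 4 ^ nu n < 1) :
    δ.κ = wrap (RR n) p.y.x q.y.x := by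
  have h1 := h.κ
  rw [coc_xb p hp, coc_xb q hq] at h1
  have h2 := coc_wrap_est hc hr (cc_le n p.k _) (coc_cc_near' p hp kp ip _) (cc_le n q.k _)
    (coc_cc_near' q hq kq iq _)
  have h3 : E * 2 ^ p.i / 4 ^ nu p.n ≤ E * 2 ^ j / 4 ^ nu n := by
    have := coc_pow_le hE one_le_two (show (0 : ℝ) ≤ 4 ^ nu n by positivity) ip
    rwa [← hp] at this ⊢
  have h4 : (((2 ^ j : ℕ) : ℝ) + r) / RR n = (2 ^ j + r) / 4 ^ nu n := by
    rw [RR]; push_cast; rfl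
  rw [h4] at h2
  apply coc_int_eq
  obtain ⟨a1, a2⟩ := abs_le.1 h1
  obtain ⟨b1, b2⟩ := abs_le.1 h2
  rw [abs_lt]
  constructor <;> linarith

theorem coc_kappa0 {C₀ n j : ℕ} {E : ℝ} (hE : 0 ≤ E) {p q : Xsp} {δ : PairDat}
    (h : PairEst C₀ E p q δ) (hp : p.n = n) (hq : q.n = n) (kp : 5 * nu n < p.k)
    (kq : 5 * nu n < q.k) (ip : p.i ≤ j) (hs : E * 2 ^ j / 4 ^ nu n < 1) : δ.κ = 0 := by
  have h1 := h.κ
  rw [coc_xb p hp, coc_xb q hq, cc, cc, if_neg (not_le.2 kp), if_neg (not_le.2 kq)] at h1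
  have h3 : E * 2 ^ p.i / 4 ^ nu p.n ≤ E * 2 ^ j / 4 ^ nu n := by
    have := coc_pow_le hE one_le_two (show (0 : ℝ) ≤ 4 ^ nu n by positivity) ip
    rwa [← hp] at this ⊢
  apply coc_int_eq
  simp only [Nat.cast_zero, zero_div, sub_zero, Int.cast_zero] at h1 ⊢
  linarith

theorem coc_sigma_est {C₀ n j : ℕ} {E : ℝ} (hE : 0 ≤ E) (d : Xsp → Xsp → PairDat) {p q : Xsp}
    (h : PairEst C₀ E p q (d p q)) (hp : p.n = n) (ip : p.i ≤ j) :
    |(d p q).σ + q.yb * (d p q).κ + RR n * cocTheta d p q + q.sb - p.sb| ≤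
      E * 4 ^ j / 2 ^ nu n := by
  subst hp
  exact h.σ.trans (coc_pow_le hE (by norm_num) (by positivity) ip)

/-- The smallness conditions on the level. -/
structure CocSmall (r n D : ℕ) (E C ε₀ : ℝ) : Prop where
  rn : r ≤ n
  r3 : 3 * r < RR n
  eps : E * 2 ^ (2 * nu n) / 8 ^ nu n ≤ ε₀
  nb : 4 * (C * (E * 2 ^ (2 * nu n) / 8 ^ nu n)) < 1
  kap : E * 2 ^ (2 * r) / 4 ^ nu n + (2 ^ (2 * r) + r) / 4 ^ nu n < 1
  tot : 3 * D * (E * 4 ^ (2 * r) / 2 ^ nu n) + RR n * (C * (E * 2 ^ (2 * r) / 8 ^ nu n)) +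
    D * ((2 ^ (2 * r) + r) / 4 ^ nu n) < 1

/-- The facts about two close points of level `n`. -/
structure CocPair (C₀ r n : ℕ) (E : ℝ) (d : Xsp → Xsp → PairDat) (p q : Xsp) : Prop where
  np : p.n = n
  nq : q.n = n
  k1 : p.k ≤ q.k + r
  k2 : q.k ≤ p.k + r
  cx : Cyc (RR n) r p.y.x q.y.x
  cy : Cyc (RR n) r p.y.y q.y.y
  est : PairEst C₀ E p q (d p q)

theorem coc_i_le (p : Xsp) {n j : ℕ} (hp : p.n = n)
    (h : (3 * nu n ≤ p.k + j ∧ p.k ≤ 3 * nu n + j) ∨ (7 * nu n ≤ p.k + j ∧ p.k ≤ 7 * nu n + j)) :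
    p.i ≤ j := by
  subst hp
  unfold Xsp.i dep Nat.dist
  omega

theorem coc_claim {C₀ r n D : ℕ} {E C ε₀ : ℝ} (hAI : CocAI C₀ D C ε₀) (hE : 0 ≤ E)
    (hS : CocSmall r n D E C ε₀) {d : Xsp → Xsp → PairDat} {p q u : Xsp}
    (h₁ : CocPair C₀ r n E d p q) (h₂ : CocPair C₀ r n E d q u) (h₃ : CocPair C₀ r n E d p u)
    (lo : 3 * nu n ≤ p.k + r) (hi : p.k ≤ 7 * nu n + r) :
    cocBase d n D p q u = -(RR n : ℤ) * cocNB d D p q u +
      (cocRho d n D p q u - cocRho d n D p p u + cocRho d n D p p q) := by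
  have hrn : r < nu n := Nat.lt_succ_of_le hS.rn
  by_cases hm : 3 * nu n ≤ p.k ∧ p.k < 7 * nu n
  · simp only [cocBase, cocRho, if_pos hm, if_neg (not_lt.2 hm.1), if_pos hm.2]
    ring
  have k1 := h₁.k1
  have k2 := h₁.k2
  have k3 := h₃.k1
  have k4 := h₃.k2
  have ip : p.i ≤ 2 * r := coc_i_le p h₁.np (by omega)
  have iq : q.i ≤ 2 * r := coc_i_le q h₁.nq (by omega)
  have iu : u.i ≤ 2 * r := coc_i_le u h₂.nq (by omega)
  have h8 : (0 : ℝ) ≤ 8 ^ nu n := by positivity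
  have hnb := coc_nb_est hAI hE d h₁.np h₁.nq ip iq
    ((coc_pow_le hE one_le_two h8 (by omega)).trans hS.eps) h₁.est h₂.est h₃.est
  have s₁ := coc_sigma_est hE d h₁.est h₁.np ip
  have s₂ := coc_sigma_est hE d h₂.est h₂.np iq
  have s₃ := coc_sigma_est hE d h₃.est h₃.np ip
  have hD : (0 : ℝ) ≤ D := Nat.cast_nonneg D
  have hpos : (0 : ℝ) ≤ (2 ^ (2 * r) + r) / 4 ^ nu n := by positivity
  have hB : |(D : ℝ) * (u.yb * (d q u).κ - u.yb * (d p u).κ + q.yb * (d p q).κ) -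
      cocBase d n D p q u| ≤ D * ((2 ^ (2 * r) + r) / 4 ^ nu n) := by
    have r2 : 2 * r < RR n := by have := hS.r3; omega
    by_cases hl : p.k < 3 * nu n
    · have e₁ := coc_kappa hE h₁.est h₁.np h₁.nq (by omega) (by omega) ip iq h₁.cx r2 hS.kap
      have e₂ := coc_kappa hE h₂.est h₂.np h₂.nq (by omega) (by omega) iq iu h₂.cx r2 hS.kap
      have e₃ := coc_kappa hE h₃.est h₃.np h₃.nq (by omega) (by omega) ip iu h₃.cx r2 hS.kap
      have ea := wrap_add h₁.cx h₂.cx h₃.cx hS.r3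
      have hw := coc_wrap_est h₂.cy r2 (cc_le n q.k _)
        (coc_cc_near' q h₂.np (by omega) iq _) (cc_le n u.k _) (coc_cc_near' u h₂.nq (by omega) iu _)
      have h4 : (((2 ^ (2 * r) : ℕ) : ℝ) + r) / RR n = (2 ^ (2 * r) + r) / 4 ^ nu n := by
        rw [RR]; push_cast; rfl
      rw [h4, ← coc_yb q h₂.np, ← coc_yb u h₂.nq] at hw
      have hx1 : p.y.x < RR n := h₁.np ▸ p.y.hx
      have hx2 : q.y.x < RR n := h₁.nq ▸ q.y.hx
      have hk : |((wrap (RR n) p.y.x q.y.x : ℤ) : ℝ)| ≤ 1 := by exact_mod_cast abs_wrap_le hx1 hx2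
      rw [cocBase, if_pos hl, e₁, e₂, e₃, ← ea]
      push_cast
      have e : (D : ℝ) * (u.yb * (wrap (RR n) q.y.x u.y.x : ℤ) - u.yb *
          ((wrap (RR n) p.y.x q.y.x : ℤ) + (wrap (RR n) q.y.x u.y.x : ℤ)) +
          q.yb * (wrap (RR n) p.y.x q.y.x : ℤ)) -
          D * (wrap (RR n) p.y.x q.y.x : ℤ) * (wrap (RR n) q.y.y u.y.y : ℤ) =
          D * ((wrap (RR n) p.y.x q.y.x : ℤ) * (q.yb - u.yb - (wrap (RR n) q.y.y u.y.y : ℤ))) := by
        ring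
      rw [e, abs_mul, abs_mul, abs_of_nonneg hD]
      refine mul_le_mul_of_nonneg_left ?_ hD
      exact (mul_le_mul hk hw (abs_nonneg _) zero_le_one).trans_eq (one_mul _)
    · have hs : E * 2 ^ (2 * r) / 4 ^ nu n < 1 := by have := hS.kap; linarith
      have e₁ := coc_kappa0 hE h₁.est h₁.np h₁.nq (by omega) (by omega) ip hs
      have e₂ := coc_kappa0 hE h₂.est h₂.np h₂.nq (by omega) (by omega) iq hs
      have e₃ := coc_kappa0 hE h₃.est h₃.np h₃.nq (by omega) (by omega) ip hs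
      rw [cocBase, if_neg hl, if_neg (by omega), e₁, e₂, e₃]
      simp only [Int.cast_zero, mul_zero, sub_zero, add_zero, abs_zero]
      positivity
  have hfin := coc_sigma hD (Nat.cast_nonneg (RR n)) s₁ s₂ s₃ hnb hB
  symm
  apply coc_int_eq
  simp only [cocRho, if_neg hm]
  push_cast
  exact hfin.trans_lt hS.tot

theorem coc_cocycle {C₀ r n D : ℕ} {E C ε₀ : ℝ} (hAI : CocAI C₀ D C ε₀) (hE : 0 ≤ E)
    (hS : CocSmall r n D E C ε₀) {d : Xsp → Xsp → PairDat} {a b c e : Xsp}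
    (ab : CocPair C₀ r n E d a b) (ac : CocPair C₀ r n E d a c) (ae : CocPair C₀ r n E d a e)
    (bc : CocPair C₀ r n E d b c) (be : CocPair C₀ r n E d b e) (ce : CocPair C₀ r n E d c e) :
    cocC d n D b c e - cocC d n D a c e + cocC d n D a b e - cocC d n D a b c = 0 := by
  have hrn : r < nu n := Nat.lt_succ_of_le hS.rn
  by_cases h1 : a.k < 3 * nu n ∧ b.k < 3 * nu n ∧ c.k < 3 * nu n
  · obtain ⟨ha, hb, hc⟩ := h1
    have na : ¬ (3 * nu n ≤ a.k ∧ a.k < 7 * nu n) := by omega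
    have nb : ¬ (3 * nu n ≤ b.k ∧ b.k < 7 * nu n) := by omega
    have nc : ¬ (3 * nu n ≤ c.k ∧ c.k < 7 * nu n) := by omega
    simp only [cocC, cocBase, cocRho, if_pos ha, if_pos hb, if_neg na, if_neg nb, if_neg nc]
    rw [← wrap_add ab.cx bc.cx ac.cx hS.r3, ← wrap_add bc.cy ce.cy be.cy hS.r3]
    ring
  by_cases h2 : 7 * nu n ≤ a.k ∧ 7 * nu n ≤ b.k ∧ 7 * nu n ≤ c.k
  · obtain ⟨ha, hb, hc⟩ := h2
    have na : ¬ (3 * nu n ≤ a.k ∧ a.k < 7 * nu n) := by omega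
    have nb : ¬ (3 * nu n ≤ b.k ∧ b.k < 7 * nu n) := by omega
    have nc : ¬ (3 * nu n ≤ c.k ∧ c.k < 7 * nu n) := by omega
    have a3 : ¬ a.k < 3 * nu n := by omega
    have b3 : ¬ b.k < 3 * nu n := by omega
    have a7 : ¬ a.k < 7 * nu n := by omega
    have b7 : ¬ b.k < 7 * nu n := by omega
    simp only [cocC, cocBase, cocRho, if_neg na, if_neg nb, if_neg nc, if_neg a3, if_neg b3,
      if_neg a7, if_neg b7]
    ring
  have k1 := ab.k1
  have k2 := ab.k2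
  have k3 := ac.k1
  have k4 := ac.k2
  have k5 := bc.k1
  have k6 := bc.k2
  have hi : ∀ p : Xsp, p.n = n → 3 * nu n ≤ p.k + r → p.k ≤ 7 * nu n + r → p.i ≤ 2 * nu n := by
    intro p hp l1 l2
    subst hp
    unfold Xsp.i dep Nat.dist
    omega
  have ia := hi a ab.np (by omega) (by omega)
  have ib := hi b ab.nq (by omega) (by omega)
  have ic := hi c ac.nq (by omega) (by omega)
  have n1 := coc_nb_est hAI hE d bc.np bc.nq ib ic hS.eps bc.est ce.est be.est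
  have n2 := coc_nb_est hAI hE d ac.np ac.nq ia ic hS.eps ac.est ce.est ae.est
  have n3 := coc_nb_est hAI hE d ab.np ab.nq ia ib hS.eps ab.est be.est ae.est
  have n4 := coc_nb_est hAI hE d ab.np ab.nq ia ib hS.eps ab.est bc.est ac.est
  have hz : cocNB d D b c e + cocNB d D a b e = cocNB d D a c e + cocNB d D a b c := by
    apply coc_int_eq
    push_cast
    have := hS.nb
    obtain ⟨a1, a2⟩ := abs_le.1 n1
    obtain ⟨b1, b2⟩ := abs_le.1 n2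
    obtain ⟨c1, c2⟩ := abs_le.1 n3
    obtain ⟨d1, d2⟩ := abs_le.1 n4
    rw [abs_lt]
    constructor <;> linarith
  have c1 := coc_claim hAI hE hS bc ce be (by omega) (by omega)
  have c2 := coc_claim hAI hE hS ac ce ae (by omega) (by omega)
  have c3 := coc_claim hAI hE hS ab be ae (by omega) (by omega)
  have c4 := coc_claim hAI hE hS ab bc ac (by omega) (by omega)
  simp only [cocC]
  rw [c1, c2, c3, c4]
  linear_combination (-(RR n : ℤ)) * hz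

theorem coc_exists_small (r D : ℕ) {E C ε₀ : ℝ} (hE : 0 ≤ E) (hC : 0 ≤ C) (hε : 0 < ε₀) :
    ∃ n, CocSmall r n D E C ε₀ := by
  set A : ℝ := 2 ^ (2 * r) with hA
  set A' : ℝ := 4 ^ (2 * r) with hA'
  have hA0 : 0 ≤ A := by positivity
  have hA'0 : 0 ≤ A' := by positivity
  have hD : (0 : ℝ) ≤ D := Nat.cast_nonneg D
  have hr : (0 : ℝ) ≤ r := Nat.cast_nonneg r
  set K : ℝ := 3 * r + E / ε₀ + 4 * (C * E) + (E * A + (A + r)) +
    (3 * D * (E * A') + C * (E * A) + D * (A + r)) with hK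
  obtain ⟨n₀, hn₀⟩ := pow_unbounded_of_one_lt K (one_lt_two (α := ℝ))
  set n := max n₀ r with hn
  set M : ℝ := 2 ^ nu n with hM
  have hKM : K < M := hn₀.trans_le (pow_le_pow_right₀ one_le_two (by unfold nu; omega))
  have hM1 : 1 ≤ M := one_le_pow₀ one_le_two
  have hM0 : 0 < M := by linarith
  have h4 : (4 : ℝ) ^ nu n = M ^ 2 := by
    rw [hM, ← pow_mul, mul_comm, pow_mul]; norm_num
  have h8 : (8 : ℝ) ^ nu n = M ^ 3 := by
    rw [hM, ← pow_mul, mul_comm, pow_mul]; norm_num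
  have h2 : (2 : ℝ) ^ (2 * nu n) = M ^ 2 := by
    rw [hM, ← pow_mul, mul_comm]
  have hR : (RR n : ℝ) = M ^ 2 := by rw [RR, ← h4]; push_cast; rfl
  have hMM : M ≤ M ^ 2 := by nlinarith
  have t1 : 0 ≤ E / ε₀ := by positivity
  have t2 : 0 ≤ 4 * (C * E) := by positivity
  have t3 : 0 ≤ E * A + (A + r) := by positivity
  have t4 : 0 ≤ 3 * D * (E * A') + C * (E * A) + D * (A + r) := by positivity
  have e1 : E * M ^ 2 / M ^ 3 = E / M := by field_simp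
  have le2 : ∀ x : ℝ, 0 ≤ x → x / M ^ 2 ≤ x / M := fun x hx =>
    div_le_div_of_nonneg_left hx hM0 hMM
  refine ⟨n, le_max_right _ _, ?_, ?_, ?_, ?_, ?_⟩
  · have : (3 * r : ℝ) < RR n := by rw [hR]; linarith
    exact_mod_cast this
  · rw [h2, h8, e1, div_le_iff₀ hM0]
    have : E / ε₀ ≤ M := by linarith
    rw [div_le_iff₀ hε] at this
    linarith
  · rw [h2, h8, e1]
    have : 4 * (C * (E / M)) = 4 * (C * E) / M := by ring
    rw [this, div_lt_one hM0]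
    linarith
  · rw [h4, ← add_div]
    refine (le2 _ t3).trans_lt ?_
    rw [div_lt_one hM0]
    linarith
  · rw [h4, h8, hR]
    have e2 : M ^ 2 * (C * (E * A / M ^ 3)) = C * (E * A) / M := by field_simp
    have e3 : (D : ℝ) * ((A + r) / M ^ 2) ≤ D * (A + r) / M := by
      rw [mul_div_assoc]
      exact mul_le_mul_of_nonneg_left (le2 _ (by positivity)) hD
    have e4 : (3 * D * (E * A') + C * (E * A) + D * (A + r)) / M < 1 := by
      rw [div_lt_one hM0]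
      linarith
    have e5 : (3 * D * (E * A') + C * (E * A) + D * (A + r)) / M =
        3 * D * (E * A' / M) + C * (E * A) / M + D * (A + r) / M := by ring
    rw [e2]
    linarith

theorem exists_cocycle (r : ℕ) : ∃ (n D : ℕ) (c : Xsp → Xsp → Xsp → ℤ), r ≤ n ∧ 0 < D ∧
    IsCocycle (levelX n) r c ∧
    (∀ y y' y'' : Ysp, y.n = n → y'.n = n → y''.n = n → c (tip₀ y) (tip₀ y') (tip₀ y'') =
      D * wrap (RR n) y.x y'.x * wrap (RR n) y'.y y''.y) ∧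
    ∀ y y' y'' : Ysp, y.n = n → y'.n = n → y''.n = n → c (tip₁ y) (tip₁ y') (tip₁ y'') = 0 := by
  obtain ⟨C₀, E, hE, hP⟩ := exists_pairEst r
  obtain ⟨D, C, ε₀, hD, hC, hε, hAI⟩ := approx_int C₀
  obtain ⟨n, hS⟩ := coc_exists_small r D hE hC hε
  obtain ⟨C₁, hit⟩ := iter_rel r
  have hP' : ∀ a b : Xsp, ∃ δ, Iter StepX r a b → PairEst C₀ E a b δ := by
    intro a b
    by_cases h : Iter StepX r a b
    · obtain ⟨δ, hδ⟩ := hP a b h
      exact ⟨δ, fun _ => hδ⟩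
    · exact ⟨⟨0, 0, 0, 0, 0, 0⟩, fun h' => absurd h' h⟩
  choose d hd using hP'
  have hpair : ∀ p q : Xsp, p.n = n → edist p q ≤ r → CocPair C₀ r n E d p q := by
    intro p q hp h
    have hi : Iter StepX r p q := by
      rcases (Xsp.edist_le_iff p q r).1 h with h | h
      · exact h
      · have := hS.rn
        omega
    obtain ⟨k1, k2, cx, cy, -⟩ := hit p q hi
    exact ⟨hp, (Iter.lv_eq r p q hi).symm.trans hp, k1, k2, hp ▸ cx, hp ▸ cy, hd p q hi⟩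
  have hν : 0 < nu n := Nat.succ_pos n
  refine ⟨n, D, cocC d n D, hS.rn, hD, ?_, ?_, ?_⟩
  · intro a ha b c e ab ac ae bc be ce
    have ha' := mem_levelX.1 ha
    have ab' := hpair a b ha' ab
    have ac' := hpair a c ha' ac
    exact coc_cocycle hAI hE hS ab' ac' (hpair a e ha' ae) (hpair b c ab'.nq bc)
      (hpair b e ab'.nq be) (hpair c e ac'.nq ce)
  · intro y y' y'' _ _ _
    have k0 : ∀ z : Ysp, (tip₀ z).k = 0 := fun _ => rfl
    have h1 : ¬ (3 * nu n ≤ 0 ∧ 0 < 7 * nu n) := by omega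
    have h2 : 0 < 3 * nu n := by omega
    simp only [cocC, cocBase, cocRho, k0, if_neg h1, if_pos h2]
    rw [add_sub_cancel_right]
    rfl
  · intro y y' y'' hy hy' _
    have k1 : (tip₁ y).k = 10 * nu n := by rw [← hy]; rfl
    have k2 : (tip₁ y').k = 10 * nu n := by rw [← hy']; rfl
    have h1 : ¬ (3 * nu n ≤ 10 * nu n ∧ 10 * nu n < 7 * nu n) := by omega
    have h2 : ¬ 10 * nu n < 3 * nu n := by omega
    have h3 : ¬ 10 * nu n < 7 * nu n := by omega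
    simp only [cocC, cocBase, cocRho, k1, k2, if_neg h1, if_neg h2, if_neg h3]
    ring

end Vale.Agent.P212
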