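import Mathlib

open scoped ZeroAtInfty

noncomputable section

namespace Vale.Agent.P212

/-! ### Algebraic `K₀` of a unital ring (idempotent matrices) -/

/-- An idempotent square matrix over `R`. -/
structure Idem (R : Type) [Ring R] : Type where
  n : ℕ
  e : Matrix (Fin n) (Fin n) R
  idem : e * e = e

/-- The block diagonal matrix `a ⊕ b`. -/
def blockMat {R : Type} [Ring R] {m n : ℕ} (a : Matrix (Fin m) (Fin m) R)
    (b : Matrix (Fin n) (Fin n) R) : Matrix (Fin (m + n)) (Fin (m + n)) R :=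
  Matrix.reindex finSumFinEquiv finSumFinEquiv (Matrix.fromBlocks a 0 0 b)

theorem blockMat_idem {R : Type} [Ring R] {m n : ℕ} {a : Matrix (Fin m) (Fin m) R}
    {b : Matrix (Fin n) (Fin n) R} (ha : a * a = a) (hb : b * b = b) :
    blockMat a b * blockMat a b = blockMat a b := by
  simp [blockMat, Matrix.fromBlocks_multiply, ha, hb]

/-- Block sum `p ⊕ q` of idempotent matrices. -/
def Idem.sum {R : Type} [Ring R] (p q : Idem R) : Idem R where
  n := p.n + q.n
  e := blockMat p.e q.e
  idem := blockMat_idem p.idem q.idem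

/-- Algebraic (Murray-von Neumann) equivalence: `p = x y`, `q = y x`. -/
def Idem.Eqv {R : Type} [Ring R] (p q : Idem R) : Prop :=
  ∃ (x : Matrix (Fin p.n) (Fin q.n) R) (y : Matrix (Fin q.n) (Fin p.n) R),
    x * y = p.e ∧ y * x = q.e

/-- The abelian group with generators `α` and relations `S`. -/
abbrev Presented (α : Type) (S : Set (FreeAbelianGroup α)) : Type :=
  FreeAbelianGroup α ⧸ AddSubgroup.closure S

instance Presented.addCommGroup (α : Type) (S : Set (FreeAbelianGroup α)) :
    AddCommGroup (Presented α S) :=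
  QuotientAddGroup.Quotient.addCommGroup _

/-- Homomorphisms of abelian groups. -/
abbrev AbHom (M N : Type) [AddCommGroup M] [AddCommGroup N] : Type := M →+ N

/-- The function `f` on generators respects the relations `S`. -/
def Respects {α M : Type} [AddCommGroup M] (f : α → M) (S : Set (FreeAbelianGroup α)) : Prop :=
  AddSubgroup.closure S ≤ (FreeAbelianGroup.lift f).ker

/-- The homomorphism induced by a function on generators that respects the relations. -/
def Presented.lift {α M : Type} [AddCommGroup M] {S : Set (FreeAbelianGroup α)} (f : α → M)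
    (h : Respects f S) : AbHom (Presented α S) M :=
  QuotientAddGroup.lift _ (FreeAbelianGroup.lift f) h

/-- `φ ⊗ id_ℚ : M ⊗ ℚ → N ⊗ ℚ` is injective. -/
def RatInjective {M N : Type} [AddCommGroup M] [AddCommGroup N] (φ : AbHom M N) : Prop :=
  Function.Injective (LinearMap.rTensor ℚ φ.toIntLinearMap)

/-- The relations `[p] = [q]` for equivalent `p, q` and `[p ⊕ q] = [p] + [q]`. -/
def K0Rel (R : Type) [Ring R] : Set (FreeAbelianGroup (Idem R)) :=
  {z | ∃ p q : Idem R, p.Eqv q ∧ z = FreeAbelianGroup.of p - FreeAbelianGroup.of q} ∪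
  {z | ∃ p q : Idem R,
    z = FreeAbelianGroup.of (p.sum q) - (FreeAbelianGroup.of p + FreeAbelianGroup.of q)}

/-- `K₀(R)`: the Grothendieck group of equivalence classes of idempotent matrices over `R`. -/
abbrev K0 (R : Type) [Ring R] : Type := Presented (Idem R) (K0Rel R)

/-- The formal difference `[p] - [q]` in `K₀(R)`. -/
def K0.diff {R : Type} [Ring R] (p q : Idem R) : K0 R :=
  QuotientAddGroup.mk (FreeAbelianGroup.of p - FreeAbelianGroup.of q)

/-- `2 × 2` matrices. -/
abbrev M2 (R : Type) : Type := Matrix (Fin 2) (Fin 2) R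

/-- The matrix `[[a, b], [c, d]]`. -/
def mat2 {R : Type} (a b c d : R) : M2 R := !![a, b; c, d]

/-- The matrix `e` is idempotent. -/
def IsIdem {R : Type} [Ring R] (e : M2 R) : Prop := e * e = e

/-- The image of an idempotent matrix under a ring homomorphism. -/
def Idem.image {R R' : Type} [Ring R] [Ring R'] (φ : R →+* R') (e : M2 R) (h : IsIdem e) :
    Idem R' where
  n := 2
  e := e.map φ
  idem := Matrix.map_mul.symm.trans (congrArg (·.map φ) h)

/-- The matrix `diag(1, 0)`. -/
def e10 (R : Type) [Ring R] : M2 R := mat2 1 0 0 0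

/-- The idempotent `diag(1, 0)`. -/
def idem10 (R : Type) [Ring R] : Idem R where
  n := 2
  e := e10 R
  idem := by ext i j; fin_cases i <;> fin_cases j <;> simp [e10, mat2, Matrix.mul_apply]

/-- The involution `[[q, 1 - q], [1 - q, q]]`; it conjugates `q ⊕ (1 - q)` to `diag(1, 0)`. -/
def swapMat {R : Type} [Ring R] (q : R) : M2 R := mat2 q (1 - q) (1 - q) q

/-- The index idempotent of `t : range p → range q` with parametrix `t'` (`p q = q p = 0`):
with `W = (1 + t) (1 - t') (1 + t)`, it is `W p W⁻¹ ⊕ (1 - q)` conjugated by `swapMat q`, so that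
`[milnor p q t t'] - [diag(1, 0)] = [W p W⁻¹] - [q]`. -/
def milnor {R : Type} [Ring R] (p q t t' : R) : M2 R :=
  swapMat q * mat2 ((1 + t) * (1 - t') * (1 + t) * p * ((1 - t) * (1 + t') * (1 - t))) 0 0 (1 - q) *
    swapMat q

/-- The part `P (1 + G) / 2` of the idempotent `P` on which the grading `G` is `1`. -/
def evenPart {R : Type} [Ring R] [Algebra ℂ R] (P G : R) : R := P * ((2⁻¹ : ℂ) • (1 + G))

/-- The index idempotent of `P₋ F P₊ : range P₊ → range P₋`, where `P_± = P (1 ± G) / 2`. -/
def indexMat {R : Type} [Ring R] [Algebra ℂ R] (P G F : R) : M2 R :=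
  milnor (evenPart P G) (evenPart P (-G)) (evenPart P (-G) * F * evenPart P G)
    (evenPart P G * F * evenPart P (-G))

/-! ### The universal (maximal) completion of a `*`-algebra -/

/-- Bounded operators `E → E'`. -/
abbrev Op (E E' : Type) [NormedAddCommGroup E] [InnerProductSpace ℂ E] [NormedAddCommGroup E']
    [InnerProductSpace ℂ E'] : Type :=
  E →L[ℂ] E'

instance Op.ring (E : Type) [NormedAddCommGroup E] [InnerProductSpace ℂ E] : Ring (Op E E) :=
  ContinuousLinearMap.ring

instance Op.algebra (E : Type) [NormedAddCommGroup E] [InnerProductSpace ℂ E] :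
    Algebra ℂ (Op E E) :=
  ContinuousLinearMap.algebra

instance Op.starRing (E : Type) [NormedAddCommGroup E] [InnerProductSpace ℂ E] [CompleteSpace E] :
    StarRing (Op E E) :=
  ContinuousLinearMap.instStarRingId

instance Op.starModule (E : Type) [NormedAddCommGroup E] [InnerProductSpace ℂ E]
    [CompleteSpace E] : StarModule ℂ (Op E E) :=
  ContinuousLinearMap.instStarModuleId

instance Op.norm (E E' : Type) [NormedAddCommGroup E] [InnerProductSpace ℂ E]
    [NormedAddCommGroup E'] [InnerProductSpace ℂ E'] : Norm (Op E E') :=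
  ContinuousLinearMap.hasOpNorm

/-- `f` is a bounded linear map. -/
abbrev IsBddLin {E E' : Type} [NormedAddCommGroup E] [InnerProductSpace ℂ E]
    [NormedAddCommGroup E'] [InnerProductSpace ℂ E'] (f : E → E') : Prop :=
  IsBoundedLinearMap ℂ f

/-- The bounded operator with underlying function `f`. -/
def mkOp {E E' : Type} [NormedAddCommGroup E] [InnerProductSpace ℂ E]
    [NormedAddCommGroup E'] [InnerProductSpace ℂ E'] (f : E → E') (h : IsBddLin f) : Op E E' :=
  IsBoundedLinearMap.toContinuousLinearMap f h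

/-- Unital `*`-homomorphisms. -/
abbrev UnitalHom (A B : Type) [Ring A] [StarRing A] [Algebra ℂ A] [Ring B] [StarRing B]
    [Algebra ℂ B] : Type :=
  A →⋆ₐ[ℂ] B

/-- The norm of the image `ρ a`. -/
def homNorm {A B : Type} [Ring A] [StarRing A] [Algebra ℂ A] [Ring B] [StarRing B]
    [Algebra ℂ B] [Norm B] (ρ : UnitalHom A B) (a : A) : ℝ := ‖ρ a‖

/-- Unital `*`-representations of `A` on the Hilbert space `K`. -/
abbrev RepOn (A K : Type) [Ring A] [StarRing A] [Algebra ℂ A] [NormedAddCommGroup K]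
    [InnerProductSpace ℂ K] [CompleteSpace K] : Type :=
  UnitalHom A (Op K K)

/-- The norms of `a` in all `*`-representations on Hilbert spaces. -/
def repNorms {A : Type} [Ring A] [StarRing A] [Algebra ℂ A] (a : A) : Set ℝ :=
  {t | ∃ (K : Type) (_ : NormedAddCommGroup K) (_ : InnerProductSpace ℂ K) (_ : CompleteSpace K)
    (ρ : RepOn A K), t = homNorm ρ a}

/-- The universal norm `sup_ρ ‖ρ a‖` is finite. -/
class RepBdd (A : Type) [Ring A] [StarRing A] [Algebra ℂ A] : Prop where
  bdd : ∀ a : A, BddAbove (repNorms a)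

/-- The universal norm `‖a‖_max = sup_ρ ‖ρ a‖`. -/
def maxNorm {A : Type} [Ring A] [StarRing A] [Algebra ℂ A] (a : A) : ℝ := sSup (repNorms a)

/-- The multiplication of `A` is `ℂ`-bilinear. -/
class IsAlg (A : Type) [NonUnitalRing A] [Module ℂ A] : Prop where
  tower : IsScalarTower ℂ A A
  comm : SMulCommClass ℂ A A

attribute [instance] IsAlg.tower IsAlg.comm

/-- The unitization `A⁺` of a nonunital algebra. -/
abbrev UnitOf (A : Type) : Type := Unitization ℂ A

instance UnitOf.ring (A : Type) [NonUnitalRing A] [Module ℂ A] [IsAlg A] : Ring (UnitOf A) :=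
  Unitization.instRing
instance UnitOf.starRing (A : Type) [NonUnitalRing A] [Module ℂ A] [IsAlg A] [StarRing A]
    [StarModule ℂ A] : StarRing (UnitOf A) :=
  Unitization.instStarRing
instance UnitOf.algebra (A : Type) [NonUnitalRing A] [Module ℂ A] [IsAlg A] :
    Algebra ℂ (UnitOf A) :=
  Unitization.instAlgebra ℂ ℂ A

/-- The matrix `diag(1, 0) + a` over the unitization `A⁺`. -/
def unitMat {A : Type} [NonUnitalRing A] [Module ℂ A] [IsAlg A] (a : M2 A) : M2 (UnitOf A) :=
  e10 (UnitOf A) + a.map Unitization.inr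

section StarAlg

variable {B : Type} [Ring B] [StarRing B] [Algebra ℂ B] [StarModule ℂ B]

/-- `S` is closed under the `*`-algebra operations. -/
structure IsStarAlg {B : Type} [Ring B] [StarRing B] [Algebra ℂ B] (S : Set B) : Prop where
  zero : 0 ∈ S
  add : ∀ {a b}, a ∈ S → b ∈ S → a + b ∈ S
  mul : ∀ {a b}, a ∈ S → b ∈ S → a * b ∈ S
  smul : ∀ (c : ℂ) {a}, a ∈ S → c • a ∈ S
  star : ∀ {a}, a ∈ S → star a ∈ S

/-- Nonunital `*`-subalgebras of `B`. -/
abbrev SubOf (B : Type) [Ring B] [StarRing B] [Algebra ℂ B] : Type := NonUnitalStarSubalgebra ℂ B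

/-- The `*`-algebra with underlying set `S`. -/
def IsStarAlg.toSub {B : Type} [Ring B] [StarRing B] [Algebra ℂ B] {S : Set B} (h : IsStarAlg S) :
    SubOf B where
  carrier := S
  add_mem' := h.add
  zero_mem' := h.zero
  mul_mem' := h.mul
  smul_mem' := h.smul
  star_mem' := h.star

instance SubOf.isAlg {B : Type} [Ring B] [StarRing B] [Algebra ℂ B] (A : SubOf B) : IsAlg A :=
  ⟨NonUnitalStarSubalgebra.instIsScalarTower A, NonUnitalStarSubalgebra.instSMulCommClass A⟩

/-- The unitization of a subalgebra. -/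
def PlusOf {B : Type} [Ring B] [StarRing B] [Algebra ℂ B] (A : SubOf B) : Type := UnitOf A

instance PlusOf.ring {B : Type} [Ring B] [StarRing B] [Algebra ℂ B] (A : SubOf B) :
    Ring (PlusOf A) := UnitOf.ring A
instance PlusOf.starRing (A : SubOf B) : StarRing (PlusOf A) := UnitOf.starRing A
instance PlusOf.algebra {B : Type} [Ring B] [StarRing B] [Algebra ℂ B] (A : SubOf B) :
    Algebra ℂ (PlusOf A) := UnitOf.algebra A

/-- The entries of `m - diag(1, 0)` lie in `A`. -/
def DiffIn {B : Type} [Ring B] [StarRing B] [Algebra ℂ B] (A : SubOf B) (m : M2 B) : Prop :=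
  ∀ i k, m i k - e10 B i k ∈ A

/-- The matrix `m = diag(1, 0) + (m - diag(1, 0))` as a matrix over `A⁺`. -/
def plusOfMat {B : Type} [Ring B] [StarRing B] [Algebra ℂ B] (A : SubOf B) (m : M2 B)
    (h : DiffIn A m) : M2 (PlusOf A) :=
  unitMat fun i k => (⟨m i k - e10 B i k, h i k⟩ : A)

end StarAlg

section StarAlgOp

variable {E : Type} [NormedAddCommGroup E] [InnerProductSpace ℂ E] [CompleteSpace E]

/-- `S` is a `*`-algebra of operators. -/
abbrev IsStarAlgOp (S : Set (Op E E)) : Prop := IsStarAlg S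

/-- Nonunital `*`-subalgebras of the bounded operators on `E`. -/
abbrev StarSub (E : Type) [NormedAddCommGroup E] [InnerProductSpace ℂ E] [CompleteSpace E] :
    Type :=
  SubOf (Op E E)

/-- The `*`-algebra of operators with underlying set `S`. -/
def starSub {S : Set (Op E E)} (h : IsStarAlgOp S) : StarSub E := IsStarAlg.toSub h

/-- The unitization `A⁺` of an algebra of operators. -/
def Plus (A : StarSub E) : Type := PlusOf A

instance Plus.ring (A : StarSub E) : Ring (Plus A) := PlusOf.ring A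
instance Plus.starRing (A : StarSub E) : StarRing (Plus A) := PlusOf.starRing A
instance Plus.algebra (A : StarSub E) : Algebra ℂ (Plus A) := PlusOf.algebra A

/-- The entries of `m - diag(1, 0)` lie in `A`. -/
abbrev DiffMem (A : StarSub E) (m : M2 (Op E E)) : Prop := DiffIn A m

/-- The matrix `m = diag(1, 0) + (m - diag(1, 0))` as a matrix over `A⁺`. -/
def plusMat (A : StarSub E) (m : M2 (Op E E)) (h : DiffMem A m) : M2 (Plus A) := plusOfMat A m h

/-- `indexMat` in the algebra of bounded operators on `E`. -/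
def indexMatOp (P G F : Op E E) : M2 (Op E E) := indexMat P G F

/-- The operator `V V*`. -/
def rangeOp {K : Type} [NormedAddCommGroup K] [InnerProductSpace ℂ K] [CompleteSpace K]
    (V : Op K E) : Op E E := V.comp (ContinuousLinearMap.adjoint V)

end StarAlgOp

/-! ### Operators on `ℓ²(X) ⊗ H = ℓ²(X, H)` -/

/-- Bounded geometry: balls of radius `R` have uniformly bounded cardinality. -/
class BddGeom (X : Type) [PseudoEMetricSpace X] : Prop where
  bdd : ∀ R : ℕ, ∃ N : ℕ, ∀ x : X, {y | edist x y ≤ R}.encard ≤ N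

/-- The Hilbert space `ℓ²(X, H)`. -/
abbrev L2 (X H : Type) [NormedAddCommGroup H] : Type := lp (fun _ : X => H) 2

instance L2.normed (X H : Type) [NormedAddCommGroup H] : NormedAddCommGroup (L2 X H) :=
  lp.normedAddCommGroup

instance L2.hilbert (X H : Type) [NormedAddCommGroup H] [InnerProductSpace ℂ H] :
    InnerProductSpace ℂ (L2 X H) :=
  lp.instInnerProductSpace

instance L2.complete (X H : Type) [NormedAddCommGroup H] [CompleteSpace H] :
    CompleteSpace (L2 X H) :=
  lp.completeSpace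

section Ops

variable {X H : Type} [NormedAddCommGroup H] [InnerProductSpace ℂ H]

/-- Evaluation `ℓ²(X, H) → H` at `x`. -/
def ev (x : X) : Op (L2 X H) H := lp.evalCLM ℂ (fun _ : X => H) 2 x

open Classical in
/-- The inclusion `H → ℓ²(X, H)`, `ξ ↦ δ_y ⊗ ξ`. -/
def sing (y : X) : Op H (L2 X H) := lp.singleContinuousLinearMap ℂ (fun _ : X => H) 2 y

/-- The composite `a ∘ x ∘ b`. -/
def sandwich {E E' E₁ E₂ : Type} [NormedAddCommGroup E] [InnerProductSpace ℂ E]
    [NormedAddCommGroup E'] [InnerProductSpace ℂ E'] [NormedAddCommGroup E₁]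
    [InnerProductSpace ℂ E₁] [NormedAddCommGroup E₂] [InnerProductSpace ℂ E₂]
    (a : Op E₂ E') (x : Op E₁ E₂) (b : Op E E₁) : Op E E' := a.comp (x.comp b)

/-- The matrix entry `T_{xy}` of an operator on `ℓ²(X, H)`. -/
def entry (T : Op (L2 X H) (L2 X H)) (x y : X) : Op H H := sandwich (ev x) T (sing y)

/-- The operator `1 ⊗ T` on `ℓ²(X, H)`, `ξ ↦ (x ↦ T (ξ x))`. -/
def ampl (X : Type) (T : Op H H) : Op (L2 X H) (L2 X H) :=
  lp.mapCLM 2 (fun _ : X => T) (norm_nonneg T) (fun _ => le_rfl)

/-- The compact operators on `H`. -/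
def compacts (H : Type) [NormedAddCommGroup H] [InnerProductSpace ℂ H] : Set (Op H H) :=
  {T | IsCompactOperator T}

/-- All entries `T_{xy}` are compact, and they vanish when `d(x, y)` exceeds some `R`. -/
def IsRoe [PseudoEMetricSpace X] (T : Op (L2 X H) (L2 X H)) : Prop :=
  (∀ x y, entry T x y ∈ compacts H) ∧ ∃ R : ℕ, ∀ x y, (R : ENNReal) < edist x y → entry T x y = 0

end Ops

/-! ### Rips complexes -/

/-- The points of the Rips complex `P_r(X)`, in barycentric coordinates. -/
structure Rips (X : Type) [PseudoEMetricSpace X] (r : ℕ) : Type where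
  t : X → ℝ
  nonneg : ∀ x, 0 ≤ t x
  finite : (Function.support t).Finite
  sum_eq : ∑ᶠ x, t x = 1
  diam : ∀ x y, t x ≠ 0 → t y ≠ 0 → edist x y ≤ r

/-- The simplices of `P_r(X)`: finite subsets of diameter at most `r`. -/
def RipsSimplex (X : Type) [PseudoEMetricSpace X] (r : ℕ) : Type :=
  {σ : Finset X // ∀ x ∈ σ, ∀ y ∈ σ, edist x y ≤ r}

/-- The closed simplex `|σ|` in `P_r(X)`. -/
def RipsCell {X : Type} [PseudoEMetricSpace X] {r : ℕ} (σ : RipsSimplex X r) : Type :=
  {μ : Rips X r // ∀ x, μ.t x ≠ 0 → x ∈ σ.1}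

/-- The weak topology on `P_r(X)`: a set is open iff its trace on every closed simplex (with its
Euclidean topology) is open. -/
instance Rips.top (X : Type) [PseudoEMetricSpace X] (r : ℕ) : TopologicalSpace (Rips X r) :=
  ⨆ σ : RipsSimplex X r, TopologicalSpace.coinduced (fun μ : RipsCell σ => μ.1)
    (TopologicalSpace.induced (fun μ : RipsCell σ => μ.1.t) Pi.topologicalSpace)

/-- The inclusion `P_r(X) ⊆ P_{r'}(X)` for `r ≤ r'`. -/
def Rips.incl {X : Type} [PseudoEMetricSpace X] {r r' : ℕ} (h : r ≤ r') (μ : Rips X r) :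
    Rips X r' :=
  ⟨μ.t, μ.nonneg, μ.finite, μ.sum_eq, fun x y hx hy => (μ.diam x y hx hy).trans (Nat.cast_le.2 h)⟩

/-- The square root `√t_x` of the barycentric coordinate at the vertex `x`. -/
def Rips.sqrtAt {X : Type} [PseudoEMetricSpace X] {r : ℕ} (x : X) (μ : Rips X r) : ℂ :=
  Complex.ofReal (Real.sqrt (μ.t x))

/-! ### Kasparov cycles (graded Fredholm modules) -/

/-- Nonunital `*`-homomorphisms. -/
abbrev StarHom (A B : Type) [NonUnitalRing A] [StarRing A] [Module ℂ A] [NonUnitalRing B]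
    [StarRing B] [Module ℂ B] : Type :=
  A →⋆ₙₐ[ℂ] B

/-- The value `π f`. -/
abbrev StarHom.app {A B : Type} [NonUnitalRing A] [StarRing A] [Module ℂ A] [NonUnitalRing B]
    [StarRing B] [Module ℂ B] (π : StarHom A B) (f : A) : B := π f

section FMod

variable {A A' B : Type} [NonUnitalRing A] [StarRing A] [Module ℂ A] [NonUnitalRing A']
  [StarRing A'] [Module ℂ A'] [Ring B] [StarRing B] [Algebra ℂ B]

/-- `f` preserves the `*`-algebra operations. -/
structure IsStarHom (f : A → A') : Prop where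
  smul : ∀ (c : ℂ) a, f (c • a) = c • f a
  zero : f 0 = 0
  add : ∀ a b, f (a + b) = f a + f b
  mul : ∀ a b, f (a * b) = f a * f b
  star : ∀ a, f (star a) = star (f a)

/-- The `*`-homomorphism with underlying function `f`. -/
def IsStarHom.toHom {f : A → A'} (h : IsStarHom f) : StarHom A A' where
  toFun := f
  map_smul' := h.smul
  map_zero' := h.zero
  map_add' := h.add
  map_mul' := h.mul
  map_star' := h.star

/-- The conditions on a graded Fredholm module `(π, γ, F)` over `A` in the algebra `B` of bounded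
operators, `𝒦 ⊆ B` being the compact operators. -/
structure IsFredholmModule (𝒦 : Set B) (π : StarHom A B) (γ F : B) : Prop where
  grading_sa : star γ = γ
  grading_sq : γ * γ = 1
  even_π : ∀ f, γ * π f = π f * γ
  odd_F : γ * F = -(F * γ)
  sa_F : ∀ f, π f * (F - star F) ∈ 𝒦
  sq_F : ∀ f, π f * (F * F - 1) ∈ 𝒦
  comm_F : ∀ f, π f * F - F * π f ∈ 𝒦

/-- A graded Fredholm module over `A`. -/
structure FMod (A : Type) {B : Type} [NonUnitalRing A] [StarRing A] [Module ℂ A] [Ring B]
    [StarRing B] [Algebra ℂ B] (𝒦 : Set B) : Type where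
  π : StarHom A B
  γ : B
  F : B
  fredholm : IsFredholmModule 𝒦 π γ F

variable {𝒦 : Set B}

/-- The pull back of a Fredholm module along a `*`-homomorphism. -/
def FMod.comap (φ : StarHom A' A) (z : FMod A 𝒦) : FMod A' 𝒦 where
  π := z.π.comp φ
  γ := z.γ
  F := z.F
  fredholm := ⟨z.fredholm.1, z.fredholm.2, fun _ => z.fredholm.3 _, z.fredholm.4,
    fun _ => z.fredholm.5 _, fun _ => z.fredholm.6 _, fun _ => z.fredholm.7 _⟩

/-- `s` intertwines `x` with `z`. -/
structure Intertwines (s : B) (x z : FMod A 𝒦) : Prop where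
  rep : ∀ f, z.π f * s = s * x.π f
  grading : z.γ * s = s * x.γ
  op : z.F * s = s * x.F

/-- Unitary equivalence. -/
def FMod.Unitary (x z : FMod A 𝒦) : Prop :=
  ∃ u : B, star u * u = 1 ∧ u * star u = 1 ∧ Intertwines u x z

/-- Operator homotopy: same `π` and `γ`, and a norm continuous path of operators. -/
def FMod.Homotopic [TopologicalSpace B] (x z : FMod A 𝒦) : Prop :=
  x.π = z.π ∧ x.γ = z.γ ∧ ∃ F : ℝ → B, Continuous F ∧ F 0 = x.F ∧ F 1 = z.F ∧
    ∀ s, IsFredholmModule 𝒦 x.π x.γ (F s)

/-- `z` is the direct sum of `x` and `y`, along an isomorphism `(s₁, s₂) : H ⊕ H ≅ H`. -/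
def FMod.IsSum (z x y : FMod A 𝒦) : Prop :=
  ∃ s₁ s₂ : B, star s₁ * s₁ = 1 ∧ star s₂ * s₂ = 1 ∧ s₁ * star s₁ + s₂ * star s₂ = 1 ∧
    Intertwines s₁ x z ∧ Intertwines s₂ y z

end FMod

/-- The algebra `C₀(Ω)`. -/
abbrev C0 (Ω : Type) [TopologicalSpace Ω] : Type := C₀(Ω, ℂ)

instance C0.ring (Ω : Type) [TopologicalSpace Ω] : NonUnitalRing (C0 Ω) :=
  ZeroAtInftyContinuousMap.instNonUnitalRing

instance C0.starRing (Ω : Type) [TopologicalSpace Ω] : StarRing (C0 Ω) :=
  ZeroAtInftyContinuousMap.instStarRing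

instance C0.module (Ω : Type) [TopologicalSpace Ω] : Module ℂ (C0 Ω) :=
  ZeroAtInftyContinuousMap.instModule

section Cycles

variable {Ω Ω' H : Type} [TopologicalSpace Ω] [TopologicalSpace Ω'] [NormedAddCommGroup H]
  [InnerProductSpace ℂ H] [CompleteSpace H]

/-- The norm topology on bounded operators. -/
abbrev normTop (H : Type) [NormedAddCommGroup H] [InnerProductSpace ℂ H] :
    TopologicalSpace (Op H H) :=
  ContinuousLinearMap.toNormedAddCommGroup.toMetricSpace.toUniformSpace.toTopologicalSpace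

/-- `*`-representations of `C₀(Ω)` on `H`. -/
abbrev C0Rep (Ω H : Type) [TopologicalSpace Ω] [NormedAddCommGroup H] [InnerProductSpace ℂ H]
    [CompleteSpace H] : Type :=
  StarHom (C0 Ω) (Op H H)

/-- `∑_x |φ_x|² ≤ 1`. -/
def SumSqLe {X : Type} (φ : X → C0 Ω) : Prop :=
  ∀ (s : Finset X) (ω : Ω), ∑ x ∈ s, ‖φ x ω‖ ^ 2 ≤ 1

/-- The family of vectors `(π (φ_x) ξ)_x`. -/
def columnFun {X : Type} (π : C0Rep Ω H) (φ : X → C0 Ω) (ξ : H) (x : X) : H :=
  StarHom.app π (φ x) ξ

/-- An even Kasparov `(C₀(Ω), ℂ)`-cycle on the Hilbert space `H`. -/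
abbrev Cycle0 (Ω H : Type) [TopologicalSpace Ω] [NormedAddCommGroup H] [InnerProductSpace ℂ H]
    [CompleteSpace H] : Type :=
  FMod (C0 Ω) (compacts H)

/-- Composition `f ↦ f ∘ g` with a proper map. -/
def precomp (g : CocompactMap Ω Ω') (f : C0 Ω') : C0 Ω := f.comp g

theorem isStarHom_precomp (g : CocompactMap Ω Ω') : IsStarHom (precomp g) :=
  ⟨fun _ _ => rfl, rfl, fun _ _ => rfl, fun _ _ => rfl, fun _ => rfl⟩

/-- The image of a cycle under a proper map. -/
def Cycle0.push (g : CocompactMap Ω Ω') (z : Cycle0 Ω H) : Cycle0 Ω' H :=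
  FMod.comap (isStarHom_precomp g).toHom z

/-- Unitary equivalence of cycles. -/
abbrev Cycle0.Unitary (x z : Cycle0 Ω H) : Prop := FMod.Unitary x z

/-- Operator homotopy of cycles. -/
abbrev Cycle0.Homotopic (x z : Cycle0 Ω H) : Prop := @FMod.Homotopic _ _ _ _ _ _ _ _ _ (normTop H) x z

/-- Direct sum of cycles. -/
abbrev Cycle0.IsSum (z x y : Cycle0 Ω H) : Prop := FMod.IsSum z x y

end Cycles

/-- The Hilbert space `ℓ²(ℕ)`. -/
abbrev EllTwo : Type := L2 ℕ ℂ

end Vale.Agent.P212
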