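import Vale.Agent.P212.IndexOp

noncomputable section

namespace Vale.Agent.P212

variable (X H : Type) [PseudoEMetricSpace X] [BddGeom X] [NormedAddCommGroup H]
  [InnerProductSpace ℂ H] [CompleteSpace H]

instance repBdd_roe : RepBdd (RoePlus X H) := repBdd_roe_aux

/-- `C*_max(X)⁺`: the completion of `ℂ[X]⁺` in the universal norm. -/
abbrev MaxRoePlus : Type := CStarMax (RoePlus X H)

variable {X H}

theorem diffMem_indexOp {r : ℕ} (z : Cycle0 (Rips X r) H) : DiffMem (roeAlg X H) (indexOp z) :=
  diffMem_indexOp_aux z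

/-- The index idempotent as a matrix over `ℂ[X]⁺`. -/
def indexPlus {r : ℕ} (z : Cycle0 (Rips X r) H) : M2 (RoePlus X H) :=
  plusMat (roeAlg X H) (indexOp z) (diffMem_indexOp z)

theorem indexPlus_idem {r : ℕ} (z : Cycle0 (Rips X r) H) : IsIdem (indexPlus z) :=
  indexRoe_idem z

/-- The class `[e] - [diag(1, 0)]` in `K₀` of the universal completion of `A`. -/
def maxClass {A : Type} [Ring A] [StarRing A] [Algebra ℂ A] [RepBdd A] (e : M2 A) (h : IsIdem e) :
    K0 (CStarMax A) :=
  K0.diff (Idem.image (toMax A) e h) (idem10 _)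

/-- The maximal index of a cycle. -/
def maxIndex (z : Gen X H) : K0 (MaxRoePlus X H) := maxClass (indexPlus z.2) (indexPlus_idem z.2)

end Vale.Agent.P212
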