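import Vale.Agent.P212.WellDef

noncomputable section

namespace Vale.Agent.P212

variable (X H : Type) [PseudoEMetricSpace X] [BddGeom X] [NormedAddCommGroup H]
  [InnerProductSpace ℂ H] [CompleteSpace H]

theorem respects_maxIndex :
    Respects (maxIndex : Gen X H → K0 (MaxRoePlus X H)) {w | KRel X H w} :=
  respects_maxIndex_aux

/-- The maximal coarse assembly map `μ^max_X : KX₀(X) → K₀(C*_max(X)) ⊆ K₀(C*_max(X)⁺)`. -/
def assembly : AbHom (KX0 X H) (K0 (MaxRoePlus X H)) :=
  Presented.lift maxIndex (respects_maxIndex X H)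

/-- `μ^max_X ⊗ id_ℚ` is injective in degree `0`. -/
def MaxAssemblyRatInjective : Prop := RatInjective (assembly X H)

end Vale.Agent.P212
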