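import Vale.Agent.P212.OpKit1

/-! Dyadic: a slowly varying family of unitaries on `ℓ²(ℚ)` which shift the spectrum of a
diagonal operator `Y` slowly from `0` to `1` and jump back.
Plan. `yv q = max 0 (min q 1)`, `Y = diagOp (fun q => yv q • 1)`, `η₀ = sing 0 1`,
`e₀ = rankOne η₀ η₀` has entries `1` at `(0,0)` and `0` elsewhere. Let `A k = {j / 2^k | j ≤ 2^k}`
(finite, `A k ⊆ A (k+1)`, `j / 2^(k+1) ∈ A k ↔ j` even). Functions on `ℚ`:
`S k q = if q ∈ A k then (if q = 1 then 0 else q + 1/2^k) else q`,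
`τ k q = if q ∈ A k ∧ q ≠ 1 then q + 1/2^(k+1) else if q ∈ A (k+1) ∧ q ∉ A k then q - 1/2^(k+1)
else q`. `τ k` is an involution and `S (k+1) = S k ∘ τ k`, `S 0 = swap 0 1`; so the permutations
`σ 0 = swap 0 1`, `σ (k+1) = σ k * τ k` satisfy `σ k q = S k q`. With `u = permOp ℚ ℂ`:
`u (σ k) - 1` is compact (`compacts_of_finite`), `e₀ u (σ k) (Y - 1) = 0` (`σ k 1 = 0`), and
`(1 - e₀) u (σ k) Y - Y (1 - e₀) u (σ k) = u (σ k) * diagOp d` with
`d q = if σ k q = 0 then 0 else yv q - yv (σ k q)`, `|d q| ≤ 1/2^k` (`entry_ext`).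
For `n > 0` let `k = Nat.sqrt n`, `s = (n - k²) / (2k + 1)`, `c = exp (i π s)`,
`U n = W k s := ((1 + c)/2) • u (σ k) + ((1 - c)/2) • u (σ (k+1)) =
u (σ k) * (((1 + c)/2) • 1 + ((1 - c)/2) • u (τ k))`, a unitary. `W k 1 = W (k+1) 0` and
`‖W k s - W k s'‖ ≤ π |s - s'|`, so `‖U (n+1) - U n‖ ≤ π / (2 sqrt n + 1)`. -/

noncomputable section

open InnerProductSpace Filter Topology

namespace Vale.Agent.P212

/-- The Hilbert space `ℓ²(ℚ)`. -/
abbrev H1 : Type := L2 ℚ ℂ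

/-! ### dyadic combinatorics -/

/-- `q = j / 2 ^ k` with `j ≤ 2 ^ k`. -/
def DyA (k : ℕ) (q : ℚ) : Prop := ∃ j : ℕ, j ≤ 2 ^ k ∧ q * 2 ^ k = j

theorem dyA_succ {k : ℕ} {q : ℚ} (h : DyA k q) : DyA (k + 1) q := by
  obtain ⟨j, hj, e⟩ := h
  exact ⟨2 * j, by rw [pow_succ]; omega, by push_cast; rw [pow_succ, ← e]; ring⟩

theorem dyA_one (k : ℕ) : DyA k 1 := ⟨2 ^ k, le_rfl, by simp⟩

theorem dyA_lt {k j : ℕ} {q : ℚ} (hj : j ≤ 2 ^ k) (e : q * 2 ^ k = j) (h1 : q ≠ 1) : j < 2 ^ k := by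
  refine lt_of_le_of_ne hj fun h => h1 ?_
  rw [h] at e
  push_cast at e
  exact mul_right_cancel₀ (by positivity) (e.trans (one_mul _).symm)

theorem dyA_mid {k : ℕ} {q : ℚ} (h : DyA k q) (h1 : q ≠ 1) :
    DyA (k + 1) (q + 1 / 2 ^ (k + 1)) ∧ ¬DyA k (q + 1 / 2 ^ (k + 1)) := by
  obtain ⟨j, hj, e⟩ := h
  have hlt := dyA_lt hj e h1
  have e2 : (q + 1 / 2 ^ (k + 1)) * 2 ^ (k + 1) = (2 * j + 1 : ℕ) := by
    push_cast
    rw [← e]
    field_simp
    ring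
  refine ⟨⟨2 * j + 1, by rw [pow_succ]; omega, e2⟩, ?_⟩
  rintro ⟨i, -, e3⟩
  have e4 : ((2 * i : ℕ) : ℚ) = (2 * j + 1 : ℕ) := by
    rw [← e2]
    push_cast
    rw [← e3]
    ring
  have := Nat.cast_injective e4
  omega

theorem dyA_back {k : ℕ} {q : ℚ} (h : DyA (k + 1) q) (h0 : ¬DyA k q) :
    DyA k (q - 1 / 2 ^ (k + 1)) ∧ q - 1 / 2 ^ (k + 1) ≠ 1 ∧ q ≠ 1 := by
  obtain ⟨j, hj, e⟩ := h
  rw [pow_succ] at hj
  obtain ⟨i, hi | hi⟩ := Nat.even_or_odd' j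
  · refine absurd ⟨i, by omega, ?_⟩ h0
    rw [hi, pow_succ] at e
    push_cast at e
    linarith
  · have e2 : (q - 1 / 2 ^ (k + 1)) * 2 ^ k = i := by
      rw [hi, pow_succ] at e
      push_cast at e
      have : (1 / 2 ^ (k + 1) : ℚ) * 2 ^ k = 1 / 2 := by
        field_simp
        ring
      linarith
    refine ⟨⟨i, by omega, e2⟩, fun h => ?_, fun h => h0 (h ▸ dyA_one k)⟩
    rw [h, one_mul] at e2
    have : 2 ^ k = i := by exact_mod_cast e2
    omega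

theorem dyA_mem {k : ℕ} {q : ℚ} (h : DyA k q) (h1 : q ≠ 1) : 0 ≤ q ∧ q + 1 / 2 ^ k ≤ 1 := by
  obtain ⟨j, hj, e⟩ := h
  have hlt : ((j + 1 : ℕ) : ℚ) ≤ (2 ^ k : ℕ) := Nat.cast_le.2 (dyA_lt hj e h1)
  push_cast at hlt
  have hp : (0 : ℚ) < 2 ^ k := by positivity
  have e2 : q = j / 2 ^ k := by rw [← e]; field_simp
  rw [e2, ← add_div, div_le_one hp]
  exact ⟨by positivity, hlt⟩

theorem dyA_fin (k : ℕ) : ∃ s : Finset ℚ, ∀ q, DyA k q → q ∈ s := by
  refine ⟨(Finset.range (2 ^ k + 1)).image fun j : ℕ => (j : ℚ) / 2 ^ k, ?_⟩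
  rintro q ⟨j, hj, e⟩
  exact Finset.mem_image.2 ⟨j, Finset.mem_range.2 (by omega), by rw [← e]; field_simp⟩

open Classical in
/-- The cyclic shift of the dyadic points of level `k`. -/
def dyS (k : ℕ) (q : ℚ) : ℚ := if DyA k q then (if q = 1 then 0 else q + 1 / 2 ^ k) else q

open Classical in
/-- The involution which inserts the midpoints. -/
def dyT (k : ℕ) (q : ℚ) : ℚ :=
  if DyA k q ∧ q ≠ 1 then q + 1 / 2 ^ (k + 1)
  else if DyA (k + 1) q ∧ ¬DyA k q then q - 1 / 2 ^ (k + 1) else q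

theorem dyT_spec (k : ℕ) (q : ℚ) : dyT k (dyT k q) = q ∧ dyS k (dyT k q) = dyS (k + 1) q := by
  by_cases h1 : DyA k q ∧ q ≠ 1
  · obtain ⟨m1, m2⟩ := dyA_mid h1.1 h1.2
    have e : dyT k q = q + 1 / 2 ^ (k + 1) := if_pos h1
    rw [e, dyT, if_neg fun h => m2 h.1, if_pos ⟨m1, m2⟩, dyS, if_neg m2, dyS,
      if_pos (dyA_succ h1.1), if_neg h1.2]
    exact ⟨by ring, rfl⟩
  by_cases h2 : DyA (k + 1) q ∧ ¬DyA k q
  · obtain ⟨m1, m2, m3⟩ := dyA_back h2.1 h2.2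
    have e : dyT k q = q - 1 / 2 ^ (k + 1) := (if_neg h1).trans (if_pos h2)
    rw [e, dyT, if_pos ⟨m1, m2⟩, dyS, if_pos m1, if_neg m2, dyS, if_pos h2.1, if_neg m3]
    refine ⟨by ring, ?_⟩
    field_simp
    ring
  have e : dyT k q = q := (if_neg h1).trans (if_neg h2)
  rw [e, e]
  refine ⟨rfl, ?_⟩
  by_cases h3 : DyA k q
  · have h4 : q = 1 := by
      by_contra h4
      exact h1 ⟨h3, h4⟩
    rw [dyS, dyS, if_pos h3, if_pos (dyA_succ h3), if_pos h4, if_pos h4]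
  · have h4 : ¬DyA (k + 1) q := fun h4 => h2 ⟨h4, h3⟩
    rw [dyS, dyS, if_neg h3, if_neg h4]

/-- `dyT` as a permutation. -/
def dyTau (k : ℕ) : Equiv.Perm ℚ :=
  Function.Involutive.toPerm (dyT k) fun q => (dyT_spec k q).1

theorem dyTau_inv (k : ℕ) : (dyTau k)⁻¹ = dyTau k := rfl

/-- The permutations `σ k`. -/
def dySig : ℕ → Equiv.Perm ℚ
  | 0 => Equiv.swap 0 1
  | k + 1 => dySig k * dyTau k

theorem dySig_apply (k : ℕ) (q : ℚ) : dySig k q = dyS k q := by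
  induction k generalizing q with
  | zero =>
    rw [dySig, dyS]
    by_cases h0 : q = 0
    · rw [h0, if_pos ⟨0, by simp, by simp⟩]
      simp
    by_cases h1 : q = 1
    · rw [h1, if_pos (dyA_one 0)]
      simp
    rw [Equiv.swap_apply_of_ne_of_ne h0 h1, if_neg]
    rintro ⟨j, hj, e⟩
    have : j = 0 ∨ j = 1 := by simp at hj; omega
    rcases this with h | h <;> simp_all
  | succ k ih =>
    rw [dySig, Equiv.Perm.mul_apply, ih]
    exact (dyT_spec k q).2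

theorem dySig_one (k : ℕ) : dySig k 1 = 0 := by
  rw [dySig_apply, dyS, if_pos (dyA_one k), if_pos rfl]

/-- The eigenvalues of `Y`. -/
def dyv (q : ℚ) : ℝ := max 0 (min (q : ℝ) 1)

theorem dyv_mem (q : ℚ) : 0 ≤ dyv q ∧ dyv q ≤ 1 :=
  ⟨le_max_left _ _, max_le zero_le_one (min_le_right _ _)⟩

theorem dyv_eq {q : ℚ} (h0 : 0 ≤ q) (h1 : q ≤ 1) : dyv q = q := by
  rw [dyv, min_eq_left (by exact_mod_cast h1), max_eq_right (by exact_mod_cast h0)]

theorem dySig_close (k : ℕ) (q : ℚ) (h : dySig k q ≠ 0) :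
    |dyv q - dyv (dySig k q)| ≤ (1 / 2) ^ k := by
  rw [dySig_apply, dyS] at h ⊢
  split_ifs at h ⊢ with h1 h2
  · exact absurd rfl h
  · obtain ⟨m1, m2⟩ := dyA_mem h1 h2
    have hp : (0 : ℚ) < 1 / 2 ^ k := by positivity
    rw [dyv_eq m1 (by linarith), dyv_eq (by linarith) m2]
    push_cast
    rw [sub_add_cancel_left, abs_neg, abs_of_pos (by positivity), one_div_pow]
  · rw [sub_self, abs_zero]
    positivity

/-! ### the operators -/

theorem dy_norm_smul (c : ℂ) : ‖c • (1 : Op ℂ ℂ)‖ = ‖c‖ := by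
  rw [norm_smul, norm_one, mul_one]

/-- The diagonal operator `Y`. -/
def dyY : Op H1 H1 :=
  diagOp (fun q => (dyv q : ℂ) • (1 : Op ℂ ℂ)) 1 zero_le_one fun q => by
    rw [dy_norm_smul, Complex.norm_real, Real.norm_of_nonneg (dyv_mem q).1]
    exact (dyv_mem q).2

/-- The unit vector at `0`. -/
def dyEta : H1 := sing 0 1

theorem dyY_apply (ξ : H1) (x : ℚ) : dyY ξ x = dyv x * ξ x := rfl

theorem dyE_apply (ξ : H1) (x : ℚ) :
    rankOne ℂ dyEta dyEta ξ x = if x = 0 then ξ 0 else 0 := by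
  have h : inner ℂ dyEta ξ = ξ 0 := by
    rw [dyEta, ← adjoint_ev, ContinuousLinearMap.adjoint_inner_left]
    simp
  rw [rankOne_apply, h, lp.coeFn_smul, Pi.smul_apply, dyEta, sing_apply]
  split_ifs <;> simp

theorem dy_Y_star : star dyY = dyY := by
  refine entry_ext fun x y => ?_
  rw [entry_star, dyY, entry_diagOp, entry_diagOp]
  by_cases h : x = y
  · subst h
    simp
  · rw [if_neg h, if_neg (Ne.symm h), star_zero]

theorem dy_Y_norm : ‖(2 : ℂ) • dyY - 1‖ ≤ 1 := by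
  have hb : ∀ q, ‖((2 * dyv q - 1 : ℝ) : ℂ) • (1 : Op ℂ ℂ)‖ ≤ 1 := fun q => by
    rw [dy_norm_smul, Complex.norm_real, Real.norm_eq_abs, abs_le]
    constructor <;> linarith [(dyv_mem q).1, (dyv_mem q).2]
  have e : (2 : ℂ) • dyY - 1 = diagOp _ 1 zero_le_one hb := by
    refine op_ext fun ξ x => ?_
    change 2 * (dyv x * ξ x) - ξ x = ((2 * dyv x - 1 : ℝ) : ℂ) * ξ x
    push_cast
    ring
  rw [e]
  exact norm_diagOp_le _ _ _ _

theorem dy_Y_eta : dyY dyEta = 0 := by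
  refine lp.ext (funext fun x => ?_)
  rw [dyY_apply, dyEta, sing_apply]
  by_cases h : x = 0
  · subst h
    simp [dyv]
  · simp [h]

theorem dy_cpt (k : ℕ) : permOp ℚ ℂ (dySig k) - 1 ∈ compacts H1 := by
  obtain ⟨s, hs⟩ := dyA_fin k
  have hf : ∀ q, q ∉ s → dySig k q = q := fun q hq => by
    rw [dySig_apply, dyS, if_neg fun h => hq (hs q h)]
  refine compacts_of_finite _ s (fun x y h => ?_)
    fun x y => isCompactOperator_of_locallyCompactSpace_dom _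
  have e : x = dySig k y ↔ x = y := by
    rcases h with h | h
    · conv_lhs => rw [← hf x h]
      exact (dySig k).apply_eq_iff_eq
    · rw [hf y h]
  rw [entry_sub, entry_permOp, entry_one]
  by_cases hxy : x = y
  · rw [if_pos (e.2 hxy), if_pos hxy, sub_self]
  · rw [if_neg fun h => hxy (e.1 h), if_neg hxy, sub_self]

theorem dy_corner (k : ℕ) : rankOne ℂ dyEta dyEta * permOp ℚ ℂ (dySig k) * (dyY - 1) = 0 := by
  refine op_ext fun ξ x => ?_
  have h : (dySig k).symm 0 = 1 := by rw [Equiv.symm_apply_eq, dySig_one]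
  change rankOne ℂ dyEta dyEta (permOp ℚ ℂ (dySig k) ((dyY - 1) ξ)) x = 0
  rw [dyE_apply, permOp_apply, h]
  change (if x = 0 then dyv 1 * ξ 1 - ξ 1 else 0) = 0
  simp [dyv]

theorem dy_comm (k : ℕ) : ‖(1 - rankOne ℂ dyEta dyEta) * permOp ℚ ℂ (dySig k) * dyY -
    dyY * ((1 - rankOne ℂ dyEta dyEta) * permOp ℚ ℂ (dySig k))‖ ≤ (1 / 2) ^ k := by
  have hb : ∀ q, ‖((if dySig k q = 0 then 0 else dyv q - dyv (dySig k q) : ℝ) : ℂ) •
      (1 : Op ℂ ℂ)‖ ≤ (1 / 2) ^ k := fun q => by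
    rw [dy_norm_smul, Complex.norm_real, Real.norm_eq_abs]
    split_ifs with h
    · rw [abs_zero]
      positivity
    · exact dySig_close k q h
  have e : (1 - rankOne ℂ dyEta dyEta) * permOp ℚ ℂ (dySig k) * dyY -
      dyY * ((1 - rankOne ℂ dyEta dyEta) * permOp ℚ ℂ (dySig k)) =
      permOp ℚ ℂ (dySig k) * diagOp _ _ (by positivity) hb := by
    refine op_ext fun ξ x => ?_
    change (permOp ℚ ℂ (dySig k) (dyY ξ) x -
        rankOne ℂ dyEta dyEta (permOp ℚ ℂ (dySig k) (dyY ξ)) x) -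
      dyv x * (permOp ℚ ℂ (dySig k) ξ x - rankOne ℂ dyEta dyEta (permOp ℚ ℂ (dySig k) ξ) x) =
      ((if dySig k ((dySig k).symm x) = 0 then 0 else
        dyv ((dySig k).symm x) - dyv (dySig k ((dySig k).symm x)) : ℝ) : ℂ) * ξ ((dySig k).symm x)
    simp only [dyE_apply, permOp_apply, dyY_apply, Equiv.apply_symm_apply]
    by_cases h : x = 0
    · subst h
      simp
    · simp only [if_neg h]
      push_cast
      ring
  rw [e]
  refine (norm_mul_le _ _).trans ?_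
  calc _ ≤ 1 * (1 / 2 : ℝ) ^ k :=
        mul_le_mul (norm_permOp_le _) (norm_diagOp_le _ _ _ _) (norm_nonneg _) zero_le_one
    _ = _ := one_mul _

/-! ### the homotopies -/

/-- The phase `exp (i π s)`. -/
def dyC (s : ℝ) : ℂ := Complex.exp (Complex.I * (Real.pi * s : ℝ))

theorem dyC_norm (s : ℝ) : ‖dyC s‖ = 1 := Complex.norm_exp_I_mul_ofReal _

theorem dyC_half (s : ℝ) : ‖(1 + dyC s) / 2‖ ≤ 1 ∧ ‖(1 - dyC s) / 2‖ ≤ 1 := by
  have h1 := norm_add_le 1 (dyC s)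
  have h2 := norm_sub_le 1 (dyC s)
  rw [dyC_norm, norm_one] at h1 h2
  rw [norm_div, norm_div, Complex.norm_two]
  constructor <;> linarith

theorem dyC_sub (s d : ℝ) (hd : 0 ≤ d) : ‖dyC (s + d) - dyC s‖ ≤ Real.pi * d := by
  have e : dyC (s + d) - dyC s = dyC s * (Complex.exp (Complex.I * (Real.pi * d : ℝ)) - 1) := by
    rw [dyC, dyC, mul_sub, ← Complex.exp_add]
    push_cast
    ring_nf
  rw [e, norm_mul, dyC_norm, one_mul]
  refine Real.norm_exp_I_mul_ofReal_sub_one_le.trans ?_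
  rw [Real.norm_of_nonneg (by positivity)]

/-- The path from `u (σ k)` to `u (σ (k + 1))`. -/
def dyW (k : ℕ) (s : ℝ) : Op H1 H1 :=
  ((1 + dyC s) / 2) • permOp ℚ ℂ (dySig k) + ((1 - dyC s) / 2) • permOp ℚ ℂ (dySig (k + 1))

/-- The unitaries. -/
def dyU (n : ℕ) : Op H1 H1 :=
  dyW (Nat.sqrt n) (((n : ℝ) - (Nat.sqrt n : ℝ) ^ 2) / (2 * (Nat.sqrt n : ℝ) + 1))

theorem dyW_end (k : ℕ) : dyW (k + 1) 0 = dyW k 1 := by
  have h0 : dyC 0 = 1 := by simp [dyC]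
  have h1 : dyC 1 = -1 := by
    rw [dyC, mul_one, mul_comm]
    exact Complex.exp_pi_mul_I
  rw [dyW, dyW, h0, h1]
  norm_num

theorem dyW_unit (k : ℕ) (s : ℝ) :
    star (dyW k s) * dyW k s = 1 ∧ dyW k s * star (dyW k s) = 1 := by
  have hc : (starRingEnd ℂ) (dyC s) * dyC s = 1 := by
    rw [Complex.conj_mul', dyC_norm]
    simp
  set a := permOp ℚ ℂ (dySig k)
  set t := permOp ℚ ℂ (dyTau k)
  have ha1 : star a * a = 1 := by rw [star_permOp, ← map_mul, inv_mul_cancel, map_one]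
  have ha2 : a * star a = 1 := by rw [star_permOp, ← map_mul, mul_inv_cancel, map_one]
  have ht1 : star t = t := by rw [star_permOp, dyTau_inv]
  have ht2 : t * t = 1 := by
    rw [← map_mul]
    conv_lhs => rw [← dyTau_inv k]
    rw [dyTau_inv k, show dyTau k * dyTau k = 1 from inv_mul_cancel (dyTau k), map_one]
  set V : Op H1 H1 := ((1 + dyC s) / 2) • 1 + ((1 - dyC s) / 2) • t with hV
  have e : dyW k s = a * V := by
    rw [dyW, dySig, map_mul, hV, mul_add, mul_smul_comm, mul_smul_comm, mul_one]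
  have hs : star V = ((1 + (starRingEnd ℂ) (dyC s)) / 2) • (1 : Op H1 H1) +
      ((1 - (starRingEnd ℂ) (dyC s)) / 2) • t := by
    rw [hV, star_add, star_smul, star_smul, ht1, star_one]
    simp
  have key : ∀ c d : ℂ, c * d = 1 → (((1 + c) / 2) • (1 : Op H1 H1) + ((1 - c) / 2) • t) *
      (((1 + d) / 2) • (1 : Op H1 H1) + ((1 - d) / 2) • t) = 1 := by
    intro c d h
    simp only [add_mul, mul_add, smul_mul_smul_comm, one_mul, mul_one, ht2]
    have e1 : (1 + c) / 2 * ((1 + d) / 2) = 1 - (1 - c) / 2 * ((1 - d) / 2) := by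
      linear_combination h / 2
    have e2 : (1 - c) / 2 * ((1 + d) / 2) = -((1 + c) / 2 * ((1 - d) / 2)) := by
      linear_combination (-1 / 2) * h
    rw [e1, e2, sub_smul, neg_smul, one_smul]
    abel
  have hV1 : star V * V = 1 := by rw [hs]; exact key _ _ hc
  have hV2 : V * star V = 1 := by rw [hs]; exact key _ _ ((mul_comm _ _).trans hc)
  rw [e, star_mul]
  constructor
  · rw [mul_assoc, ← mul_assoc (star a), ha1, one_mul, hV1]
  · rw [mul_assoc, ← mul_assoc V, hV2, one_mul, ha2]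

theorem dyU_unit (n : ℕ) : star (dyU n) * dyU n = 1 ∧ dyU n * star (dyU n) = 1 := dyW_unit _ _

theorem dyU_cpt (n : ℕ) : dyU n - 1 ∈ compacts H1 := by
  have e : ∀ k s, dyW k s - 1 = ((1 + dyC s) / 2) • (permOp ℚ ℂ (dySig k) - 1) +
      ((1 - dyC s) / 2) • (permOp ℚ ℂ (dySig (k + 1)) - 1) := by
    intro k s
    rw [dyW]
    module
  rw [dyU, e]
  exact compacts_add (compacts_smul _ (dy_cpt _)) (compacts_smul _ (dy_cpt _))

theorem dyU_corner (n : ℕ) : rankOne ℂ dyEta dyEta * dyU n * (dyY - 1) = 0 := by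
  rw [dyU, dyW, mul_add, add_mul, mul_smul_comm, mul_smul_comm, smul_mul_assoc, smul_mul_assoc,
    dy_corner, dy_corner, smul_zero, smul_zero, add_zero]

theorem dyU_comm (n : ℕ) : ‖(1 - rankOne ℂ dyEta dyEta) * dyU n * dyY -
    dyY * ((1 - rankOne ℂ dyEta dyEta) * dyU n)‖ ≤ 2 * (1 / 2) ^ Nat.sqrt n := by
  have e : ∀ (E a b : Op H1 H1) (p q : ℂ), E * (p • a + q • b) * dyY - dyY * (E * (p • a + q • b)) =
      p • (E * a * dyY - dyY * (E * a)) + q • (E * b * dyY - dyY * (E * b)) := by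
    intro E a b p q
    simp only [mul_add, add_mul, mul_smul_comm, smul_mul_assoc, smul_sub]
    abel
  rw [dyU, dyW, e]
  refine (norm_add_le _ _).trans ?_
  rw [norm_smul, norm_smul]
  have h1 := mul_le_mul (dyC_half (((n : ℝ) - (Nat.sqrt n : ℝ) ^ 2) /
    (2 * (Nat.sqrt n : ℝ) + 1))).1 (dy_comm (Nat.sqrt n)) (norm_nonneg _) zero_le_one
  have h2 := mul_le_mul (dyC_half (((n : ℝ) - (Nat.sqrt n : ℝ) ^ 2) /
    (2 * (Nat.sqrt n : ℝ) + 1))).2 (dy_comm (Nat.sqrt n + 1)) (norm_nonneg _) zero_le_one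
  have h3 : (0 : ℝ) < (1 / 2) ^ Nat.sqrt n := by positivity
  rw [pow_succ (1 / 2 : ℝ)] at h2
  linarith

theorem dyU_step (n : ℕ) :
    ‖dyU (n + 1) - dyU n‖ ≤ Real.pi * (1 / (2 * (Nat.sqrt n : ℝ) + 1)) := by
  set k := Nat.sqrt n with hk
  have hp : (0 : ℝ) < 2 * (k : ℝ) + 1 := by positivity
  have e : dyU (n + 1) = dyW k (((n : ℝ) - (k : ℝ) ^ 2) / (2 * k + 1) + 1 / (2 * k + 1)) := by
    have h1 : k ^ 2 ≤ n := Nat.sqrt_le' n
    rcases (Nat.succ_le_succ_sqrt' n).eq_or_lt with h | h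
    · have h2 : (n : ℝ) + 1 = ((k : ℝ) + 1) ^ 2 := by exact_mod_cast h
      have h3 : ((n : ℝ) - (k : ℝ) ^ 2) / (2 * k + 1) + 1 / (2 * k + 1) = 1 := by
        rw [← add_div, div_eq_one_iff_eq hp.ne']
        linarith
      rw [h3, ← dyW_end, dyU, h, Nat.sqrt_eq']
      simp [← hk]
    · have h2 : k = Nat.sqrt (n + 1) := Nat.eq_sqrt'.2 ⟨by omega, h⟩
      rw [dyU, ← h2]
      congr 1
      push_cast
      ring
  have e2 : ∀ s s' : ℝ, dyW k s' - dyW k s = ((dyC s' - dyC s) / 2) •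
      (permOp ℚ ℂ (dySig k) - permOp ℚ ℂ (dySig (k + 1))) := by
    intro s s'
    rw [dyW, dyW]
    module
  rw [e, dyU, ← hk, e2, norm_smul, norm_div, Complex.norm_two]
  have h1 := dyC_sub (((n : ℝ) - (k : ℝ) ^ 2) / (2 * k + 1)) (1 / (2 * k + 1)) (by positivity)
  have h2 : ‖permOp ℚ ℂ (dySig k) - permOp ℚ ℂ (dySig (k + 1))‖ ≤ 2 :=
    (norm_sub_le _ _).trans (by
      linarith [norm_permOp_le (H := ℂ) (dySig k), norm_permOp_le (H := ℂ) (dySig (k + 1))])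
  calc _ ≤ (Real.pi * (1 / (2 * (k : ℝ) + 1)) / 2) * 2 :=
        mul_le_mul (by linarith) h2 (norm_nonneg _) (by positivity)
    _ = _ := by ring

theorem exists_dyadic : ∃ (Y : Op H1 H1) (η₀ : H1) (U : ℤ → Op H1 H1),
    star Y = Y ∧ ‖(2 : ℂ) • Y - 1‖ ≤ 1 ∧ ‖η₀‖ = 1 ∧ Y η₀ = 0 ∧
    (∀ n, star (U n) * U n = 1) ∧ (∀ n, U n * star (U n) = 1) ∧
    (∀ n, U n - 1 ∈ compacts H1) ∧ (∀ n ≤ 0, U n = 1) ∧
    Tendsto (fun n => ‖U (n + 1) - U n‖) atTop (𝓝 0) ∧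
    Tendsto (fun n => ‖(1 - rankOne ℂ η₀ η₀) * U n * Y - Y * ((1 - rankOne ℂ η₀ η₀) * U n)‖)
      atTop (𝓝 0) ∧
    Tendsto (fun n => ‖rankOne ℂ η₀ η₀ * U n * (Y - 1)‖) atTop (𝓝 0) := by
  have hk : Tendsto (fun n : ℤ => Nat.sqrt n.toNat) atTop atTop :=
    tendsto_atTop_atTop.2 fun b => ⟨((b * b : ℕ) : ℤ), fun n hn => Nat.le_sqrt.2 (by omega)⟩
  have hpos : ∀ᶠ n : ℤ in atTop, 0 < n := eventually_gt_atTop 0
  refine ⟨dyY, dyEta, fun n => if n ≤ 0 then 1 else dyU n.toNat, dy_Y_star, dy_Y_norm,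
    by simp [dyEta, norm_sing], dy_Y_eta, fun n => ?_, fun n => ?_, fun n => ?_,
    fun n hn => if_pos hn, ?_, ?_, ?_⟩
  · beta_reduce
    split_ifs
    · simp
    · exact (dyU_unit _).1
  · beta_reduce
    split_ifs
    · simp
    · exact (dyU_unit _).2
  · beta_reduce
    split_ifs
    · simpa using compacts_zero
    · exact dyU_cpt _
  · have h1 : Tendsto (fun k : ℕ => Real.pi * (1 / (2 * (k : ℝ) + 1))) atTop (𝓝 0) := by
      have h2 : Tendsto (fun k : ℕ => 2 * (k : ℝ) + 1) atTop atTop :=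
        tendsto_atTop_add_const_right _ _
          (tendsto_natCast_atTop_atTop.const_mul_atTop (by norm_num))
      simpa using h2.inv_tendsto_atTop.const_mul Real.pi
    refine squeeze_zero' (Eventually.of_forall fun _ => norm_nonneg _) ?_ (h1.comp hk)
    filter_upwards [hpos] with n hn
    rw [if_neg (by omega), if_neg (by omega), show (n + 1).toNat = n.toNat + 1 by omega]
    exact dyU_step _
  · have h1 : Tendsto (fun k : ℕ => 2 * (1 / 2 : ℝ) ^ k) atTop (𝓝 0) := by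
      simpa using (tendsto_pow_atTop_nhds_zero_of_lt_one (r := (1 / 2 : ℝ)) (by norm_num)
        (by norm_num)).const_mul 2
    refine squeeze_zero' (Eventually.of_forall fun _ => norm_nonneg _) ?_ (h1.comp hk)
    filter_upwards [hpos] with n hn
    rw [if_neg (by omega)]
    exact dyU_comm _
  · refine tendsto_const_nhds.congr' ?_
    filter_upwards [hpos] with n hn
    rw [if_neg (by omega), dyU_corner, norm_zero]

end Vale.Agent.P212
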