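import Vale.Agent.P212.BddGen

/-! TASK Grp: the group `G9 = SL₃(ℤ) ⋉ H₉(ℤ)` (matrices `[[1,φ,y,s],[0,γ,0,v],[0,0,1,x],[0,0,0,1]]`),
its subgroup `G7`, the dilation, the lattices `Lam n` and reduced representatives.
Plan. Everything is a coordinate computation.
`exists_red`: look for `w = g * λ` with `λ = (γ⁻¹, N Ξ, N Ψ, R κ, R κ', R² σ)`; choose `Ξ` so that
`v + γ N Ξ` is reduced (`Ξ = -γ⁻¹ (v / N)`), then `Ψ, κ, κ'`, and finally `σ` (use `Int.emod`).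
`IsRed.unique`: `w⁻¹ w' ∈ Lam n` has components `v' - v, φ' - φ, x' - x, y' - y`, so these vanish,
and then `s' - s ∈ R² ℤ`.
`InDil.red`: write `red n g = g * λ`, `λ ∈ Lam n`. If `i ≤ 2ν` then `2^i ∣ R`, `2^i ∣ N`,
`4^i ∣ R², 2^i N, 2^i R` and everything is divisible. If `2ν ≤ i ≤ 3ν` then `R ∣ 2^i ∣ N`; `x, y`
of the reduced element are divisible by `R` and in `[0, R)`, so they vanish, and the same holds for
`s` modulo `R²`.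
`descent`: let `λ = w'⁻¹ (dil^j ĝ) w`, i.e. `dil^j ĝ * w = w' * λ`; compare coordinates.
`2^j ĝ.v = w'.v + λ.v - γ w.v` is divisible by `2^i`, so `ĝ.v = 2^(i-j) u`; similarly
`ĝ.φ = 2^(i-j) ψ`. `P = 2^j ĝ.x`, `Q = 2^j ĝ.y` are divisible by `R`. For
`g = (ĝ.γ, u, ψ, 0, 0, t)` one has `dil^j ĝ = dil^i g * d`, `d = (1, 0, 0, P, Q, 4^j ĝ.s - 4^i t)`
and `w⁻¹ d w = (1, 0, 0, P, Q, Z - 4^i t)`, `Z = 4^j ĝ.s + Q w.x - w.y P`; so it suffices to find a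
small `t` with `R² ∣ Z - 4^i t`. If `2ν ≤ i` then `w.x, w.y, w.s, w'.s` and all other terms of the
`s`-equation are divisible by `R²` and `t = 0` works. If `i ≤ 2ν` the `s`-equation gives
`4^i ∣ 4^j ĝ.s`, so `Z = 4^i Z'`; if `P = Q = 0` take `t = Z'` (`|t| ≤ C`), otherwise
`R ≤ 2^j C ≤ 2^i C`, so `M = R² / 4^i ≤ C²`, take `t = Z' % M`. -/

noncomputable section

open Matrix

namespace Vale.Agent.P212

/-- Elements of `SL₃(ℤ) ⋉ H₉(ℤ)`. -/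
@[ext] structure G9 : Type where
  γ : SL3
  v : Fin 3 → ℤ
  φ : Fin 3 → ℤ
  x : ℤ
  y : ℤ
  s : ℤ

namespace G9

instance : Mul G9 := ⟨fun g h => ⟨g.γ * h.γ, g.v + g.γ.1 *ᵥ h.v, g.φ ᵥ* h.γ.1 + h.φ, g.x + h.x,
  g.y + h.y, g.s + h.s + g.φ ⬝ᵥ h.v + g.y * h.x⟩⟩

instance : One G9 := ⟨⟨1, 0, 0, 0, 0, 0⟩⟩

instance : Inv G9 := ⟨fun g => ⟨g.γ⁻¹, -((g.γ⁻¹).1 *ᵥ g.v), -(g.φ ᵥ* (g.γ⁻¹).1), -g.x, -g.y,
  -g.s + (g.φ ᵥ* (g.γ⁻¹).1) ⬝ᵥ g.v + g.y * g.x⟩⟩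

@[simp] theorem mul_γ (g h : G9) : (g * h).γ = g.γ * h.γ := rfl
@[simp] theorem mul_v (g h : G9) : (g * h).v = g.v + g.γ.1 *ᵥ h.v := rfl
@[simp] theorem mul_φ (g h : G9) : (g * h).φ = g.φ ᵥ* h.γ.1 + h.φ := rfl
@[simp] theorem mul_x (g h : G9) : (g * h).x = g.x + h.x := rfl
@[simp] theorem mul_y (g h : G9) : (g * h).y = g.y + h.y := rfl
@[simp] theorem mul_s (g h : G9) : (g * h).s = g.s + h.s + g.φ ⬝ᵥ h.v + g.y * h.x := rfl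
@[simp] theorem one_γ : (1 : G9).γ = 1 := rfl
@[simp] theorem one_v : (1 : G9).v = 0 := rfl
@[simp] theorem one_φ : (1 : G9).φ = 0 := rfl
@[simp] theorem one_x : (1 : G9).x = 0 := rfl
@[simp] theorem one_y : (1 : G9).y = 0 := rfl
@[simp] theorem one_s : (1 : G9).s = 0 := rfl
@[simp] theorem inv_γ (g : G9) : (g⁻¹).γ = g.γ⁻¹ := rfl
@[simp] theorem inv_v (g : G9) : (g⁻¹).v = -((g.γ⁻¹).1 *ᵥ g.v) := rfl
@[simp] theorem inv_φ (g : G9) : (g⁻¹).φ = -(g.φ ᵥ* (g.γ⁻¹).1) := rfl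
@[simp] theorem inv_x (g : G9) : (g⁻¹).x = -g.x := rfl
@[simp] theorem inv_y (g : G9) : (g⁻¹).y = -g.y := rfl
@[simp] theorem inv_s (g : G9) :
    (g⁻¹).s = -g.s + (g.φ ᵥ* (g.γ⁻¹).1) ⬝ᵥ g.v + g.y * g.x := rfl

instance : Group G9 := Group.ofLeftAxioms
  (fun a b c => by
    ext1
    · simp [mul_assoc]
    · simp [Matrix.mulVec_add, add_assoc]
    · simp [Matrix.add_vecMul, add_assoc]
    · simp [add_assoc]
    · simp [add_assoc]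
    · simp [Matrix.dotProduct_mulVec, add_dotProduct, dotProduct_add]; ring)
  (fun a => by ext1 <;> simp)
  (fun a => by
    ext1
    · simp
    · simp
    · simp only [mul_φ, inv_φ, one_φ, Matrix.neg_vecMul, Matrix.vecMul_vecMul,
        ← Matrix.SpecialLinearGroup.coe_mul, inv_mul_cancel]
      simp
    · simp
    · simp
    · simp; ring)

end G9

/-- The subgroup `SL₃(ℤ) ⋉ H₇(ℤ)`. -/
def G7 : Subgroup G9 where
  carrier := {g | g.x = 0 ∧ g.y = 0}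
  mul_mem' := fun ha hb => by simp [ha.1, ha.2, hb.1, hb.2]
  one_mem' := by simp
  inv_mem' := fun ha => by simp [ha.1, ha.2]

theorem mem_G7 {g : G9} : g ∈ G7 ↔ g.x = 0 ∧ g.y = 0 := Iff.rfl

/-- The dilation `δ^i`. -/
def dil (i : ℕ) : G9 →* G9 where
  toFun g := ⟨g.γ, (2 ^ i : ℤ) • g.v, (2 ^ i : ℤ) • g.φ, 2 ^ i * g.x, 2 ^ i * g.y, 4 ^ i * g.s⟩
  map_one' := by ext1 <;> simp
  map_mul' := by
    intro g h
    have e : (4 : ℤ) ^ i = 2 ^ i * 2 ^ i := by rw [← mul_pow]; norm_num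
    ext1
    · rfl
    · simp only [G9.mul_v, Matrix.mulVec_smul, smul_add]
    · simp only [G9.mul_φ, Matrix.smul_vecMul, smul_add]
    · simp [mul_add]
    · simp [mul_add]
    · simp only [G9.mul_s, smul_dotProduct, dotProduct_smul, smul_eq_mul, e]
      ring

@[simp] theorem dil_γ (i : ℕ) (g : G9) : (dil i g).γ = g.γ := rfl
@[simp] theorem dil_v (i : ℕ) (g : G9) : (dil i g).v = (2 ^ i : ℤ) • g.v := rfl
@[simp] theorem dil_φ (i : ℕ) (g : G9) : (dil i g).φ = (2 ^ i : ℤ) • g.φ := rfl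
@[simp] theorem dil_x (i : ℕ) (g : G9) : (dil i g).x = 2 ^ i * g.x := rfl
@[simp] theorem dil_y (i : ℕ) (g : G9) : (dil i g).y = 2 ^ i * g.y := rfl
@[simp] theorem dil_s (i : ℕ) (g : G9) : (dil i g).s = 4 ^ i * g.s := rfl

theorem dil_zero (g : G9) : dil 0 g = g := by
  ext1 <;> simp

theorem dil_dil (i j : ℕ) (g : G9) : dil i (dil j g) = dil (i + j) g := by
  ext1 <;> simp [pow_add, mul_smul, mul_assoc]

theorem four_pow_grp (i : ℕ) : (4 : ℤ) ^ i = 2 ^ i * 2 ^ i := by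
  rw [← mul_pow]; norm_num

theorem dvd_dot_grp {a b : ℤ} {u v : Fin 3 → ℤ} (hu : ∀ k, a ∣ u k) (hv : ∀ k, b ∣ v k) :
    a * b ∣ u ⬝ᵥ v :=
  Finset.dvd_sum fun k _ => mul_dvd_mul (hu k) (hv k)

theorem dvd_mulVec_grp {a : ℤ} {v : Fin 3 → ℤ} (M : Matrix (Fin 3) (Fin 3) ℤ)
    (hv : ∀ k, a ∣ v k) (k : Fin 3) : a ∣ (M *ᵥ v) k :=
  Finset.dvd_sum (s := Finset.univ) (f := fun l => M k l * v l) fun l _ => (hv l).mul_left _

theorem dvd_vecMul_grp {a : ℤ} {v : Fin 3 → ℤ} (M : Matrix (Fin 3) (Fin 3) ℤ)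
    (hv : ∀ k, a ∣ v k) (k : Fin 3) : a ∣ (v ᵥ* M) k :=
  Finset.dvd_sum (s := Finset.univ) (f := fun l => v l * M l k) fun l _ => (hv l).mul_right _

theorem dvd_of_vecMul_grp {a : ℤ} {v : Fin 3 → ℤ} (γ : SL3)
    (hv : ∀ k, a ∣ (v ᵥ* γ.1) k) (k : Fin 3) : a ∣ v k := by
  have := dvd_vecMul_grp (γ⁻¹).1 hv k
  rwa [Matrix.vecMul_vecMul, ← Matrix.SpecialLinearGroup.coe_mul, mul_inv_cancel,
    Matrix.SpecialLinearGroup.coe_one, Matrix.vecMul_one] at this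

/-- `g` is in the image of `δ^i`. -/
structure InDil (i : ℕ) (g : G9) : Prop where
  v : ∀ k, (2 ^ i : ℤ) ∣ g.v k
  φ : ∀ k, (2 ^ i : ℤ) ∣ g.φ k
  x : (2 ^ i : ℤ) ∣ g.x
  y : (2 ^ i : ℤ) ∣ g.y
  s : (4 ^ i : ℤ) ∣ g.s

theorem inDil_iff {i : ℕ} {g : G9} : InDil i g ↔ ∃ h, dil i h = g := by
  constructor
  · rintro ⟨hv, hφ, ⟨x, hx⟩, ⟨y, hy⟩, ⟨s, hs⟩⟩
    choose u hu using hv
    choose ψ hψ using hφ
    refine ⟨⟨g.γ, u, ψ, x, y, s⟩, ?_⟩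
    ext1
    · rfl
    · funext k; simp [hu k]
    · funext k; simp [hψ k]
    · simp [hx]
    · simp [hy]
    · simp [hs]
  · rintro ⟨h, rfl⟩
    exact ⟨fun k => Dvd.intro _ rfl, fun k => Dvd.intro _ rfl, Dvd.intro _ rfl, Dvd.intro _ rfl,
      Dvd.intro _ rfl⟩

theorem InDil.dil_mul {i : ℕ} {w : G9} (h : InDil i w) (g : G9) : InDil i (dil i g * w) := by
  obtain ⟨u, rfl⟩ := inDil_iff.1 h
  exact inDil_iff.2 ⟨g * u, map_mul _ _ _⟩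

theorem InDil.mono {i j : ℕ} {w : G9} (h : InDil i w) (hj : j ≤ i) : InDil j w := 
  ⟨fun k => (pow_dvd_pow 2 hj).trans (h.v k), fun k => (pow_dvd_pow 2 hj).trans (h.φ k),
    (pow_dvd_pow 2 hj).trans h.x, (pow_dvd_pow 2 hj).trans h.y, (pow_dvd_pow 4 hj).trans h.s⟩

/-- All coordinates are bounded by `C`. -/
structure Small (C : ℕ) (g : G9) : Prop where
  γ : ∀ i j, |g.γ.1 i j| ≤ C
  v : ∀ k, |g.v k| ≤ C
  φ : ∀ k, |g.φ k| ≤ C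
  x : |g.x| ≤ C
  y : |g.y| ≤ C
  s : |g.s| ≤ C

theorem Small.mono {C C' : ℕ} {g : G9} (h : Small C g) (hC : C ≤ C') : Small C' g := by
  have e : (C : ℤ) ≤ C' := by exact_mod_cast hC
  exact ⟨fun i j => (h.γ i j).trans e, fun k => (h.v k).trans e, fun k => (h.φ k).trans e,
    h.x.trans e, h.y.trans e, h.s.trans e⟩

theorem finite_small (C : ℕ) : {g | Small C g}.Finite := by
  let F : G9 → (Fin 3 → Fin 3 → ℤ) × (Fin 3 → ℤ) × (Fin 3 → ℤ) × ℤ × ℤ × ℤ :=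
    fun g => (g.γ.1, g.v, g.φ, g.x, g.y, g.s)
  have hF : Function.Injective F := by
    intro g h e
    exact G9.ext (Subtype.ext (congrArg (·.1) e)) (congrArg (·.2.1) e) (congrArg (·.2.2.1) e)
      (congrArg (·.2.2.2.1) e) (congrArg (·.2.2.2.2.1) e) (congrArg (·.2.2.2.2.2) e)
  have hI : (Set.Icc (-(C : ℤ)) C).Finite := Set.finite_Icc _ _
  have h1 : (Set.pi Set.univ fun _ : Fin 3 => Set.Icc (-(C : ℤ)) C).Finite :=
    Set.Finite.pi fun _ => hI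
  have h2 : (Set.pi Set.univ fun _ : Fin 3 =>
      Set.pi Set.univ fun _ : Fin 3 => Set.Icc (-(C : ℤ)) C).Finite := Set.Finite.pi fun _ => h1
  refine ((h2.prod (h1.prod (h1.prod (hI.prod (hI.prod hI))))).preimage hF.injOn).subset ?_
  intro g hg
  exact ⟨fun i _ j _ => abs_le.1 (hg.γ i j), fun k _ => abs_le.1 (hg.v k),
    fun k _ => abs_le.1 (hg.φ k), abs_le.1 hg.x, abs_le.1 hg.y, abs_le.1 hg.s⟩

theorem exists_small_one_grp (g : G9) : ∃ C, Small C g := by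
  obtain ⟨a, ha⟩ := (Set.finite_range fun p : Fin 3 × Fin 3 => (g.γ.1 p.1 p.2).natAbs).bddAbove
  obtain ⟨b, hb⟩ := (Set.finite_range fun k : Fin 3 => (g.v k).natAbs).bddAbove
  obtain ⟨c, hc⟩ := (Set.finite_range fun k : Fin 3 => (g.φ k).natAbs).bddAbove
  refine ⟨a + b + c + g.x.natAbs + g.y.natAbs + g.s.natAbs, fun i j => ?_, fun k => ?_,
    fun k => ?_, ?_, ?_, ?_⟩
  · have : (g.γ.1 i j).natAbs ≤ a := ha ⟨(i, j), rfl⟩
    rw [← Int.natCast_natAbs]; omega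
  · have : (g.v k).natAbs ≤ b := hb ⟨k, rfl⟩
    rw [← Int.natCast_natAbs]; omega
  · have : (g.φ k).natAbs ≤ c := hc ⟨k, rfl⟩
    rw [← Int.natCast_natAbs]; omega
  all_goals rw [← Int.natCast_natAbs]; omega

theorem exists_small {S : Set G9} (hS : S.Finite) : ∃ C, ∀ g ∈ S, Small C g := by
  choose c hc using exists_small_one_grp
  obtain ⟨C, hC⟩ := (hS.image c).bddAbove
  exact ⟨C, fun g hg => (hc g).mono (hC ⟨g, hg, rfl⟩)⟩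

/-- `ν = n + 1`. -/
def nu (n : ℕ) : ℕ := n + 1

/-- `R = 4^ν`. -/
def RR (n : ℕ) : ℕ := 4 ^ nu n

/-- `N = 8^ν`. -/
def NN (n : ℕ) : ℕ := 8 ^ nu n

theorem RR_pos (n : ℕ) : 0 < RR n := by unfold RR; positivity

theorem NN_pos (n : ℕ) : 0 < NN n := by unfold NN; positivity

theorem four_le_RR (n : ℕ) : 4 ≤ RR n := by
  unfold RR nu
  rw [pow_succ]
  have : 0 < 4 ^ n := by positivity
  omega

theorem RR_eq (n : ℕ) : RR n = 2 ^ (2 * nu n) := by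
  unfold RR
  rw [pow_mul]; norm_num

theorem NN_eq (n : ℕ) : NN n = 2 ^ (3 * nu n) := by
  unfold NN
  rw [pow_mul]; norm_num

theorem RR_eq_grp (n : ℕ) : (RR n : ℤ) = 2 ^ (2 * nu n) := by
  rw [RR_eq]; norm_num

theorem NN_eq_grp (n : ℕ) : (NN n : ℤ) = 2 ^ (3 * nu n) := by
  rw [NN_eq]; norm_num

theorem RR_sq_grp (n : ℕ) : (RR n : ℤ) ^ 2 = 4 ^ (2 * nu n) := by
  rw [RR_eq_grp, four_pow_grp, sq]

theorem RR_dvd_NN_grp (n : ℕ) : (RR n : ℤ) ∣ NN n := by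
  rw [RR_eq_grp, NN_eq_grp]
  exact pow_dvd_pow 2 (by omega)

theorem RR_sq_dvd_grp (n : ℕ) : (RR n : ℤ) ^ 2 ∣ (NN n : ℤ) * NN n := by
  rw [sq]
  exact mul_dvd_mul (RR_dvd_NN_grp n) (RR_dvd_NN_grp n)

/-- The subgroup `Λ_n`. -/
def Lam (n : ℕ) : Subgroup G9 where
  carrier := {g | (∀ k, (NN n : ℤ) ∣ g.v k) ∧ (∀ k, (NN n : ℤ) ∣ g.φ k) ∧ (RR n : ℤ) ∣ g.x ∧
    (RR n : ℤ) ∣ g.y ∧ (RR n : ℤ) ^ 2 ∣ g.s}
  mul_mem' := by
    rintro a b ⟨a1, a2, a3, a4, a5⟩ ⟨b1, b2, b3, b4, b5⟩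
    refine ⟨fun k => (a1 k).add (dvd_mulVec_grp _ b1 k),
      fun k => (dvd_vecMul_grp _ a2 k).add (b2 k), a3.add b3, a4.add b4, ?_⟩
    refine ((a5.add b5).add ((RR_sq_dvd_grp n).trans (dvd_dot_grp a2 b1))).add ?_
    rw [sq]
    exact mul_dvd_mul a4 b3
  one_mem' := by simp
  inv_mem' := by
    rintro a ⟨a1, a2, a3, a4, a5⟩
    refine ⟨fun k => (dvd_mulVec_grp _ a1 k).neg_right,
      fun k => (dvd_vecMul_grp _ a2 k).neg_right, a3.neg_right, a4.neg_right, ?_⟩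
    refine (a5.neg_right.add
      ((RR_sq_dvd_grp n).trans (dvd_dot_grp (dvd_vecMul_grp _ a2) a1))).add ?_
    rw [sq]
    exact mul_dvd_mul a4 a3

theorem mem_Lam {n : ℕ} {g : G9} : g ∈ Lam n ↔ (∀ k, (NN n : ℤ) ∣ g.v k) ∧
    (∀ k, (NN n : ℤ) ∣ g.φ k) ∧ (RR n : ℤ) ∣ g.x ∧ (RR n : ℤ) ∣ g.y ∧ (RR n : ℤ) ^ 2 ∣ g.s :=
  Iff.rfl

theorem rel_iff_grp {n : ℕ} {w g : G9} (hw : w.γ = 1) : w⁻¹ * g ∈ Lam n ↔
    (∀ k, (NN n : ℤ) ∣ g.v k - w.v k) ∧ (∀ k, (NN n : ℤ) ∣ g.φ k - (w.φ ᵥ* g.γ.1) k) ∧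
    (RR n : ℤ) ∣ g.x - w.x ∧ (RR n : ℤ) ∣ g.y - w.y ∧
    (RR n : ℤ) ^ 2 ∣ g.s - w.s - w.φ ⬝ᵥ (g.v - w.v) - w.y * (g.x - w.x) := by
  have e1 : ∀ k, (w⁻¹ * g).v k = g.v k - w.v k := fun k => by
    simp [hw]; ring
  have e2 : ∀ k, (w⁻¹ * g).φ k = g.φ k - (w.φ ᵥ* g.γ.1) k := fun k => by
    simp [hw, Matrix.neg_vecMul]; ring
  have e3 : (w⁻¹ * g).x = g.x - w.x := by simp; ring
  have e4 : (w⁻¹ * g).y = g.y - w.y := by simp; ring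
  have e5 : (w⁻¹ * g).s = g.s - w.s - w.φ ⬝ᵥ (g.v - w.v) - w.y * (g.x - w.x) := by
    simp [hw]; ring
  rw [mem_Lam]
  simp only [e1, e2, e3, e4, e5]

theorem eq_of_dvd_grp {m a b : ℤ} (ha : 0 ≤ a ∧ a < m) (hb : 0 ≤ b ∧ b < m) (h : m ∣ b - a) :
    a = b := by
  have := Int.eq_zero_of_abs_lt_dvd h (abs_lt.2 ⟨by omega, by omega⟩)
  omega

theorem red_dvd_grp {m a c t : ℤ} (hc : 0 ≤ c ∧ c < m) (hm : m ∣ t - c) (ha : a ∣ t)
    (h : a ∣ m ∨ m ∣ a) : a ∣ c := by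
  rcases h with h | h
  · simpa using ha.sub (h.trans hm)
  · have h1 : m ∣ c - 0 := by simpa using (h.trans ha).sub hm
    rw [← eq_of_dvd_grp ⟨le_rfl, by omega⟩ hc h1]
    exact dvd_zero a

theorem pow_cmp_grp (a : ℤ) (i j : ℕ) : a ^ i ∣ a ^ j ∨ a ^ j ∣ a ^ i :=
  (le_total i j).imp (pow_dvd_pow a) (pow_dvd_pow a)

/-- Reduced representatives of the cosets `g Λ_n`. -/
structure IsRed (n : ℕ) (w : G9) : Prop where
  γ : w.γ = 1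
  v : ∀ k, 0 ≤ w.v k ∧ w.v k < NN n
  φ : ∀ k, 0 ≤ w.φ k ∧ w.φ k < NN n
  x : 0 ≤ w.x ∧ w.x < RR n
  y : 0 ≤ w.y ∧ w.y < RR n
  s : 0 ≤ w.s ∧ w.s < (RR n : ℤ) ^ 2

theorem finite_isRed (n : ℕ) : {w | IsRed n w}.Finite := by
  refine (finite_small (NN n + RR n + RR n ^ 2 + 1)).subset fun w hw => ?_
  have hN : (0 : ℤ) ≤ NN n := Int.natCast_nonneg _
  have hR : (0 : ℤ) ≤ RR n := Int.natCast_nonneg _
  have hR2 : (0 : ℤ) ≤ (RR n : ℤ) ^ 2 := sq_nonneg _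
  refine ⟨fun i j => ?_, fun k => ?_, fun k => ?_, ?_, ?_, ?_⟩ <;> push_cast
  · rw [hw.γ, Matrix.SpecialLinearGroup.coe_one, Matrix.one_apply]
    split_ifs <;> simp <;> linarith
  · rw [abs_of_nonneg (hw.v k).1]; linarith [(hw.v k).2]
  · rw [abs_of_nonneg (hw.φ k).1]; linarith [(hw.φ k).2]
  · rw [abs_of_nonneg hw.x.1]; linarith [hw.x.2]
  · rw [abs_of_nonneg hw.y.1]; linarith [hw.y.2]
  · rw [abs_of_nonneg hw.s.1]; linarith [hw.s.2]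

theorem isRed_one (n : ℕ) : IsRed n 1 := by
  have hN : (0 : ℤ) < NN n := by exact_mod_cast NN_pos n
  have hR : (0 : ℤ) < RR n := by exact_mod_cast RR_pos n
  exact ⟨rfl, fun _ => ⟨le_rfl, hN⟩, fun _ => ⟨le_rfl, hN⟩, ⟨le_rfl, hR⟩, ⟨le_rfl, hR⟩,
    ⟨le_rfl, pow_pos hR 2⟩⟩

theorem exists_red (n : ℕ) (g : G9) : ∃ w, IsRed n w ∧ w⁻¹ * g ∈ Lam n := by
  have hN : (0 : ℤ) < NN n := by exact_mod_cast NN_pos n
  have hR : (0 : ℤ) < RR n := by exact_mod_cast RR_pos n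
  have hm : ∀ {m : ℤ}, 0 < m → ∀ a : ℤ, 0 ≤ a % m ∧ a % m < m := fun h a =>
    ⟨Int.emod_nonneg a h.ne', Int.emod_lt_of_pos a h⟩
  let v : Fin 3 → ℤ := fun k => g.v k % NN n
  let φ : Fin 3 → ℤ := fun k => (g.φ ᵥ* (g.γ⁻¹).1) k % NN n
  let T : ℤ := g.s - φ ⬝ᵥ (g.v - v) - g.y % RR n * (g.x - g.x % RR n)
  refine ⟨⟨1, v, φ, g.x % RR n, g.y % RR n, T % (RR n : ℤ) ^ 2⟩,
    ⟨rfl, fun k => hm hN _, fun k => hm hN _, hm hR _, hm hR _, hm (pow_pos hR 2) _⟩, ?_⟩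
  refine (rel_iff_grp rfl).2 ⟨fun k => Int.dvd_self_sub_emod, fun k => ?_,
    Int.dvd_self_sub_emod, Int.dvd_self_sub_emod, ?_⟩
  · have h1 : ∀ k, (NN n : ℤ) ∣ (g.φ ᵥ* (g.γ⁻¹).1 - φ) k := fun k => Int.dvd_self_sub_emod
    have h2 := dvd_vecMul_grp g.γ.1 h1 k
    rwa [Matrix.sub_vecMul, Matrix.vecMul_vecMul, ← Matrix.SpecialLinearGroup.coe_mul,
      inv_mul_cancel, Matrix.SpecialLinearGroup.coe_one, Matrix.vecMul_one] at h2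
  · have h1 : (RR n : ℤ) ^ 2 ∣ T - T % (RR n : ℤ) ^ 2 := Int.dvd_self_sub_emod
    convert h1 using 1
    simp only [T]
    ring

theorem IsRed.unique {n : ℕ} {w w' : G9} (h : IsRed n w) (h' : IsRed n w')
    (hw : w⁻¹ * w' ∈ Lam n) : w = w' := by
  obtain ⟨h1, h2, h3, h4, h5⟩ := (rel_iff_grp h.γ).1 hw
  have ev : w.v = w'.v := funext fun k => eq_of_dvd_grp (h.v k) (h'.v k) (h1 k)
  have ex : w.x = w'.x := eq_of_dvd_grp h.x h'.x h3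
  refine G9.ext (h.γ.trans h'.γ.symm) ev (funext fun k => eq_of_dvd_grp (h.φ k) (h'.φ k) ?_) ex
    (eq_of_dvd_grp h.y h'.y h4) (eq_of_dvd_grp h.s h'.s ?_)
  · simpa [h'.γ] using h2 k
  · simpa [ev, ex] using h5

/-- The reduced representative of `g Λ_n`. -/
def red (n : ℕ) (g : G9) : G9 := (exists_red n g).choose

theorem isRed_red (n : ℕ) (g : G9) : IsRed n (red n g) := (exists_red n g).choose_spec.1

theorem red_rel (n : ℕ) (g : G9) : (red n g)⁻¹ * g ∈ Lam n := (exists_red n g).choose_spec.2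

theorem IsRed.eq_red {n : ℕ} {w g : G9} (h : IsRed n w) (hw : w⁻¹ * g ∈ Lam n) : w = red n g := by
  refine h.unique (isRed_red n g) ?_
  simpa [mul_assoc] using (Lam n).mul_mem hw ((Lam n).inv_mem (red_rel n g))

theorem red_mul_red (n : ℕ) (g h : G9) : red n (g * red n h) = red n (g * h) := by
  refine (isRed_red n _).eq_red ?_
  simpa [mul_assoc] using (Lam n).mul_mem (red_rel n (g * red n h)) (red_rel n h)

theorem IsRed.red_eq {n : ℕ} {w : G9} (h : IsRed n w) : red n w = w :=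
  (h.eq_red (by simp)).symm

theorem red_x {n : ℕ} {g : G9} {c : ℤ} (h0 : 0 ≤ c) (h1 : c < RR n) (h : (RR n : ℤ) ∣ g.x - c) :
    (red n g).x = c := by
  obtain ⟨-, -, h3, -, -⟩ := (rel_iff_grp (isRed_red n g).γ).1 (red_rel n g)
  refine eq_of_dvd_grp (isRed_red n g).x ⟨h0, h1⟩ ?_
  simpa using h3.sub h

theorem red_y {n : ℕ} {g : G9} {c : ℤ} (h0 : 0 ≤ c) (h1 : c < RR n) (h : (RR n : ℤ) ∣ g.y - c) :
    (red n g).y = c := by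
  obtain ⟨-, -, -, h4, -⟩ := (rel_iff_grp (isRed_red n g).γ).1 (red_rel n g)
  refine eq_of_dvd_grp (isRed_red n g).y ⟨h0, h1⟩ ?_
  simpa using h4.sub h

theorem InDil.red {n i : ℕ} {g : G9} (h : InDil i g) (hi : i ≤ 3 * nu n) : InDil i (red n g) := by
  have hr := isRed_red n g
  obtain ⟨h1, h2, h3, h4, h5⟩ := (rel_iff_grp hr.γ).1 (red_rel n g)
  set w := Vale.Agent.P212.red n g
  have hN : (2 ^ i : ℤ) ∣ NN n := by rw [NN_eq_grp]; exact pow_dvd_pow 2 hi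
  have hR : (2 ^ i : ℤ) ∣ RR n ∨ (RR n : ℤ) ∣ 2 ^ i := by rw [RR_eq_grp]; exact pow_cmp_grp _ _ _
  have hR2 : (4 ^ i : ℤ) ∣ (RR n : ℤ) ^ 2 ∨ (RR n : ℤ) ^ 2 ∣ 4 ^ i := by
    rw [RR_sq_grp]; exact pow_cmp_grp _ _ _
  have hv : ∀ k, (2 ^ i : ℤ) ∣ w.v k := fun k => red_dvd_grp (hr.v k) (h1 k) (h.v k) (Or.inl hN)
  have hφ : ∀ k, (2 ^ i : ℤ) ∣ w.φ k := dvd_of_vecMul_grp g.γ fun k => by
    simpa using (h.φ k).sub (hN.trans (h2 k))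
  have hx := red_dvd_grp hr.x h3 h.x hR
  have hy := red_dvd_grp hr.y h4 h.y hR
  refine ⟨hv, hφ, hx, hy, red_dvd_grp (t := g.s - w.φ ⬝ᵥ (g.v - w.v) - w.y * (g.x - w.x)) hr.s
    (by convert h5 using 1; ring) ?_ hR2⟩
  refine (h.s.sub ?_).sub ?_ <;> rw [four_pow_grp]
  · exact dvd_dot_grp hφ fun k => (h.v k).sub (hv k)
  · exact mul_dvd_mul hy (h.x.sub hx)

/-- A reduced element in the image of `δ^{3ν}` is trivial. -/
theorem IsRed.eq_one {n : ℕ} {w : G9} (h : IsRed n w) (hd : InDil (3 * nu n) w) : w = 1 := by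
  refine ((isRed_one n).unique h ?_).symm
  rw [inv_one, one_mul, mem_Lam]
  have hR := RR_dvd_NN_grp n
  rw [NN_eq_grp] at hR ⊢
  refine ⟨hd.v, hd.φ, hR.trans hd.x, hR.trans hd.y, Dvd.dvd.trans ?_ hd.s⟩
  rw [RR_sq_grp]
  exact pow_dvd_pow 4 (by omega)

theorem quot_grp {b : ℤ} (hb : 1 ≤ b) {i j C : ℕ} (hj : j ≤ i) {a : ℤ} (ha : |a| ≤ C)
    (h : b ^ i ∣ b ^ j * a) : ∃ u : ℤ, |u| ≤ C ∧ b ^ j * a = b ^ i * u := by
  obtain ⟨u, hu⟩ := h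
  refine ⟨u, le_trans ?_ ha, hu⟩
  have h0 : 0 < b ^ j := by positivity
  have h1 : b ^ j ≤ b ^ i := pow_le_pow_right₀ hb hj
  have h2 : b ^ j * |a| = b ^ i * |u| := by
    have := congrArg abs hu
    rwa [abs_mul, abs_mul, abs_of_pos h0, abs_of_pos (h0.trans_le h1)] at this
  have h3 : b ^ j * |u| ≤ b ^ j * |a| := by
    rw [h2]; exact mul_le_mul_of_nonneg_right h1 (abs_nonneg u)
  exact le_of_mul_le_mul_left h3 h0

theorem small_t_grp {n i j C : ℕ} (hj : j ≤ i) {x y s a b E : ℤ} (hx : |x| ≤ C) (hy : |y| ≤ C)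
    (hs : |s| ≤ C) (hE : (4 ^ i : ℤ) ∣ E)
    (hP : (RR n : ℤ) ∣ 2 ^ j * x) (hQ : (RR n : ℤ) ∣ 2 ^ j * y)
    (h : (RR n : ℤ) ^ 2 ∣ 4 ^ j * s + 2 ^ j * y * a - b * (2 ^ j * x) + E) :
    ∃ t : ℤ, |t| ≤ (C * C + C : ℕ) ∧ (RR n : ℤ) ^ 2 ∣ 4 ^ i * t + E := by
  have hC : (0 : ℤ) ≤ C := Int.natCast_nonneg _
  rcases le_total (2 * nu n) i with hi | hi
  · refine ⟨0, by simp only [abs_zero]; positivity, ?_⟩
    rw [mul_zero, zero_add, RR_sq_grp]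
    exact (pow_dvd_pow 4 hi).trans hE
  · obtain ⟨m, hm⟩ := Nat.exists_eq_add_of_le hi
    have hM : (RR n : ℤ) ^ 2 = 4 ^ i * 4 ^ m := by rw [RR_sq_grp, hm, pow_add]
    have hZ : (4 ^ i : ℤ) ∣ 4 ^ j * s + 2 ^ j * y * a - b * (2 ^ j * x) := by
      simpa using ((Dvd.intro _ hM.symm).trans h).sub hE
    by_cases h0 : x = 0 ∧ y = 0
    · obtain ⟨rfl, rfl⟩ := h0
      simp only [mul_zero, zero_mul, add_zero, sub_zero] at h hZ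
      obtain ⟨u, hu, e⟩ := quot_grp (by norm_num) hj hs hZ
      refine ⟨u, hu.trans (by push_cast; nlinarith), ?_⟩
      rwa [← e]
    · have hb' : ∀ z : ℤ, z ≠ 0 → |z| ≤ C → (RR n : ℤ) ∣ 2 ^ j * z → (RR n : ℤ) ≤ 2 ^ i * C := by
        intro z hz hzC hd
        have h1 := Int.le_of_dvd (abs_pos.2 (mul_ne_zero (by positivity) hz)) ((dvd_abs _ _).2 hd)
        rw [abs_mul, abs_of_pos (by positivity : (0 : ℤ) < 2 ^ j)] at h1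
        exact h1.trans (mul_le_mul (pow_le_pow_right₀ (by norm_num) hj) hzC (abs_nonneg z)
          (by positivity))
      have hR : (RR n : ℤ) ≤ 2 ^ i * C := by
        by_cases hx0 : x = 0
        · exact hb' y (fun hy0 => h0 ⟨hx0, hy0⟩) hy hQ
        · exact hb' x hx0 hx hP
      have hR2 : (4 : ℤ) ^ i * 4 ^ m ≤ 4 ^ i * (C * C) := by
        rw [← hM, four_pow_grp]
        have := pow_le_pow_left₀ (Int.natCast_nonneg (RR n)) hR 2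
        linarith [show ((2 : ℤ) ^ i * C) ^ 2 = 2 ^ i * 2 ^ i * (C * C) by ring]
      have hMC : (4 : ℤ) ^ m ≤ C * C := le_of_mul_le_mul_left hR2 (by positivity)
      obtain ⟨Z, hZ⟩ := hZ
      have hpos : (0 : ℤ) < 4 ^ m := by positivity
      refine ⟨Z % 4 ^ m, ?_, ?_⟩
      · rw [abs_of_nonneg (Int.emod_nonneg _ hpos.ne')]
        have := Int.emod_lt_of_pos Z hpos
        push_cast
        linarith
      · rw [hZ] at h
        have h2 : (RR n : ℤ) ^ 2 ∣ 4 ^ i * (Z - Z % 4 ^ m) := by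
          rw [hM]
          exact mul_dvd_mul_left _ Int.dvd_self_sub_emod
        have h3 := Dvd.dvd.sub h h2
        rwa [show (4 : ℤ) ^ i * Z + E - 4 ^ i * (Z - Z % 4 ^ m) = 4 ^ i * (Z % 4 ^ m) + E by ring]
          at h3

theorem descent {n i j C : ℕ} (hi : i ≤ 3 * nu n) (hj : j ≤ i) {w w' g₀ : G9} (hw : IsRed n w)
    (hw' : IsRed n w') (hd : InDil i w) (hd' : InDil i w') (hx : w.x = w'.x) (hy : w.y = w'.y)
    (hs : Small C g₀) (h : w'⁻¹ * (dil j g₀ * w) ∈ Lam n) :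
    ∃ g ∈ G7, Small (C * C + C) g ∧ w'⁻¹ * (dil i g * w) ∈ Lam n := by
  obtain ⟨h1, h2, h3, h4, h5⟩ := (rel_iff_grp hw'.γ).1 h
  have hN : (2 ^ i : ℤ) ∣ NN n := by rw [NN_eq_grp]; exact pow_dvd_pow 2 hi
  have hv : ∀ k, ∃ u : ℤ, |u| ≤ C ∧ 2 ^ j * g₀.v k = 2 ^ i * u := fun k =>
    quot_grp (by norm_num) hj (hs.v k) (by
      simpa using ((hN.trans (h1 k)).add (hd'.v k)).sub (dvd_mulVec_grp g₀.γ.1 hd.v k))
  have hφ : ∀ k, ∃ u : ℤ, |u| ≤ C ∧ 2 ^ j * g₀.φ k = 2 ^ i * u := fun k =>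
    quot_grp (by norm_num) hj (hs.φ k) (by
      simpa [hw.γ] using
        ((hN.trans (h2 k)).add (dvd_vecMul_grp (dil j g₀ * w).γ.1 hd'.φ k)).sub (hd.φ k))
  choose u hu hu' using hv
  choose ψ hψ hψ' using hφ
  have ev : (2 ^ j : ℤ) • g₀.v = (2 ^ i : ℤ) • u := funext hu'
  have eφ : (2 ^ j : ℤ) • g₀.φ = (2 ^ i : ℤ) • ψ := funext hψ'
  simp only [G9.mul_γ, G9.mul_v, G9.mul_φ, G9.mul_x, G9.mul_y, G9.mul_s, dil_γ, dil_v, dil_φ,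
    dil_x, dil_y, dil_s, ev, eφ, ← hx, ← hy, add_sub_cancel_right] at h1 h2 h3 h4 h5
  obtain ⟨t, ht, ht'⟩ := small_t_grp (n := n) (a := w.x) (b := w.y) (E := w.s + ((2 ^ i : ℤ) • ψ) ⬝ᵥ w.v - w'.s -
      w'.φ ⬝ᵥ ((2 ^ i : ℤ) • u + g₀.γ.1 *ᵥ w.v - w'.v)) hj hs.x hs.y hs.s
    (by
      refine ((hd.s.add ?_).sub hd'.s).sub ?_ <;> rw [four_pow_grp]
      · exact dvd_dot_grp (fun k => Dvd.intro _ rfl) hd.v
      · exact dvd_dot_grp hd'.φ fun k => hN.trans (h1 k))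
    h3 h4 (by convert h5 using 1; ring)
  have hC : (C : ℤ) ≤ (C * C + C : ℕ) := by exact_mod_cast Nat.le_add_left _ _
  refine ⟨⟨g₀.γ, u, ψ, 0, 0, t⟩, ⟨rfl, rfl⟩, ⟨fun a b => (hs.γ a b).trans hC,
    fun k => (hu k).trans hC, fun k => (hψ k).trans hC, by simp only [abs_zero]; positivity,
    by simp only [abs_zero]; positivity, ht⟩, (rel_iff_grp hw'.γ).2 ?_⟩
  simp only [G9.mul_γ, G9.mul_v, G9.mul_φ, G9.mul_x, G9.mul_y, G9.mul_s, dil_γ, dil_v, dil_φ,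
    dil_x, dil_y, dil_s, ← hx, ← hy, mul_zero, zero_add, sub_self, dvd_zero, true_and]
  refine ⟨h1, h2, ?_⟩
  convert ht' using 1
  ring

end Vale.Agent.P212
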