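import Mathlib

/-! TASK Joint: joint continuous functional calculus of two commuting normal elements, and an
induction principle for `C(Ω, ℂ)`.
Plan. `joint_induction`: the subalgebra `Algebra.adjoin ℂ {c₁, star c₁, c₂, star c₂}` is the
underlying algebra of `StarAlgebra.adjoin ℂ {c₁, c₂}` (`StarAlgebra.adjoin_toSubalgebra`), which
separates points, so its closure is `⊤`
(`ContinuousMap.starSubalgebra_topologicalClosure_eq_top_of_separatesPoints`); use
`Algebra.adjoin_induction` and `closure_minimal`.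
`exists_joint`: let `𝒜 = (StarAlgebra.adjoin ℂ {A, B}).topologicalClosure`, a closed commutative
star subalgebra (`StarAlgebra.adjoin` of a commuting set: see `StarAlgebra.adjoinCommRingOfComm`,
`StarSubalgebra.commRingTopologicalClosure`, or prove `mul_comm` by hand), hence a
`CommCStarAlgebra`. For a character `χ`, `χ A ∈ spectrum ℂ A` (`AlgHom.apply_mem_spectrum`,
spectral permanence `StarSubalgebra.spectrum_eq`), so choose `m χ : Ω` with
`c₁ (m χ) = χ A`, `c₂ (m χ) = χ B`; `m` is continuous since `ω ↦ (c₁ ω, c₂ ω)` is a closed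
embedding (`Continuous.isClosedEmbedding`). Put
`π f = ↑((gelfandStarTransform 𝒜).symm (f.comp m))` (`ContinuousMap.compStarAlgHom'`).
(If `𝔅` is trivial the character space is empty and everything still works.) -/

noncomputable section

namespace Vale.Agent.P212

variable {Ω : Type} [TopologicalSpace Ω] [CompactSpace Ω] [T2Space Ω]

theorem joint_induction (c₁ c₂ : C(Ω, ℂ)) (hinj : Function.Injective fun ω => (c₁ ω, c₂ ω))
    (P : C(Ω, ℂ) → Prop) (hcl : IsClosed {f | P f}) (hc : ∀ c : ℂ, P (algebraMap ℂ C(Ω, ℂ) c))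
    (hadd : ∀ f g, P f → P g → P (f + g)) (hmul : ∀ f g, P f → P g → P (f * g))
    (h₁ : P c₁) (h₁' : P (star c₁)) (h₂ : P c₂) (h₂' : P (star c₂)) (f : C(Ω, ℂ)) : P f := by
  have hsep : (StarAlgebra.adjoin ℂ ({c₁, c₂} : Set C(Ω, ℂ))).SeparatesPoints := by
    intro x y hxy
    by_contra hcon
    apply hxy
    apply hinj
    have h1 : c₁ x = c₁ y := by
      by_contra h
      exact hcon ⟨c₁, ⟨c₁, StarAlgebra.subset_adjoin ℂ _ (by simp), rfl⟩, h⟩
    have h2 : c₂ x = c₂ y := by
      by_contra h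
      exact hcon ⟨c₂, ⟨c₂, StarAlgebra.subset_adjoin ℂ _ (by simp), rfl⟩, h⟩
    simp only [h1, h2]
  have htop := ContinuousMap.starSubalgebra_topologicalClosure_eq_top_of_separatesPoints _ hsep
  have hsub : (StarAlgebra.adjoin ℂ ({c₁, c₂} : Set C(Ω, ℂ)) : Set C(Ω, ℂ)) ⊆ {f | P f} := by
    intro g hg
    have hg' : g ∈ Algebra.adjoin ℂ (({c₁, c₂} : Set C(Ω, ℂ)) ∪ star {c₁, c₂}) := by
      rw [← StarAlgebra.adjoin_toSubalgebra]; exact hg
    change P g
    clear hg
    induction hg' using Algebra.adjoin_induction with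
    | mem x hx =>
      rcases hx with hx | hx
      · rcases hx with rfl | rfl
        · exact h₁
        · exact h₂
      · rw [Set.mem_star] at hx
        rcases hx with hx | hx
        · have : x = star c₁ := by rw [← hx, star_star]
          rw [this]; exact h₁'
        · have : x = star c₂ := by rw [← Set.mem_singleton_iff.1 hx, star_star]
          rw [this]; exact h₂'
    | algebraMap r => exact hc r
    | add x y _ _ hx hy => exact hadd x y hx hy
    | mul x y _ _ hx hy => exact hmul x y hx hy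
  have hf : f ∈ (StarAlgebra.adjoin ℂ ({c₁, c₂} : Set C(Ω, ℂ))).topologicalClosure := by
    rw [htop]; trivial
  exact closure_minimal hsub hcl hf

theorem joint_ext {𝔅 : Type} [CStarAlgebra 𝔅] (c₁ c₂ : C(Ω, ℂ))
    (hinj : Function.Injective fun ω => (c₁ ω, c₂ ω)) (π π' : C(Ω, ℂ) →⋆ₐ[ℂ] 𝔅)
    (h₁ : π c₁ = π' c₁) (h₂ : π c₂ = π' c₂) : π = π' := by
  ext f
  refine joint_induction c₁ c₂ hinj (fun f => π f = π' f) ?_ ?_ ?_ ?_ h₁ ?_ h₂ ?_ f
  · have hc : ∀ φ : C(Ω, ℂ) →⋆ₐ[ℂ] 𝔅, Continuous φ := fun φ =>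
      AddMonoidHomClass.continuous_of_bound φ 1 fun x => by
        simpa only [one_mul] using NonUnitalStarAlgHom.norm_apply_le φ x
    exact isClosed_eq (hc π) (hc π')
  · intro c; rw [AlgHomClass.commutes, AlgHomClass.commutes]
  · intro f g hf hg; rw [map_add, map_add, hf, hg]
  · intro f g hf hg; rw [map_mul, map_mul, hf, hg]
  · rw [map_star, map_star, h₁]
  · rw [map_star, map_star, h₂]

theorem exists_joint {𝔅 : Type} [CStarAlgebra 𝔅] (c₁ c₂ : C(Ω, ℂ))
    (hinj : Function.Injective fun ω => (c₁ ω, c₂ ω)) (A B : 𝔅) (hA : Commute A (star A))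
    (hB : Commute B (star B)) (hAB : Commute A B) (hAB' : Commute A (star B))
    (hsp : ∀ a ∈ spectrum ℂ A, ∀ b ∈ spectrum ℂ B, ∃ ω, c₁ ω = a ∧ c₂ ω = b) :
    ∃ π : C(Ω, ℂ) →⋆ₐ[ℂ] 𝔅, π c₁ = A ∧ π c₂ = B := by
  let S : StarSubalgebra ℂ 𝔅 := (StarAlgebra.adjoin ℂ ({A, B} : Set 𝔅)).topologicalClosure
  have hS : IsClosed (S : Set 𝔅) := StarSubalgebra.isClosed_topologicalClosure _
  have hBA' : Commute B (star A) := by
    have := hAB'.star_star
    rw [star_star] at this
    exact this.symm
  have hcm : IsMulCommutative (StarAlgebra.adjoin ℂ ({A, B} : Set 𝔅)) := by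
    refine StarAlgebra.isMulCommutative_adjoin ℂ ?_ ?_
    · rintro x (rfl | rfl) y (rfl | rfl)
      · rfl
      · exact hAB
      · exact hAB.symm
      · rfl
    · rintro x (rfl | rfl) y (rfl | rfl)
      · exact hA
      · exact hAB'
      · exact hBA'
      · exact hB
  let _ : CommRing S :=
    (StarAlgebra.adjoin ℂ ({A, B} : Set 𝔅)).commRingTopologicalClosure hcm.is_comm.comm
  let _ : CommCStarAlgebra S := { }
  have hAS : A ∈ S := StarSubalgebra.le_topologicalClosure _ (StarAlgebra.subset_adjoin ℂ _ (by simp))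
  have hBS : B ∈ S := StarSubalgebra.le_topologicalClosure _ (StarAlgebra.subset_adjoin ℂ _ (by simp))
  let a : S := ⟨A, hAS⟩
  let b : S := ⟨B, hBS⟩
  have hex : ∀ χ : WeakDual.characterSpace ℂ S, ∃ ω, c₁ ω = χ a ∧ c₂ ω = χ b := by
    intro χ
    refine hsp _ ?_ _ ?_
    · have := AlgHom.apply_mem_spectrum χ a
      rwa [StarSubalgebra.spectrum_eq] at this
    · have := AlgHom.apply_mem_spectrum χ b
      rwa [StarSubalgebra.spectrum_eq] at this
  choose m hm using hex
  have hemb : Topology.IsClosedEmbedding fun ω => (c₁ ω, c₂ ω) :=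
    (c₁.continuous.prodMk c₂.continuous).isClosedEmbedding hinj
  have hmc : Continuous m := by
    rw [hemb.isInducing.continuous_iff]
    have : ((fun ω => (c₁ ω, c₂ ω)) ∘ m) = fun χ =>
        (gelfandStarTransform S a χ, gelfandStarTransform S b χ) := by
      funext χ
      simp only [Function.comp, (hm χ).1, (hm χ).2]
      rfl
    rw [this]
    exact (gelfandStarTransform S a).continuous.prodMk (gelfandStarTransform S b).continuous
  let mC : C(WeakDual.characterSpace ℂ S, Ω) := ⟨m, hmc⟩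
  refine ⟨S.subtype.comp (((gelfandStarTransform S).symm : _ →⋆ₐ[ℂ] _).comp
    (ContinuousMap.compStarAlgHom' ℂ ℂ mC)), ?_, ?_⟩
  · have : c₁.comp mC = gelfandStarTransform S a := by
      ext χ; exact (hm χ).1
    change (((gelfandStarTransform S).symm (c₁.comp mC) : S) : 𝔅) = A
    rw [this, StarAlgEquiv.symm_apply_apply]
  · have : c₂.comp mC = gelfandStarTransform S b := by
      ext χ; exact (hm χ).2
    change (((gelfandStarTransform S).symm (c₂.comp mC) : S) : 𝔅) = B
    rw [this, StarAlgEquiv.symm_apply_apply]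

end Vale.Agent.P212
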