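import Vale.Agent.P212.Dyadic
import Vale.Agent.P212.Joint

/-! TASK TorusOp: a unitary `U` almost commuting with a representation of `C(𝕋²)`, whose twist by
the degree `D` line bundle has index `-D`.
Plan. `H0 = ℓ²(ℤ, H1)`, `Z = permOp (Equiv.addRight 1)`, `Ŷ = ampl ℤ Y`, `U = diagOp U_n`,
`E = diagOp (n ↦ if 0 < n then e₀ else 0)`, `e₀ = rankOne η₀ η₀`. `exists_joint` with
`c₁ ω = fourier 1 ω.1`, `c₂ ω = ω.2` gives `π` with `π c₁ = Z`, `π c₂ = Ŷ` (the spectrum of `Z` is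
in the circle; the spectrum of `Ŷ` is real and `|2λ - 1| ≤ ‖2Ŷ - 1‖ ≤ 1`). Write `≡` for equality
modulo `compacts` (a closed two sided ideal, `cptIdeal`, `isClosed_compacts`). Put
`V₁ = (1 - E) U`, `V₂ = E U`. By `compacts_of_tendsto` (a function on `ℤ` which tends to `0` at
`+∞` and vanishes near `-∞` tends to `0` along `cofinite`, `Int.cofinite_eq`):
`U Z ≡ Z U`, `E Z ≡ Z E`, `V₁ Ŷ ≡ Ŷ V₁`, `V₂ (Ŷ - 1) ≡ 0`, and `Ŷ E = 0`. If `V Z ≡ Z V` then
`V Z* ≡ Z* V`. For `F` let `F₀ (x,t) = F (x,0)`, `F₁ (x,t) = F (x,1)` (algebra homomorphisms,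
`ContinuousMap.comp`). By `joint_induction`: (a) `V₁ π F ≡ π F V₁`; (b) `V₂ π F ≡ V₂ π F₁`;
(c) `V₂ π F₁ ≡ π F₁ V₂`; (d) if `Ŷ E' = 0` then `π F E' = π F₀ E'`. If `F₁ = c₁^D F₀` then
`U π F ≡ π F V₁ + π F₀ Z^D V₂ = π F (V₁ + Z^D V₂)`. So `S = W U`, `W = (1 - E) + Z^D E` (`S = U`
if `D = 0`). With `E_D = diagOp (n ↦ if D < n then e₀ else 0)`: `Z^D E = E_D Z^D`, `E E_D = E_D`,
so `W* W = 1`, `W W* = 1 - (E - E_D)`, `E - E_D = ∑_{i < D} rankOne η_i η_i`,
`η_i = sing (i + 1) η₀`, and `W* η_i = 0`. -/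

noncomputable section

open InnerProductSpace

namespace Vale.Agent.P212

/-- The circle `ℝ / ℤ`. -/
abbrev T1 : Type := UnitAddCircle

/-- The annulus `𝕋 × [0, 1]`. -/
abbrev Ann : Type := T1 × unitInterval

/-- The Hilbert space `ℓ²(ℤ, ℓ²(ℚ))`. -/
abbrev H0 : Type := L2 ℤ H1

/-- `F (x, 1) = e (D x) F (x, 0)`. -/
def Twisted (D : ℕ) (F : C(Ann, ℂ)) : Prop := ∀ x : T1, F (x, 1) = fourier D x * F (x, 0)

/-- The function `e (x)` on the annulus. -/
def torC1 : C(Ann, ℂ) := (fourier 1).comp ContinuousMap.fst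

/-- The function `t` on the annulus. -/
def torC2 : C(Ann, ℂ) := ⟨fun ω => ((ω.2 : ℝ) : ℂ), by fun_prop⟩

/-- The slice `F ↦ ((x, s) ↦ F (x, t))`. -/
def torSl (t : unitInterval) : C(Ann, ℂ) →⋆ₐ[ℂ] C(Ann, ℂ) :=
  ContinuousMap.compStarAlgHom' ℂ ℂ ⟨fun ω : Ann => (ω.1, t), by fun_prop⟩

theorem torSl_apply (t : unitInterval) (F : C(Ann, ℂ)) (ω : Ann) : torSl t F ω = F (ω.1, t) := rfl

theorem torC_inj : Function.Injective fun ω => (torC1 ω, torC2 ω) := by
  intro ω ω' h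
  obtain ⟨h1, h2⟩ := Prod.mk.inj h
  refine Prod.ext (AddCircle.injective_toCircle one_ne_zero (Subtype.ext ?_))
    (Subtype.ext (Complex.ofReal_injective h2))
  rw [← fourier_one, ← fourier_one]
  exact h1

theorem star_torC2 : star torC2 = torC2 := ContinuousMap.ext fun _ => Complex.conj_ofReal _

theorem tor_cont {𝔄 𝔅 : Type} [CStarAlgebra 𝔄] [CStarAlgebra 𝔅] (φ : 𝔄 →⋆ₐ[ℂ] 𝔅) :
    Continuous φ :=
  AddMonoidHomClass.continuous_of_bound φ 1 fun x => by
    simpa only [one_mul] using NonUnitalStarAlgHom.norm_apply_le φ x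

theorem tor_ideal (N : Ideal C(Ann, ℂ)) (hN : IsClosed (N : Set C(Ann, ℂ))) (t : unitInterval)
    (h : torC2 - torSl t torC2 ∈ N) (F : C(Ann, ℂ)) : F - torSl t F ∈ N := by
  refine joint_induction torC1 torC2 torC_inj (fun F => F - torSl t F ∈ N)
    (hN.preimage (continuous_id.sub (tor_cont (torSl t)))) (fun c => ?_) (fun f g hf hg => ?_)
    (fun f g hf hg => ?_) ?_ ?_ h (by rw [star_torC2]; exact h) F
  · rw [AlgHomClass.commutes, sub_self]
    exact N.zero_mem
  · rw [map_add, add_sub_add_comm]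
    exact N.add_mem hf hg
  · have e : f * g - torSl t (f * g) = g * (f - torSl t f) + torSl t f * (g - torSl t g) := by
      rw [map_mul]
      ring
    rw [e]
    exact N.add_mem (N.mul_mem_left _ hf) (N.mul_mem_left _ hg)
  · exact (sub_self torC1).symm ▸ N.zero_mem
  · exact (sub_self (star torC1)).symm ▸ N.zero_mem

section Abstract

variable {𝔅 : Type} [CStarAlgebra 𝔅] (J : TwoSidedIdeal 𝔅) (hJ : IsClosed (J : Set 𝔅))
include hJ

theorem tor_comm (φ : C(Ann, ℂ) →⋆ₐ[ℂ] 𝔅) {Z V : 𝔅} (hZ : φ torC1 = Z) (h1 : star Z * Z = 1)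
    (h2 : Z * star Z = 1) (hV : V * Z - Z * V ∈ J) (hV' : V * φ torC2 - φ torC2 * V ∈ J)
    (F : C(Ann, ℂ)) : V * φ F - φ F * V ∈ J := by
  refine joint_induction torC1 torC2 torC_inj (fun F => V * φ F - φ F * V ∈ J)
    (hJ.preimage ((continuous_const.mul (tor_cont φ)).sub ((tor_cont φ).mul continuous_const)))
    (fun c => ?_) (fun f g hf hg => ?_) (fun f g hf hg => ?_) (hZ ▸ hV) ?_ hV'
    (by rw [star_torC2]; exact hV') F
  · rw [AlgHomClass.commutes, Algebra.commutes, sub_self]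
    exact J.zero_mem
  · rw [map_add, mul_add, add_mul, add_sub_add_comm]
    exact J.add_mem hf hg
  · have e : V * φ (f * g) - φ (f * g) * V =
        (V * φ f - φ f * V) * φ g + φ f * (V * φ g - φ g * V) := by
      rw [map_mul]
      noncomm_ring
    rw [e]
    exact J.add_mem (J.mul_mem_right _ _ hf) (J.mul_mem_left _ _ hg)
  · have e : V * star Z - star Z * V = -(star Z * (V * Z - Z * V) * star Z) := by
      rw [mul_sub, sub_mul, ← mul_assoc (star Z) Z, h1, one_mul, mul_assoc, mul_assoc, h2, mul_one,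
        neg_sub]
    rw [map_star, hZ, e]
    exact J.neg_mem (J.mul_mem_right _ _ (J.mul_mem_left _ _ hV))

theorem tor_main (π : C(Ann, ℂ) →⋆ₐ[ℂ] 𝔅) {Z Y U E : 𝔅} (hZ : π torC1 = Z) (hY : π torC2 = Y)
    (h1 : star Z * Z = 1) (h2 : Z * star Z = 1) (hU : U * Z - Z * U ∈ J) (hE : E * Z - Z * E ∈ J)
    (h3 : (1 - E) * U * Y - Y * ((1 - E) * U) ∈ J) (h4 : E * U * (Y - 1) ∈ J) (h5 : Y * E = 0)
    (D : ℕ) (F : C(Ann, ℂ)) (hF : Twisted D F) :
    U * π F - π F * ((1 - E + Z ^ D * E) * U) ∈ J := by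
  have hc : ∀ f g, π f * π g = π g * π f := fun f g => by rw [← map_mul, mul_comm, map_mul]
  have a2 : E * U * Z - Z * (E * U) ∈ J := by
    have e : E * U * Z - Z * (E * U) = E * (U * Z - Z * U) + (E * Z - Z * E) * U := by noncomm_ring
    rw [e]
    exact J.add_mem (J.mul_mem_left _ _ hU) (J.mul_mem_right _ _ hE)
  have a1 : (1 - E) * U * Z - Z * ((1 - E) * U) ∈ J := by
    have e : (1 - E) * U * Z - Z * ((1 - E) * U) = (U * Z - Z * U) - (E * U * Z - Z * (E * U)) := by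
      noncomm_ring
    rw [e]
    exact J.sub_mem hU a2
  have ka := tor_comm J hJ π hZ h1 h2 a1 (hY ▸ h3) F
  have e1 : torSl 1 torC2 = 1 := ContinuousMap.ext fun _ => by simp [torSl_apply, torC2]
  have e0 : torSl 0 torC2 = 0 := ContinuousMap.ext fun _ => by simp [torSl_apply, torC2]
  have kc := tor_comm J hJ (π.comp (torSl 1)) hZ h1 h2 a2 (by
    rw [StarAlgHom.comp_apply, e1, map_one, mul_one, one_mul, sub_self]
    exact J.zero_mem) F
  rw [StarAlgHom.comp_apply] at kc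
  let N₁ : Ideal C(Ann, ℂ) :=
    { carrier := {f | E * U * π f ∈ J}
      add_mem' := fun {f g} hf hg => by
        change E * U * π (f + g) ∈ J
        rw [map_add, mul_add]
        exact J.add_mem hf hg
      zero_mem' := by
        change E * U * π 0 ∈ J
        rw [map_zero, mul_zero]
        exact J.zero_mem
      smul_mem' := fun g f hf => by
        change E * U * π (g * f) ∈ J
        rw [map_mul, hc, ← mul_assoc]
        exact J.mul_mem_right _ _ hf }
  have kb : E * U * π (F - torSl 1 F) ∈ J :=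
    tor_ideal N₁ (hJ.preimage (continuous_const.mul (tor_cont π))) 1 (by
      change E * U * π _ ∈ J
      rw [e1, map_sub, map_one, hY]
      exact h4) F
  let N₀ : Ideal C(Ann, ℂ) :=
    { carrier := {f | π f * (Z ^ D * E) ∈ J}
      add_mem' := fun {f g} hf hg => by
        change π (f + g) * (Z ^ D * E) ∈ J
        rw [map_add, add_mul]
        exact J.add_mem hf hg
      zero_mem' := by
        change π 0 * (Z ^ D * E) ∈ J
        rw [map_zero, zero_mul]
        exact J.zero_mem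
      smul_mem' := fun g f hf => by
        change π (g * f) * (Z ^ D * E) ∈ J
        rw [map_mul, mul_assoc]
        exact J.mul_mem_left _ _ hf }
  have kd : π (F - torSl 0 F) * (Z ^ D * E) ∈ J :=
    tor_ideal N₀ (hJ.preimage ((tor_cont π).mul continuous_const)) 0 (by
      change π _ * (Z ^ D * E) ∈ J
      rw [e0, sub_zero, ← hZ, ← map_pow, ← mul_assoc, hc, mul_assoc, hY, h5, mul_zero]
      exact J.zero_mem) F
  have e2 : π (torSl 1 F) = π (torSl 0 F) * Z ^ D := by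
    rw [← hZ, ← map_pow, ← map_mul]
    refine congrArg π (ContinuousMap.ext fun ω => ?_)
    rw [torSl_apply, hF, ContinuousMap.mul_apply, torSl_apply, mul_comm, ContinuousMap.pow_apply]
    congr 1
    change fourier D ω.1 = fourier 1 ω.1 ^ D
    rw [fourier_one, fourier_apply, natCast_zsmul, AddCircle.toCircle_nsmul, Circle.coe_pow]
  rw [map_sub] at kb kd
  rw [e2] at kb kc
  have e : U * π F - π F * ((1 - E + Z ^ D * E) * U) =
      ((1 - E) * U * π F - π F * ((1 - E) * U)) + E * U * (π F - π (torSl 0 F) * Z ^ D) +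
      (E * U * (π (torSl 0 F) * Z ^ D) - π (torSl 0 F) * Z ^ D * (E * U)) -
      (π F - π (torSl 0 F)) * (Z ^ D * E) * U := by
    noncomm_ring
  rw [e]
  exact J.sub_mem (J.add_mem (J.add_mem ka kb) kc) (J.mul_mem_right _ _ kd)

end Abstract

theorem tor_exists {𝔅 : Type} [CStarAlgebra 𝔅] {Z Y : 𝔅} (h1 : star Z * Z = 1)
    (h2 : Z * star Z = 1) (hY : star Y = Y) (hn : ‖(2 : ℂ) • Y - 1‖ ≤ 1) (hZY : Z * Y = Y * Z) :
    ∃ π : C(Ann, ℂ) →⋆ₐ[ℂ] 𝔅, π torC1 = Z ∧ π torC2 = Y := by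
  refine exists_joint torC1 torC2 torC_inj Z Y (h2.trans h1.symm) (by rw [hY]) hZY
    (by rw [hY]; exact hZY) fun a ha b hb => ?_
  rcases subsingleton_or_nontrivial 𝔅 with hs | hs
  · simp [spectrum.of_subsingleton] at ha
  obtain ⟨x, hx⟩ := (AddCircle.homeomorphCircle (T := 1) one_ne_zero).surjective
    ⟨a, spectrum.subset_circle_of_unitary ⟨h1, h2⟩ ha⟩
  have hb1 : b = b.re := IsSelfAdjoint.mem_spectrum_eq_re hY hb
  have hb2 : 2 * b - 1 ∈ spectrum ℂ ((2 : ℂ) • Y - 1) := by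
    rw [spectrum.mem_iff] at hb ⊢
    refine fun hu => hb ?_
    have e : algebraMap ℂ 𝔅 b - Y =
        algebraMap ℂ 𝔅 2⁻¹ * (algebraMap ℂ 𝔅 (2 * b - 1) - ((2 : ℂ) • Y - 1)) := by
      simp only [Algebra.algebraMap_eq_smul_one, smul_mul_assoc, one_mul]
      module
    rw [e]
    exact ((IsUnit.mk0 (2⁻¹ : ℂ) (by norm_num)).map _).mul hu
  have hb3 : |2 * b.re - 1| ≤ 1 := by
    have := (Complex.abs_re_le_norm _).trans ((spectrum.norm_le_norm_of_mem hb2).trans hn)
    simpa using this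
  rw [abs_le] at hb3
  refine ⟨(x, ⟨b.re, by linarith [hb3.1], by linarith [hb3.2]⟩), ?_, hb1.symm⟩
  change fourier 1 x = a
  rw [fourier_one, ← AddCircle.homeomorphCircle_apply one_ne_zero, hx]

theorem tor_isometry {B : Type} [Ring B] [StarRing B] {P E U : B} (p1 : star P * P = 1)
    (p2 : P * star P = 1) (u1 : star U * U = 1) (u2 : U * star U = 1) (e1 : star E = E)
    (e2 : E * E = E) (e3 : E * (P * E * star P) = P * E * star P) :
    star ((1 - E + P * E) * U) * ((1 - E + P * E) * U) = 1 ∧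
      (1 - E + P * E) * U * star ((1 - E + P * E) * U) + (E - P * E * star P) = 1 := by
  have e4 : E * (P * E) = P * E := by
    have := congrArg (· * P) e3
    simpa only [mul_assoc, p1, mul_one] using this
  have e5 : E * star P * E = E * star P := by
    have := congrArg star e4
    simpa only [star_mul, e1] using this
  have s1 : star (1 - E + P * E) = 1 - E + E * star P := by
    rw [star_add, star_sub, star_one, star_mul, e1]
  have w1 : (1 - E + E * star P) * (1 - E + P * E) = 1 := by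
    have e : (1 - E + E * star P) * (1 - E + P * E) = 1 - E - E + E * E + (P * E - E * (P * E)) +
        (E * star P - E * star P * E) + E * (star P * P) * E := by noncomm_ring
    rw [e, e2, e4, e5, p1, mul_one, e2]
    abel
  have w2 : (1 - E + P * E) * (1 - E + E * star P) = 1 - E + P * E * star P := by
    have e : (1 - E + P * E) * (1 - E + E * star P) = 1 - E - E + E * E + (E - E * E) * star P +
        P * (E - E * E) + P * (E * E) * star P := by noncomm_ring
    rw [e, e2, sub_self, zero_mul, mul_zero]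
    abel
  constructor
  · rw [star_mul, s1, mul_assoc, ← mul_assoc _ _ U, w1, one_mul, u1]
  · rw [star_mul, s1, mul_assoc, ← mul_assoc U, u2, one_mul, w2]
    abel

section Diag

variable {X H : Type} [NormedAddCommGroup H] [InnerProductSpace ℂ H]

/-- `A` is the block diagonal operator with blocks `T x`. -/
def TorDiag (A : Op (L2 X H) (L2 X H)) (T : X → Op H H) : Prop := ∀ ξ x, A ξ x = T x (ξ x)

variable {A A' : Op (L2 X H) (L2 X H)} {T T' : X → Op H H}

theorem TorDiag.ext (h : TorDiag A T) (h' : TorDiag A' T') (e : ∀ x, T x = T' x) : A = A' :=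
  op_ext fun ξ x => by rw [h, h', e]

theorem TorDiag.one : TorDiag (1 : Op (L2 X H) (L2 X H)) fun _ => 1 := fun _ _ => rfl

theorem TorDiag.zero : TorDiag (0 : Op (L2 X H) (L2 X H)) fun _ => 0 := fun _ _ => rfl

theorem TorDiag.ampl (S : Op H H) : TorDiag (ampl X S) fun _ => S := fun _ _ => rfl

theorem TorDiag.mul (h : TorDiag A T) (h' : TorDiag A' T') :
    TorDiag (A * A') fun x => T x * T' x := fun ξ x => (h (A' ξ) x).trans (congrArg _ (h' ξ x))

theorem TorDiag.add (h : TorDiag A T) (h' : TorDiag A' T') :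
    TorDiag (A + A') fun x => T x + T' x := fun ξ x => congrArg₂ (· + ·) (h ξ x) (h' ξ x)

theorem TorDiag.sub (h : TorDiag A T) (h' : TorDiag A' T') :
    TorDiag (A - A') fun x => T x - T' x := fun ξ x => congrArg₂ (· - ·) (h ξ x) (h' ξ x)

theorem TorDiag.sum {ι : Type} (s : Finset ι) {B : ι → Op (L2 X H) (L2 X H)}
    {S : ι → X → Op H H} (h : ∀ i, TorDiag (B i) (S i)) :
    TorDiag (∑ i ∈ s, B i) fun x => ∑ i ∈ s, S i x := by
  classical
  induction s using Finset.induction_on with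
  | empty => exact TorDiag.zero
  | insert i s hi ih =>
    simp only [Finset.sum_insert hi]
    exact (h i).add ih

open Classical in
theorem TorDiag.entry (h : TorDiag A T) (x y : X) : entry A x y = if x = y then T x else 0 := by
  refine ContinuousLinearMap.ext fun v => ?_
  rw [entry_apply, h, sing_apply]
  split_ifs <;> simp

theorem TorDiag.conj (h : TorDiag A T) (σ : Equiv.Perm X) :
    TorDiag (permOp X H σ * A * permOp X H σ⁻¹) fun x => T (σ.symm x) := fun ξ x => by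
  change A (permOp X H σ⁻¹ ξ) (σ.symm x) = _
  rw [h, permOp_apply]
  exact congrArg (fun y => T (σ.symm x) (ξ y)) (σ.apply_symm_apply x)

open Classical in
theorem tor_inner_sing (k : X) (v : H) (ξ : L2 X H) : inner ℂ (sing k v) ξ = inner ℂ v (ξ k) :=
  lp.inner_single_left (G := fun _ : X => H) k v ξ

open Classical in
theorem torDiag_rankOne (k : X) (v : H) :
    TorDiag (rankOne ℂ (sing k v) (sing k v)) fun x => if x = k then rankOne ℂ v v else 0 := by
  intro ξ x
  change inner ℂ (sing k v) ξ • (sing k v : L2 X H) x = _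
  rw [sing_apply, tor_inner_sing]
  by_cases e : x = k <;> simp [e]

variable [CompleteSpace H]

theorem TorDiag.star_eq (h : TorDiag A T) (h' : TorDiag A' T') (e : ∀ x, star (T x) = T' x) :
    star A = A' := by
  refine entry_ext fun x y => ?_
  rw [entry_star, h.entry, h'.entry]
  by_cases hxy : x = y
  · rw [if_pos hxy, if_pos hxy.symm, ← e, hxy]
  · rw [if_neg hxy, if_neg (Ne.symm hxy), star_zero]

theorem TorDiag.compact {A : Op (L2 ℤ H) (L2 ℤ H)} {T : ℤ → Op H H} (h : TorDiag A T)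
    (hc : ∀ x, T x ∈ compacts H) (h0 : ∀ x ≤ 0, T x = 0)
    (h1 : Filter.Tendsto (fun x => ‖T x‖) Filter.atTop (nhds 0)) : A ∈ compacts (L2 ℤ H) := by
  refine compacts_of_tendsto A 1 (fun x y hxy => (h.entry x y).trans (if_neg hxy))
    (fun y => ((h.entry y y).trans (if_pos rfl)).symm ▸ hc y) ?_
  simp only [h.entry, Equiv.Perm.coe_one, id_eq, if_true]
  rw [Int.cofinite_eq, Filter.tendsto_sup]
  refine ⟨tendsto_const_nhds.congr' ?_, h1⟩
  filter_upwards [Filter.eventually_le_atBot 0] with x hx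
  rw [h0 x hx, norm_zero]

theorem TorDiag.comm {A : Op (L2 ℤ H) (L2 ℤ H)} {T : ℤ → Op H H} (h : TorDiag A T)
    (hc : ∀ x, T x - T (x - 1) ∈ compacts H) (h0 : ∀ x ≤ 0, T x = T (x - 1))
    (h1 : Filter.Tendsto (fun x => ‖T (x + 1) - T x‖) Filter.atTop (nhds 0)) :
    A * permOp ℤ H (Equiv.addRight 1) - permOp ℤ H (Equiv.addRight 1) * A ∈
      compacts (L2 ℤ H) := by
  have h2 := (h.sub (h.conj (Equiv.addRight 1))).compact hc (fun x hx => sub_eq_zero.2 (h0 x hx))
    ((h1.comp (Filter.tendsto_atTop_add_const_right _ (-1) Filter.tendsto_id)).congr fun x => by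
      simp)
  have h3 := compacts_mul_right h2 (permOp ℤ H (Equiv.addRight 1))
  rwa [sub_mul, mul_assoc, ← map_mul, inv_mul_cancel, map_one, mul_one] at h3

end Diag

theorem tor_sum {M : Type} [AddCommGroup M] (e : M) (x : ℤ) (D : ℕ) :
    ∑ i : Fin D, (if x = (i : ℕ) + 1 then e else 0) =
      (if 0 < x then e else 0) - if 0 < x - D then e else 0 := by
  induction D with
  | zero => simp
  | succ D ih =>
    rw [Fin.sum_univ_castSucc]
    simp only [Fin.val_castSucc, Fin.val_last, ih]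
    push_cast
    split_ifs <;> first | omega | simp

section Concrete

variable {H : Type} [NormedAddCommGroup H] [InnerProductSpace ℂ H] [CompleteSpace H]

theorem tor_perm1 (σ : Equiv.Perm ℤ) : star (permOp ℤ H σ) * permOp ℤ H σ = 1 := by
  rw [star_permOp, ← map_mul, inv_mul_cancel, map_one]

theorem tor_perm2 (σ : Equiv.Perm ℤ) : permOp ℤ H σ * star (permOp ℤ H σ) = 1 := by
  rw [star_permOp, ← map_mul, mul_inv_cancel, map_one]

theorem tor_kill {S : Op H H} {D : ℕ} {η : Fin D → H} (s1 : star S * S = 1)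
    (s2 : S * star S + ∑ i, rankOne ℂ (η i) (η i) = 1) (s4 : Orthonormal ℂ η) (i : Fin D) :
    (star S) (η i) = 0 := by
  have h1 := congrArg (fun A : Op H H => star S (A (η i))) s2
  have h2 := congrArg (fun A : Op H H => A (star S (η i))) s1
  simp only [add_apply, sum_apply, rankOne_apply, orthonormal_iff_ite.1 s4, ite_smul, one_smul,
    zero_smul, Finset.sum_ite_eq', Finset.mem_univ, if_true, map_add,
    one_apply_eq_self] at h1 h2
  exact h2.symm.trans (add_eq_right.1 h1)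

omit [CompleteSpace H] in
theorem tor_orth {η₀ : H} (n0 : ‖η₀‖ = 1) (D : ℕ) :
    Orthonormal ℂ fun i : Fin D => (sing ((i : ℕ) + 1 : ℤ) η₀ : L2 ℤ H) := by
  refine orthonormal_iff_ite.2 fun i k => ?_
  rw [tor_inner_sing, sing_apply]
  by_cases hik : i = k
  · simp [hik, n0]
  · rw [if_neg hik, if_neg fun h => hik (Fin.ext (by omega)), inner_zero_right]

theorem tor_defect {η₀ : H} (n0 : ‖η₀‖ = 1) {E V : Op (L2 ℤ H) (L2 ℤ H)}
    (hE : TorDiag E fun n => if 0 < n then rankOne ℂ η₀ η₀ else 0) (v1 : star V * V = 1)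
    (v2 : V * star V = 1) (D : ℕ) {S : Op (L2 ℤ H) (L2 ℤ H)}
    (hS : S = (1 - E + permOp ℤ H (Equiv.addRight 1) ^ D * E) * V) :
    ∃ η : Fin D → L2 ℤ H, star S * S = 1 ∧ S * star S + ∑ i, rankOne ℂ (η i) (η i) = 1 ∧
      Orthonormal ℂ η ∧ ∀ i, (star S) (η i) = 0 := by
  have ee : (rankOne ℂ η₀ η₀ : Op H H) * rankOne ℂ η₀ η₀ = rankOne ℂ η₀ η₀ :=
    isIdempotentElem_rankOne_self n0
  have E1 : star E = E := hE.star_eq hE fun n => by
    split_ifs
    exacts [adjoint_rankOne η₀ η₀, star_zero _]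
  have E2 : E * E = E := (hE.mul hE).ext hE fun n => by
    split_ifs
    exacts [ee, mul_zero _]
  have hP : (Equiv.addRight (1 : ℤ)) ^ D = Equiv.addRight (D : ℤ) := by
    ext
    simp [Equiv.Perm.coe_pow]
  rw [← map_pow, hP] at hS
  have hE' := hE.conj (Equiv.addRight (D : ℤ))
  rw [← star_permOp] at hE'
  obtain ⟨s1, s2⟩ := tor_isometry (tor_perm1 (Equiv.addRight (D : ℤ))) (tor_perm2 _) v1 v2 E1 E2
    ((hE.mul hE').ext hE' fun n => by
      change _ * (if 0 < n + -(D : ℤ) then _ else 0) = if 0 < n + -(D : ℤ) then _ else 0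
      split_ifs <;> first | omega | simp [ee])
  rw [← (TorDiag.sum _ fun i : Fin D => torDiag_rankOne ((i : ℕ) + 1 : ℤ) η₀).ext (hE.sub hE')
    fun n => by
      convert tor_sum (rankOne ℂ η₀ η₀ : Op H H) n D
      exact (sub_eq_add_neg n D).symm] at s2
  rw [← hS] at s1 s2
  exact ⟨_, s1, s2, tor_orth n0 D, tor_kill s1 s2 (tor_orth n0 D)⟩

theorem tor_unitary {U : ℤ → Op H H} (u1 : ∀ n, star (U n) * U n = 1)
    (u2 : ∀ n, U n * star (U n) = 1) :
    ∃ V : Op (L2 ℤ H) (L2 ℤ H), TorDiag V U ∧ star V * V = 1 ∧ V * star V = 1 := by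
  have hn : ∀ n, ‖U n‖ ≤ 1 := fun n => by
    have h1 : ‖U n‖ * ‖U n‖ ≤ 1 := by
      rw [← CStarRing.norm_star_mul_self, u1]
      exact ContinuousLinearMap.norm_id_le
    nlinarith [norm_nonneg (U n)]
  have hV : TorDiag (diagOp U 1 zero_le_one hn) U := fun _ _ => rfl
  have hV' : TorDiag (diagOp (fun n => star (U n)) 1 zero_le_one fun n =>
    (norm_star (U n)).trans_le (hn n)) fun n => star (U n) := fun _ _ => rfl
  have hs := hV.star_eq hV' fun _ => rfl
  exact ⟨_, hV, hs ▸ (hV'.mul hV).ext TorDiag.one u1, hs ▸ (hV.mul hV').ext TorDiag.one u2⟩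

open Filter Topology in
theorem tor_rel {Y e₀ : Op H H} {U : ℤ → Op H H} {E V : Op (L2 ℤ H) (L2 ℤ H)}
    (ec : e₀ ∈ compacts H) (hE : TorDiag E fun n => if 0 < n then e₀ else 0) (hV : TorDiag V U)
    (uc : ∀ n, U n - 1 ∈ compacts H) (u0 : ∀ n ≤ 0, U n = 1)
    (t1 : Tendsto (fun n => ‖U (n + 1) - U n‖) atTop (𝓝 0))
    (t2 : Tendsto (fun n => ‖(1 - e₀) * U n * Y - Y * ((1 - e₀) * U n)‖) atTop (𝓝 0))
    (t3 : Tendsto (fun n => ‖e₀ * U n * (Y - 1)‖) atTop (𝓝 0)) :
    V * permOp ℤ H (Equiv.addRight 1) - permOp ℤ H (Equiv.addRight 1) * V ∈ compacts (L2 ℤ H) ∧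
    E * permOp ℤ H (Equiv.addRight 1) - permOp ℤ H (Equiv.addRight 1) * E ∈ compacts (L2 ℤ H) ∧
    (1 - E) * V * ampl ℤ Y - ampl ℤ Y * ((1 - E) * V) ∈ compacts (L2 ℤ H) ∧
    E * V * (ampl ℤ Y - 1) ∈ compacts (L2 ℤ H) := by
  have ec' : ∀ n : ℤ, (if 0 < n then e₀ else 0) ∈ compacts H := fun n => by
    split_ifs
    exacts [ec, compacts_zero]
  refine ⟨hV.comm (fun n => ?_) (fun n hn => ?_) t1,
    hE.comm (fun n => compacts_sub (ec' _) (ec' _)) (fun n hn => ?_) ?_,
    ((((TorDiag.one.sub hE).mul hV).mul (TorDiag.ampl Y)).sub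
      ((TorDiag.ampl Y).mul ((TorDiag.one.sub hE).mul hV))).compact (fun n => ?_)
      (fun n hn => ?_) ?_, ((hE.mul hV).mul ((TorDiag.ampl Y).sub TorDiag.one)).compact
      (fun n => compacts_mul_right (compacts_mul_right (ec' n) _) _) (fun n hn => ?_) ?_⟩
  · have := compacts_sub (uc n) (uc (n - 1))
    rwa [sub_sub_sub_cancel_right] at this
  · rw [u0 n hn, u0 _ (by omega)]
  · rw [if_neg (by omega), if_neg (by omega)]
  · refine tendsto_const_nhds.congr' ?_
    filter_upwards [eventually_gt_atTop 0] with n hn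
    rw [if_pos hn, if_pos (by omega), sub_self, norm_zero]
  · have h1 := compacts_sub (uc n) (compacts_mul_right (ec' n) (U n))
    have h2 := compacts_sub (compacts_mul_right h1 Y) (compacts_mul_left Y h1)
    convert h2 using 1
    noncomm_ring
  · simp [u0 n hn, not_lt.2 hn]
  · refine t2.congr' ?_
    filter_upwards [eventually_gt_atTop 0] with n hn
    rw [if_pos hn]
  · simp [not_lt.2 hn]
  · refine t3.congr' ?_
    filter_upwards [eventually_gt_atTop 0] with n hn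
    rw [if_pos hn]

theorem tor_twist (π : C(Ann, ℂ) →⋆ₐ[ℂ] Op H H) {Z Y U E : Op H H} (hZ : π torC1 = Z)
    (hY : π torC2 = Y) (h1 : star Z * Z = 1) (h2 : Z * star Z = 1)
    (h : U * Z - Z * U ∈ compacts H ∧ E * Z - Z * E ∈ compacts H ∧
      (1 - E) * U * Y - Y * ((1 - E) * U) ∈ compacts H ∧ E * U * (Y - 1) ∈ compacts H)
    (h5 : Y * E = 0) (D : ℕ) (F : C(Ann, ℂ)) (hF : Twisted D F) :
    U * π F - π F * ((1 - E + Z ^ D * E) * U) ∈ compacts H := by
  have hJ : IsClosed (cptIdeal H : Set (Op H H)) := by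
    rw [show (cptIdeal H : Set (Op H H)) = compacts H from Set.ext fun _ => mem_cptIdeal]
    exact isClosed_compacts
  exact mem_cptIdeal.1 (tor_main (cptIdeal H) hJ π hZ hY h1 h2 (mem_cptIdeal.2 h.1)
    (mem_cptIdeal.2 h.2.1) (mem_cptIdeal.2 h.2.2.1) (mem_cptIdeal.2 h.2.2.2) h5 D F hF)

theorem tor_exists' {Z Y : Op H H} (h1 : star Z * Z = 1)
    (h2 : Z * star Z = 1) (hY : star Y = Y) (hn : ‖(2 : ℂ) • Y - 1‖ ≤ 1) (hZY : Z * Y = Y * Z) :
    ∃ π : C(Ann, ℂ) →⋆ₐ[ℂ] Op H H, π torC1 = Z ∧ π torC2 = Y := tor_exists h1 h2 hY hn hZY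

theorem tor_rep {Y : Op H H} (y1 : star Y = Y) (y2 : ‖(2 : ℂ) • Y - 1‖ ≤ 1) :
    ∃ π : C(Ann, ℂ) →⋆ₐ[ℂ] Op (L2 ℤ H) (L2 ℤ H),
      π torC1 = permOp ℤ H (Equiv.addRight 1) ∧ π torC2 = ampl ℤ Y := by
  have h1 : star (ampl ℤ Y) = ampl ℤ Y :=
    (TorDiag.ampl Y).star_eq (TorDiag.ampl Y) fun _ => y1
  have h2 : (2 : ℂ) • ampl ℤ Y - 1 = ampl ℤ ((2 : ℂ) • Y - 1) := op_ext fun _ _ => rfl
  have h3 : permOp ℤ H (Equiv.addRight 1) * ampl ℤ Y = ampl ℤ Y * permOp ℤ H (Equiv.addRight 1) :=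
    op_ext fun _ _ => rfl
  exact tor_exists' (tor_perm1 _) (tor_perm2 _) h1 (h2 ▸ (norm_ampl_le _).trans y2) h3

end Concrete

theorem exists_torusOp : ∃ (π : C(Ann, ℂ) →⋆ₐ[ℂ] Op H0 H0) (U : Op H0 H0),
    star U * U = 1 ∧ U * star U = 1 ∧
    (∀ F, Twisted 0 F → U * π F - π F * U ∈ compacts H0) ∧
    ∀ D : ℕ, ∃ (S : Op H0 H0) (η : Fin D → H0), star S * S = 1 ∧
      S * star S + ∑ i, rankOne ℂ (η i) (η i) = 1 ∧ Orthonormal ℂ η ∧ (∀ i, (star S) (η i) = 0) ∧
      ∀ F, Twisted D F → U * π F - π F * S ∈ compacts H0 := by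
  obtain ⟨Y, η₀, U, y1, y2, n0, y0, u1, u2, uc, u0, t1, t2, t3⟩ := exists_dyadic
  have ec : rankOne ℂ η₀ η₀ ∈ compacts H1 :=
    (isCompactOperator_of_locallyCompactSpace_dom (innerSL ℂ η₀)).clm_comp
      (ContinuousLinearMap.toSpanSingleton ℂ η₀)
  have ey : Y * rankOne ℂ η₀ η₀ = 0 := by
    have := comp_rankOne η₀ η₀ Y
    rw [y0, map_zero, zero_apply] at this
    exact this
  obtain ⟨E, hE⟩ : ∃ E : Op H0 H0, TorDiag E fun n => if 0 < n then rankOne ℂ η₀ η₀ else 0 :=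
    ⟨diagOp _ ‖(rankOne ℂ η₀ η₀ : Op H1 H1)‖ (norm_nonneg _) fun n => by
      split_ifs
      exacts [le_rfl, norm_zero.trans_le (norm_nonneg _)], fun _ _ => rfl⟩
  obtain ⟨V, hV, v1, v2⟩ := tor_unitary u1 u2
  obtain ⟨π, hZ, hY⟩ := tor_rep y1 y2
  have key := tor_twist π hZ hY (tor_perm1 _) (tor_perm2 _) (tor_rel ec hE hV uc u0 t1 t2 t3)
    (((TorDiag.ampl Y).mul hE).ext TorDiag.zero fun n => by
      split_ifs
      exacts [ey, mul_zero _])
  refine ⟨π, V, v1, v2, fun F hF => ?_, fun D => ?_⟩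
  · have := key 0 F hF
    rwa [pow_zero, one_mul, sub_add_cancel, one_mul] at this
  · obtain ⟨η, s1, s2, s3, s4⟩ := tor_defect n0 hE v1 v2 D rfl
    exact ⟨_, η, s1, s2, s3, s4, key D⟩

end Vale.Agent.P212
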