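import Vale.Agent.P212.Space
import Vale.Agent.P212.TorusOp

/-! TASK Hat: hat function partitions of unity on the circle, local lifts, the wrap cocycle.
Plan. The norm on `T1 = UnitAddCircle` is `‖(t : T1)‖ = |t - round t|` (`UnitAddCircle.norm_eq`,
`AddCircle.norm_eq`); every `x` is `↑t` with `|t| = ‖x‖ ≤ 1/2`. `hat_sum_pos`: write `x = ↑t`,
`t ∈ [0,1)`, and take `j = round (R t) % R` (or `j = ⌊R t⌋`, as `R t - ⌊R t⌋ < 1`).
`zeta`: if `x - j/R = ↑t` with `|t| < 1/4` then `im (fourier 1 ↑t) = sin (2π t)` and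
`arcsin (sin (2π t)) = 2π t`, so `zeta R j x = j/R + t`. -/

noncomputable section

namespace Vale.Agent.P212

/-- `e(t) = exp (2π i t)`. -/
def ec (t : ℝ) : ℂ := Complex.exp (2 * Real.pi * Complex.I * t)

theorem ec_add (s t : ℝ) : ec (s + t) = ec s * ec t := by
  unfold ec
  rw [← Complex.exp_add]
  push_cast
  ring_nf

@[simp] theorem ec_zero : ec 0 = 1 := by
  simp [ec]

theorem ec_int (m : ℤ) : ec m = 1 := by
  unfold ec
  rw [← Complex.exp_int_mul_two_pi_mul_I m]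
  push_cast
  ring_nf

theorem star_ec (t : ℝ) : star (ec t) = ec (-t) := by
  unfold ec
  rw [Complex.star_def, ← Complex.exp_conj]
  simp [Complex.conj_ofReal, map_ofNat]

theorem norm_ec (t : ℝ) : ‖ec t‖ = 1 := by
  unfold ec
  have := Complex.norm_exp_ofReal_mul_I (2 * Real.pi * t)
  rw [← this]
  push_cast
  ring_nf

@[fun_prop] theorem continuous_ec : Continuous ec := by
  unfold ec
  fun_prop

theorem fourier_coe_eq_ec (D : ℕ) (t : ℝ) : fourier D (t : T1) = ec (D * t) := by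
  rw [fourier_coe_apply, ec]
  push_cast
  ring_nf

/-- The integer nearest to `(a - b) / R`. -/
def wrap (R a b : ℕ) : ℤ := round (((a : ℝ) - b) / R)

theorem round_eq_of_abs_hat {x : ℝ} {m : ℤ} (h : |x - m| < 1 / 2) : round x = m := by
  rw [abs_lt] at h
  rw [round_eq, Int.floor_eq_iff]
  constructor <;> linarith [h.1, h.2]

theorem wrap_spec {R r a b : ℕ} (h : Cyc R r a b) (hr : 2 * r < R) :
    ∃ e : ℤ, |e| ≤ r ∧ (a : ℤ) - b = e + R * wrap R a b := by
  obtain ⟨e, he, k, hk⟩ := h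
  have hR : (0 : ℝ) < R := by exact_mod_cast (by omega : 0 < R)
  have h1 : ((a : ℝ) - b) - e = R * k := by exact_mod_cast hk
  have h2 : |(e : ℝ)| ≤ r := by exact_mod_cast he
  have h3 : (2 : ℝ) * r < R := by exact_mod_cast hr
  have h4 : wrap R a b = k := by
    refine round_eq_of_abs_hat ?_
    have : ((a : ℝ) - b) / R - k = e / R := by
      field_simp
      linarith
    rw [this, abs_div, abs_of_pos hR, div_lt_iff₀ hR]
    linarith
  exact ⟨e, he, by rw [h4]; linarith⟩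

theorem wrap_add {R r a b c : ℕ} (hab : Cyc R r a b) (hbc : Cyc R r b c) (hac : Cyc R r a c)
    (hr : 3 * r < R) : wrap R a b + wrap R b c = wrap R a c := by
  obtain ⟨e1, h1, k1⟩ := wrap_spec hab (by omega)
  obtain ⟨e2, h2, k2⟩ := wrap_spec hbc (by omega)
  obtain ⟨e3, h3, k3⟩ := wrap_spec hac (by omega)
  have h4 : (R : ℤ) * (wrap R a b + wrap R b c - wrap R a c) = e3 - e1 - e2 := by linarith
  have h5 : (3 : ℤ) * r < R := by exact_mod_cast hr
  rw [abs_le] at h1 h2 h3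
  generalize wrap R a b = u at *
  generalize wrap R b c = v at *
  generalize wrap R a c = w at *
  by_contra hne
  rcases lt_or_gt_of_ne hne with h | h
  · have : u + v - w ≤ -1 := by omega
    nlinarith
  · have : 1 ≤ u + v - w := by omega
    nlinarith

theorem abs_wrap_le {R a b : ℕ} (ha : a < R) (hb : b < R) : |wrap R a b| ≤ 1 := by
  have hR : (0 : ℝ) < R := by exact_mod_cast (by omega : 0 < R)
  have ha' : (a : ℝ) < R := by exact_mod_cast ha
  have hb' : (b : ℝ) < R := by exact_mod_cast hb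
  have h1 : |((a : ℝ) - b) / R| < 1 := by
    rw [abs_div, abs_of_pos hR, div_lt_one hR, abs_lt]
    constructor <;> linarith [Nat.cast_nonneg (α := ℝ) a, Nat.cast_nonneg (α := ℝ) b]
  have h2 := abs_sub_round (((a : ℝ) - b) / R)
  have h3 : |(wrap R a b : ℝ)| < 2 := by
    unfold wrap
    rw [abs_lt] at h1 ⊢
    rw [abs_le] at h2
    constructor <;> linarith [h1.1, h1.2, h2.1, h2.2]
  have h4 : |wrap R a b| < 2 := by exact_mod_cast h3
  omega

/-- The hat function centred at `j / R`. -/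
def hat (R j : ℕ) (x : T1) : ℝ := max 0 (1 - R * ‖x - (((j : ℝ) / R : ℝ) : T1)‖)

theorem norm_coe_le_hat (t : ℝ) : ‖(t : T1)‖ ≤ |t| := by
  rw [UnitAddCircle.norm_eq]
  simpa using round_le t 0

theorem hat_nonneg_hat (R j : ℕ) (x : T1) : 0 ≤ hat R j x := le_max_left _ _

theorem continuous_hat_hat (R j : ℕ) : Continuous (hat R j) := by
  unfold hat
  fun_prop

theorem hat_sum_pos {R : ℕ} (hR : 0 < R) (x : T1) : 0 < ∑ i ∈ Finset.range R, hat R i x := by
  obtain ⟨t, ht, rfl⟩ := AddCircle.eq_coe_Ico x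
  have hR' : (0 : ℝ) < R := by exact_mod_cast hR
  have h0 : 0 ≤ (R : ℝ) * t := mul_nonneg hR'.le ht.1
  refine Finset.sum_pos' (fun i _ => le_max_left _ _) ⟨⌊(R : ℝ) * t⌋₊, ?_, ?_⟩
  · rw [Finset.mem_range, Nat.floor_lt h0]
    nlinarith [ht.2]
  · refine lt_max_of_lt_right ?_
    rw [← AddCircle.coe_sub]
    have h1 := norm_coe_le_hat (t - (⌊(R : ℝ) * t⌋₊ : ℝ) / R)
    have h2 : (R : ℝ) * |t - (⌊(R : ℝ) * t⌋₊ : ℝ) / R| < 1 := by
      have : (R : ℝ) * (t - (⌊(R : ℝ) * t⌋₊ : ℝ) / R) = R * t - ⌊(R : ℝ) * t⌋₊ := by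
        field_simp
      rw [← abs_of_pos hR', ← abs_mul, abs_of_pos hR', this, abs_lt]
      constructor <;> linarith [Nat.floor_le h0, Nat.lt_floor_add_one ((R : ℝ) * t)]
    nlinarith

/-- The normalized hat functions. -/
def wt (R j : ℕ) (x : T1) : ℝ := hat R j x / ∑ i ∈ Finset.range R, hat R i x

theorem wt_nonneg (R j : ℕ) (x : T1) : 0 ≤ wt R j x := by
  exact div_nonneg (hat_nonneg_hat R j x) (Finset.sum_nonneg fun i _ => hat_nonneg_hat R i x)

theorem continuous_wt {R : ℕ} (hR : 0 < R) (j : ℕ) : Continuous (wt R j) := by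
  exact (continuous_hat_hat R j).div
    (continuous_finsetSum _ fun i _ => continuous_hat_hat R i) fun x => (hat_sum_pos hR x).ne'

theorem sum_wt {R : ℕ} (hR : 0 < R) (x : T1) : ∑ j ∈ Finset.range R, wt R j x = 1 := by
  unfold wt
  rw [← Finset.sum_div, div_self (hat_sum_pos hR x).ne']

theorem exists_lift_hat {R j : ℕ} {x : T1} (h : wt R j x ≠ 0) :
    ∃ s : ℝ, (R : ℝ) * |s| < 1 ∧ x = (((j : ℝ) / R + s : ℝ) : T1) := by
  have h1 : hat R j x ≠ 0 := fun h0 => h (by rw [wt, h0, zero_div])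
  have h2 : (R : ℝ) * ‖x - (((j : ℝ) / R : ℝ) : T1)‖ < 1 := by
    by_contra h3
    exact h1 (max_eq_left (by linarith))
  obtain ⟨t, ht⟩ := QuotientAddGroup.mk_surjective (x - (((j : ℝ) / R : ℝ) : T1))
  refine ⟨t - round t, ?_, ?_⟩
  · rwa [← ht, UnitAddCircle.norm_eq] at h2
  · have h4 : (((round t : ℤ) : ℝ) : T1) = 0 := by
      rw [AddCircle.coe_eq_zero_iff]
      exact ⟨round t, by simp⟩
    rw [AddCircle.coe_add, AddCircle.coe_sub, h4, sub_zero, ht]
    abel

theorem exists_int_of_coe_eq_hat {s t : ℝ} (h : (s : T1) = (t : T1)) : ∃ m : ℤ, s - t = m := by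
  rw [← sub_eq_zero, ← AddCircle.coe_sub, AddCircle.coe_eq_zero_iff] at h
  obtain ⟨m, hm⟩ := h
  exact ⟨m, by simpa using hm.symm⟩

theorem cyc_of_wt {R i j : ℕ} (hR : 0 < R) {x : T1} (hi : wt R i x ≠ 0) (hj : wt R j x ≠ 0) :
    Cyc R 1 i j := by
  obtain ⟨s, hs, rfl⟩ := exists_lift_hat hi
  obtain ⟨s', hs', h⟩ := exists_lift_hat hj
  obtain ⟨m, hm⟩ := exists_int_of_coe_eq_hat h
  have hR' : (0 : ℝ) < R := by exact_mod_cast hR
  refine ⟨(i : ℤ) - j - R * m, ?_, m, by ring⟩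
  have h1 : (((i : ℤ) - j - R * m : ℤ) : ℝ) = R * s' - R * s := by
    push_cast
    have : (i : ℝ) - j = R * ((i : ℝ) / R - (j : ℝ) / R) := by field_simp
    rw [this]
    have h2 : (i : ℝ) / R - (j : ℝ) / R = m + s' - s := by linarith
    rw [h2]
    ring
  have h2 : |(((i : ℤ) - j - R * m : ℤ) : ℝ)| < 2 := by
    rw [h1]
    refine (abs_sub _ _).trans_lt ?_
    rw [abs_mul, abs_mul, abs_of_pos hR']
    linarith
  have h3 : |(i : ℤ) - j - R * m| < 2 := by exact_mod_cast h2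
  push_cast
  omega

/-- A continuous function which is a lift of `x` near `j / R`. -/
def zeta (R j : ℕ) (x : T1) : ℝ :=
  (j : ℝ) / R + Real.arcsin (fourier 1 (x - (((j : ℝ) / R : ℝ) : T1))).im / (2 * Real.pi)

theorem continuous_zeta (R j : ℕ) : Continuous (zeta R j) := by
  unfold zeta
  exact continuous_const.add ((Real.continuous_arcsin.comp (Complex.continuous_im.comp
    ((fourier 1).continuous.comp (continuous_id.sub continuous_const)))).div_const _)

theorem zeta_eq_hat {R j : ℕ} (hR : 4 ≤ R) {s : ℝ} (hs : (R : ℝ) * |s| < 1) :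
    zeta R j (((j : ℝ) / R + s : ℝ) : T1) = (j : ℝ) / R + s := by
  have hR' : (4 : ℝ) ≤ R := by exact_mod_cast hR
  have h1 : |s| ≤ 1 / 4 := by nlinarith [abs_nonneg s]
  rw [abs_le] at h1
  unfold zeta
  rw [← AddCircle.coe_sub, add_sub_cancel_left, fourier_coe_apply]
  have h2 : (2 * Real.pi * Complex.I * ((1 : ℤ) : ℂ) * (s : ℂ) / ((1 : ℝ) : ℂ)) =
      ((2 * Real.pi * s : ℝ) : ℂ) * Complex.I := by
    push_cast
    ring
  rw [h2, Complex.exp_ofReal_mul_I_im, Real.arcsin_sin (by nlinarith [Real.pi_pos])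
    (by nlinarith [Real.pi_pos])]
  have := Real.pi_pos
  field_simp

theorem coe_zeta {R j : ℕ} (hR : 4 ≤ R) {x : T1} (h : wt R j x ≠ 0) :
    ((zeta R j x : ℝ) : T1) = x := by
  obtain ⟨s, hs, rfl⟩ := exists_lift_hat h
  rw [zeta_eq_hat hR hs]

theorem zeta_sub {R i j : ℕ} (hR : 4 ≤ R) {x : T1} (hi : wt R i x ≠ 0) (hj : wt R j x ≠ 0) :
    zeta R i x - zeta R j x = wrap R i j := by
  obtain ⟨s, hs, h1⟩ := exists_lift_hat hi
  obtain ⟨s', hs', h2⟩ := exists_lift_hat hj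
  have e1 : zeta R i x = (i : ℝ) / R + s := by rw [h1, zeta_eq_hat hR hs]
  have e2 : zeta R j x = (j : ℝ) / R + s' := by rw [h2, zeta_eq_hat hR hs']
  obtain ⟨m, hm⟩ := exists_int_of_coe_eq_hat (h1.symm.trans h2)
  have hR' : (4 : ℝ) ≤ R := by exact_mod_cast hR
  have h3 : |s| < 1 / 4 := by nlinarith [abs_nonneg s]
  have h4 : |s'| < 1 / 4 := by nlinarith [abs_nonneg s']
  have h5 : wrap R i j = m := by
    refine round_eq_of_abs_hat ?_
    rw [sub_div]
    rw [abs_lt] at h3 h4 ⊢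
    constructor <;> linarith [h3.1, h3.2, h4.1, h4.2]
  rw [e1, e2, h5, hm]

/-- `t - zeta R j ↑t` is an integer on the support of `wt R j`. -/
theorem exists_int_sub_zeta {R j : ℕ} (hR : 4 ≤ R) {t : ℝ} (h : wt R j (t : T1) ≠ 0) :
    ∃ m : ℤ, t - zeta R j (t : T1) = m := by
  exact exists_int_of_coe_eq_hat (coe_zeta hR h).symm

end Vale.Agent.P212
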