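import Vale.Agent.P212.Defs1

/-! TASK Milnor: pure ring theory of the index idempotent.
Plan. With `p² = p, q² = q, pq = qp = 0, qt = t = tp, pt' = t' = t'q` one has `t² = 0 = t'²`,
`tq = 0 = pt`, `t'p = 0 = qt'`; `W = (1+t)(1-t')(1+t)` has inverse `W' = (1-t)(1+t')(1-t)`;
`W p = (p - t't) + (2t - tt't)`, `p W' = (p - t't) + t'`, so `W p W' = q + milD`. `swapMat q` is an
involution and `swapMat q * diag(q, 1-q) * swapMat q = diag(1,0)`, which gives `milnor_eq`.
Modulo `J`, `t't ≡ p`, `tt' ≡ q` and `milD ≡ 0`. Use `Matrix.mul_fin_two`, `ext i j; fin_cases i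
<;> fin_cases j`, and `noncomm_ring`/`simp [mul_add, add_mul, mul_assoc, h]` with reassociated
versions (`∀ x, p * (p * x) = p * x`) of the hypotheses. -/

noncomputable section

namespace Vale.Agent.P212

/-- The relations between `p, q, t, t'`. -/
structure MilnorRel {R : Type} [NonUnitalRing R] (p q t t' : R) : Prop where
  pp : p * p = p
  qq : q * q = q
  pq : p * q = 0
  qp : q * p = 0
  qt : q * t = t
  tp : t * p = t
  pt' : p * t' = t'
  t'q : t' * q = t'

/-- `W p W⁻¹ - q`. -/
def milD {R : Type} [NonUnitalRing R] (p q t t' : R) : R :=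
  ((p - t' * t) + (t + t - t * t' * t)) * ((p - t' * t) + t') - q

/-- `milnor p q t t' - diag(1, 0)`, a polynomial without constant term. -/
def mil0 {R : Type} [NonUnitalRing R] (p q t t' : R) : M2 R :=
  mat2 (q * milD p q t t' * q) (q * milD p q t t' - q * milD p q t t' * q)
    (milD p q t t' * q - q * milD p q t t' * q)
    (milD p q t t' - q * milD p q t t' - milD p q t t' * q + q * milD p q t t' * q)

variable {R R' : Type}

theorem mil0_map [NonUnitalRing R] [NonUnitalRing R'] {Φ : Type} [FunLike Φ R R']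
    [NonUnitalRingHomClass Φ R R'] (θ : Φ) (p q t t' : R) :
    (mil0 p q t t').map θ = mil0 (θ p) (θ q) (θ t) (θ t') := by
  ext i j
  fin_cases i <;> fin_cases j <;> simp [mil0, milD, mat2]

section MilnorAux

variable [Ring R] {p q t t' : R}

theorem MilnorRel.tt (h : MilnorRel p q t t') : t * t = 0 := by
  calc t * t = (t * p) * (q * t) := by rw [h.tp, h.qt]
    _ = t * (p * q) * t := by simp only [mul_assoc]
    _ = 0 := by rw [h.pq, mul_zero, zero_mul]

theorem MilnorRel.t't' (h : MilnorRel p q t t') : t' * t' = 0 := by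
  calc t' * t' = (t' * q) * (p * t') := by rw [h.t'q, h.pt']
    _ = t' * (q * p) * t' := by simp only [mul_assoc]
    _ = 0 := by rw [h.qp, mul_zero, zero_mul]

theorem MilnorRel.pt (h : MilnorRel p q t t') : p * t = 0 := by
  rw [← h.qt, ← mul_assoc, h.pq, zero_mul]

theorem MilnorRel.t'p (h : MilnorRel p q t t') : t' * p = 0 := by
  rw [← h.t'q, mul_assoc, h.qp, mul_zero]

theorem MilnorRel.wp (h : MilnorRel p q t t') :
    (1 + t) * (1 - t') * (1 + t) * p = (p - t' * t) + (t + t - t * t' * t) := by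
  have h1 : (1 + t) * p = p + t := by rw [add_mul, one_mul, h.tp]
  have h2 : (1 - t') * (p + t) = p + t - t' * t := by
    rw [sub_mul, one_mul, mul_add, h.t'p, zero_add]
  rw [mul_assoc, mul_assoc, h1, h2, add_mul, one_mul, mul_sub, mul_add, h.tp, h.tt, mul_assoc]
  abel

theorem MilnorRel.pw (h : MilnorRel p q t t') :
    p * ((1 - t) * (1 + t') * (1 - t)) = (p - t' * t) + t' := by
  have h1 : p * (1 - t) = p := by rw [mul_sub, mul_one, h.pt, sub_zero]
  have h2 : p * (1 + t') = p + t' := by rw [mul_add, mul_one, h.pt']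
  rw [← mul_assoc, ← mul_assoc, h1, h2, add_mul, h1, mul_sub, mul_one]
  abel

theorem MilnorRel.wpw (h : MilnorRel p q t t') :
    (1 + t) * (1 - t') * (1 + t) * p * ((1 - t) * (1 + t') * (1 - t)) = q + milD p q t t' := by
  have h1 : (1 + t) * (1 - t') * (1 + t) * p * ((1 - t) * (1 + t') * (1 - t)) =
      ((1 + t) * (1 - t') * (1 + t) * p) * (p * ((1 - t) * (1 + t') * (1 - t))) := by
    rw [mul_assoc _ p (p * _), ← mul_assoc p p, h.pp, mul_assoc _ p]
  rw [h1, h.wp, h.pw, milD]
  abel

theorem MilnorRel.ww (h : MilnorRel p q t t') :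
    ((1 - t) * (1 + t') * (1 - t)) * ((1 + t) * (1 - t') * (1 + t)) = 1 := by
  have h1 : (1 - t) * (1 + t) = 1 := by
    rw [sub_mul, one_mul, mul_add, mul_one, h.tt]; abel
  have h2 : (1 + t') * (1 - t') = 1 := by
    rw [add_mul, one_mul, mul_sub, mul_one, h.t't']; abel
  calc ((1 - t) * (1 + t') * (1 - t)) * ((1 + t) * (1 - t') * (1 + t))
      = (1 - t) * ((1 + t') * (((1 - t) * (1 + t)) * (1 - t'))) * (1 + t) := by
        simp only [mul_assoc]
    _ = 1 := by rw [h1, one_mul, h2, mul_one, h1]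

theorem swapMat_sq (hq : q * q = q) : swapMat q * swapMat q = 1 := by
  ext i j
  fin_cases i <;> fin_cases j <;>
    simp [swapMat, mat2, Matrix.mul_apply, Fin.sum_univ_two, mul_sub, sub_mul, hq]

theorem MilnorRel.milD_mem (h : MilnorRel p q t t') (J : TwoSidedIdeal R)
    (h0 : t' * t - p ∈ J) (h1 : t * t' - q ∈ J) : milD p q t t' ∈ J := by
  have ha : p - t' * t ∈ J := by
    have := J.neg_mem h0
    rwa [neg_sub] at this
  have hu : q * (t * t') = t * t' := by rw [← mul_assoc, h.qt]
  have hv : t * t' * q = t * t' := by rw [mul_assoc, h.t'q]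
  have hb : (t * t' - q) * (t * t' - q) = t * t' * t * t' - t * t' - t * t' + q := by
    rw [mul_sub, sub_mul, sub_mul, hu, hv, h.qq, ← mul_assoc]
    abel
  have he : milD p q t t' = ((p - t' * t) + (t + t - t * t' * t)) * (p - t' * t) +
      (p - t' * t) * t' - (t * t' - q) * (t * t' - q) := by
    rw [hb, milD, mul_add _ (p - t' * t) t', add_mul (p - t' * t) _ t', sub_mul (t + t), add_mul t t]
    abel
  rw [he]
  exact J.sub_mem (J.add_mem (J.mul_mem_left _ _ ha) (J.mul_mem_right _ _ ha))
    (J.mul_mem_left _ _ h1)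

end MilnorAux

theorem milnor_eq [Ring R] {p q t t' : R} (h : MilnorRel p q t t') :
    milnor p q t t' = e10 R + mil0 p q t t' := by
  rw [milnor, h.wpw]
  unfold mil0
  generalize milD p q t t' = D
  ext i j
  fin_cases i <;> fin_cases j <;>
    simp [swapMat, mat2, e10, Matrix.mul_apply, Fin.sum_univ_two, mul_sub, sub_mul, mul_add,
      add_mul, h.qq, mul_assoc] <;> abel

theorem milnor_idem [Ring R] {p q t t' : R} (h : MilnorRel p q t t') :
    milnor p q t t' * milnor p q t t' = milnor p q t t' := by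
  unfold milnor
  set E := (1 + t) * (1 - t') * (1 + t) * p * ((1 - t) * (1 + t') * (1 - t)) with hE
  have hEE : E * E = E := by
    calc E * E = (1 + t) * (1 - t') * (1 + t) * p *
          ((((1 - t) * (1 + t') * (1 - t)) * ((1 + t) * (1 - t') * (1 + t))) * p) *
          ((1 - t) * (1 + t') * (1 - t)) := by rw [hE]; simp only [mul_assoc]
      _ = E := by rw [h.ww, one_mul, mul_assoc _ p p, h.pp]
  have hD : mat2 E 0 0 (1 - q) * mat2 E 0 0 (1 - q) = mat2 E 0 0 (1 - q) := by
    ext i j
    fin_cases i <;> fin_cases j <;>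
      simp [mat2, Matrix.mul_apply, Fin.sum_univ_two, mul_sub, sub_mul, hEE, h.qq]
  calc swapMat q * mat2 E 0 0 (1 - q) * swapMat q * (swapMat q * mat2 E 0 0 (1 - q) * swapMat q)
      = swapMat q * (mat2 E 0 0 (1 - q) * ((swapMat q * swapMat q) * mat2 E 0 0 (1 - q))) *
        swapMat q := by simp only [mul_assoc]
    _ = _ := by rw [swapMat_sq h.qq, one_mul, hD]

theorem mil0_mem [Ring R] {p q t t' : R} (h : MilnorRel p q t t') (J : TwoSidedIdeal R)
    (h0 : t' * t - p ∈ J) (h1 : t * t' - q ∈ J) (i k : Fin 2) : mil0 p q t t' i k ∈ J := by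
  have hD := h.milD_mem J h0 h1
  have h2 := J.mul_mem_left q _ hD
  have h3 := J.mul_mem_right _ q hD
  have h4 := J.mul_mem_right _ q h2
  fin_cases i <;> fin_cases k
  · exact h4
  · exact J.sub_mem h2 h4
  · exact J.sub_mem h3 h4
  · exact J.add_mem (J.sub_mem (J.sub_mem hD h2) h3) h4

theorem e10_map [Ring R] [Ring R'] (φ : R →+* R') : (e10 R).map φ = e10 R' := by
  ext i j
  fin_cases i <;> fin_cases j <;> simp [e10, mat2]

section Index

variable [Ring R] [Algebra ℂ R] [Ring R'] [Algebra ℂ R']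

/-- The exact relations between `P`, the grading `G` and the operator `F`. -/
structure GradRel (P G F : R) : Prop where
  PP : P * P = P
  GG : G * G = 1
  GP : G * P = P * G
  GF : G * F = -(F * G)

/-- `indexMat P G F - diag(1, 0)`. -/
def index0 (P G F : R) : M2 R :=
  mil0 (evenPart P G) (evenPart P (-G)) (evenPart P (-G) * F * evenPart P G)
    (evenPart P G * F * evenPart P (-G))

omit [Algebra ℂ R] in
theorem GradRel.neg {P G F : R} (h : GradRel P G F) : GradRel P (-G) F :=
  ⟨h.PP, by rw [neg_mul_neg, h.GG], by rw [neg_mul, mul_neg, h.GP],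
    by rw [neg_mul, mul_neg, h.GF]⟩

theorem GradRel.half_sq {P G F : R} (h : GradRel P G F) :
    ((2⁻¹ : ℂ) • (1 + G)) * ((2⁻¹ : ℂ) • (1 + G)) = (2⁻¹ : ℂ) • (1 + G) := by
  have h1 : (1 + G) * (1 + G) = (2 : ℂ) • (1 + G) := by
    rw [add_mul, one_mul, mul_add, mul_one, h.GG, two_smul]; abel
  rw [smul_mul_smul_comm, h1, smul_smul]
  norm_num

theorem GradRel.half_orth {P G F : R} (h : GradRel P G F) :
    ((2⁻¹ : ℂ) • (1 + G)) * ((2⁻¹ : ℂ) • (1 + -G)) = 0 := by
  have h1 : (1 + G) * (1 + -G) = 0 := by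
    rw [add_mul, one_mul, mul_add, mul_one, mul_neg, h.GG]; abel
  rw [smul_mul_smul_comm, h1, smul_zero]

theorem GradRel.half_P {P G F : R} (h : GradRel P G F) :
    ((2⁻¹ : ℂ) • (1 + G)) * P = P * ((2⁻¹ : ℂ) • (1 + G)) := by
  rw [smul_mul_assoc, mul_smul_comm, add_mul, mul_add, one_mul, mul_one, h.GP]

theorem GradRel.half_F {P G F : R} (h : GradRel P G F) :
    ((2⁻¹ : ℂ) • (1 + G)) * F = F * ((2⁻¹ : ℂ) • (1 + -G)) := by
  rw [smul_mul_assoc, mul_smul_comm, add_mul, mul_add, one_mul, mul_one, h.GF, mul_neg]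

theorem GradRel.even_sq {P G F : R} (h : GradRel P G F) :
    evenPart P G * evenPart P G = evenPart P G := by
  unfold evenPart
  rw [mul_assoc, ← mul_assoc _ P, h.half_P, mul_assoc P, h.half_sq, ← mul_assoc, h.PP]

theorem GradRel.even_orth {P G F : R} (h : GradRel P G F) :
    evenPart P G * evenPart P (-G) = 0 := by
  unfold evenPart
  rw [mul_assoc, ← mul_assoc _ P, h.half_P, mul_assoc P, h.half_orth, mul_zero, mul_zero]

theorem milnor_param_aux {S : Type} [Ring S] {P e f F : S} (PP : P * P = P) (ee : e * e = e)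
    (ff : f * f = f) (eP : e * P = P * e) (fP : f * P = P * f) (eF : e * F = F * f)
    (fF : f * F = F * e) :
    (P * e * F * (P * f)) * (P * f * F * (P * e)) - P * e =
      e * (P * (F * F - 1) * P - P * (P * F - F * P) * F * P) * e := by
  have PP' : ∀ x, P * (P * x) = P * x := fun x => by rw [← mul_assoc, PP]
  have ff' : ∀ x, f * (f * x) = f * x := fun x => by rw [← mul_assoc, ff]
  have eP' : ∀ x, e * (P * x) = P * (e * x) := fun x => by rw [← mul_assoc, eP, mul_assoc]
  have fP' : ∀ x, f * (P * x) = P * (f * x) := fun x => by rw [← mul_assoc, fP, mul_assoc]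
  have eF' : ∀ x, e * (F * x) = F * (f * x) := fun x => by rw [← mul_assoc, eF, mul_assoc]
  have fF' : ∀ x, f * (F * x) = F * (e * x) := fun x => by rw [← mul_assoc, fF, mul_assoc]
  simp only [mul_sub, sub_mul, mul_assoc, mul_one, one_mul, PP', ff', eP', fP', eF', fF', ee]
  abel

theorem GradRel.param_one {P G F : R} (h : GradRel P G F) (J : TwoSidedIdeal R)
    (hc : P * F - F * P ∈ J) (hs : P * (F * F - 1) ∈ J) :
    (evenPart P G * F * evenPart P (-G)) * (evenPart P (-G) * F * evenPart P G) -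
        evenPart P G ∈ J := by
  have h1 := h.neg.half_F
  rw [neg_neg] at h1
  unfold evenPart
  rw [milnor_param_aux h.PP h.half_sq h.neg.half_sq h.half_P h.neg.half_P h.half_F h1]
  exact J.mul_mem_right _ _ (J.mul_mem_left _ _ (J.sub_mem (J.mul_mem_right _ _ hs)
    (J.mul_mem_right _ _ (J.mul_mem_right _ _ (J.mul_mem_left _ _ hc)))))

theorem GradRel.milnorRel {P G F : R} (h : GradRel P G F) :
    MilnorRel (evenPart P G) (evenPart P (-G)) (evenPart P (-G) * F * evenPart P G)
      (evenPart P G * F * evenPart P (-G)) := by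
  have h1 := h.neg.even_orth
  rw [neg_neg] at h1
  refine ⟨h.even_sq, h.neg.even_sq, h.even_orth, h1, ?_, ?_, ?_, ?_⟩
  · rw [← mul_assoc, ← mul_assoc, h.neg.even_sq]
  · rw [mul_assoc _ _ (evenPart P G), h.even_sq]
  · rw [← mul_assoc, ← mul_assoc, h.even_sq]
  · rw [mul_assoc _ _ (evenPart P (-G)), h.neg.even_sq]

/-- `P₊ F P₋` is a parametrix of `P₋ F P₊`. -/
theorem GradRel.parametrix {P G F : R} (h : GradRel P G F) (J : TwoSidedIdeal R)
    (hc : P * F - F * P ∈ J) (hs : P * (F * F - 1) ∈ J) :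
    (evenPart P G * F * evenPart P (-G)) * (evenPart P (-G) * F * evenPart P G) -
        evenPart P G ∈ J ∧
      (evenPart P (-G) * F * evenPart P G) * (evenPart P G * F * evenPart P (-G)) -
        evenPart P (-G) ∈ J := by
  have h1 := h.neg.param_one J hc hs
  rw [neg_neg] at h1
  exact ⟨h.param_one J hc hs, h1⟩

theorem GradRel.indexMat_eq {P G F : R} (h : GradRel P G F) :
    indexMat P G F = e10 R + index0 P G F := milnor_eq h.milnorRel

theorem GradRel.indexMat_idem {P G F : R} (h : GradRel P G F) :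
    indexMat P G F * indexMat P G F = indexMat P G F := milnor_idem h.milnorRel

theorem GradRel.index0_mem {P G F : R} (h : GradRel P G F) (J : TwoSidedIdeal R)
    (hc : P * F - F * P ∈ J) (hs : P * (F * F - 1) ∈ J) (i k : Fin 2) : index0 P G F i k ∈ J :=
  mil0_mem h.milnorRel J (h.parametrix J hc hs).1 (h.parametrix J hc hs).2 i k

/-- Naturality under nonunital homomorphisms compatible with `G` and `F`. -/
theorem index0_map (θ : R →ₙₐ[ℂ] R') {P G F : R} {G' F' : R'} (hG : ∀ a, θ (a * G) = θ a * G')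
    (hF : ∀ a, θ (a * F) = θ a * F') : (index0 P G F).map θ = index0 (θ P) G' F' := by
  have h1 : θ (evenPart P G) = evenPart (θ P) G' := by
    unfold evenPart
    rw [mul_smul_comm, mul_smul_comm, map_smul, mul_add, mul_add, mul_one, mul_one, map_add, hG]
  have h2 : θ (evenPart P (-G)) = evenPart (θ P) (-G') := by
    unfold evenPart
    rw [mul_smul_comm, mul_smul_comm, map_smul, mul_add, mul_add, mul_one, mul_one, map_add,
      mul_neg, mul_neg, map_neg, hG]
  unfold index0
  rw [mil0_map θ, map_mul θ (_ * F), map_mul θ (_ * F), hF, hF, h1, h2]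

theorem index0_fst (P G F : R × R') (i k : Fin 2) :
    (index0 P G F i k).1 = index0 P.1 G.1 F.1 i k := by
  fin_cases i <;> fin_cases k <;> rfl

theorem index0_snd (P G F : R × R') (i k : Fin 2) :
    (index0 P G F i k).2 = index0 P.2 G.2 F.2 i k := by
  fin_cases i <;> fin_cases k <;> rfl

end Index

theorem continuous_index0 {R T : Type} [NormedRing R] [NormedAlgebra ℂ R] [TopologicalSpace T]
    (P G : R) {F : T → R} (hF : Continuous F) (i k : Fin 2) :
    Continuous fun s => index0 P G (F s) i k := by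
  fin_cases i <;> fin_cases k <;> simp only [index0, mil0, mat2, milD] <;> simp <;> fun_prop

end Vale.Agent.P212
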