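import Vale.Agent.P212.K0Basic
import Vale.Agent.P212.Milnor

/-! TASK KZero: classes `[diag(1,0) + a] - [diag(1,0)]` in `K₀(A⁺)` for an ideal `j : A → B` of
its multiplier ring inside `B`.
Plan.
(0) `lift`: a matrix `x` over `B` (any finite index types) and a scalar matrix `c` with
`x - c ∈ M(range j)` determine a unique matrix over `A⁺` with first components `c` and image `x`
under `Unitization.lift j`; products of lifts are lifts. Hence (`ofMat_eqv`): if `x y = E`,
`y x = E'` in `B`, `cx cy = c`, `cy cx = c'` for the scalar parts, then `[Ẽ] = [Ẽ']`.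
(1) `conj`: let `P` be a scalar idempotent matrix, `E = P + a` idempotent, `g, g'` mutually inverse
matrices of multipliers commuting with `P`, `E' = g E g'`. Then `[E] = [E']`: put
`F = E ⊕ P`, `h = g ⊕ g'`, `u = [[E, E g' P],[0, P]]`, `l = [[E, 0],[-P g E, P]]`,
`c = u l u` (invertible in the corner `F M F`, inverses by flipping signs, and
`c ≡ [[0, g' P], [-g P, 0]]`). Then `y = h c ≡ [[0,P],[-P,0]]`, `x = c⁻¹ h⁻¹ ≡ [[0,-P],[P,0]]`,
`x y = F`, `y x = h F h⁻¹ = E' ⊕ P`; cancel `[P]` with `ofMat_fromBlocks`.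
(2) `kap_conj`: apply (1) to `E ⊕ P` on `Fin 2 ⊕ Fin 2` and
`g = [[s, 1 - s s'], [0, s']]`, `g' = [[s', 0], [1 - s s', s]]` (scalar diagonal blocks):
`g (a ⊕ 0) g' = s a s' ⊕ 0`.
(3) `kap_add`: `g = [[χ, 1-χ], [-(1-χ), χ]]` conjugates `(P + a) ⊕ (P + b)` to `(P + a + b) ⊕ P`.
(4) `K0.of_path`: close idempotents `e, e'` are conjugate by the unit `v = e' e + (1-e')(1-e) =
1 + (e' - e)(2e - 1)`; use `Vale.Agent.P089.Model.isUnit_of_small` (import
`Vale.Agent.P089.Model`) and `IsLocallyConstant.apply_eq_of_preconnectedSpace`. -/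

noncomputable section

namespace Vale.Agent.P212

variable {A B : Type} [NonUnitalRing A] [Module ℂ A] [IsAlg A] [Ring B] [Algebra ℂ B]

section Abstract

variable {S M Q : Type} [Ring S] [Ring M] [Ring Q]

/-- `S` is the pullback of `M → Q` along the scalars. -/
structure KzPull (f : S →+* ℂ) (ι : S →+* M) (τ : ℂ →+* S) (π : M →+* Q) : Prop where
  inj : ∀ s s', f s = f s' → ι s = ι s' → s = s'
  lift : ∀ m c, π m = π (ι (τ c)) → ∃ s, f s = c ∧ ι s = m
  comp : ∀ s, π (ι s) = π (ι (τ (f s)))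
  sec : ∀ c, f (τ c) = c

variable {f : S →+* ℂ} {ι : S →+* M} {τ : ℂ →+* S} {π : M →+* Q}

theorem KzPull.eqv (H : KzPull f ι τ π) {α β : Type} [Fintype α] [Fintype β]
    {e : Matrix α α S} {e' : Matrix β β S} (he : e * e = e) (he' : e' * e' = e')
    (x : Matrix α β M) (y : Matrix β α M) (cx : Matrix α β ℂ) (cy : Matrix β α ℂ)
    (hx : x.map π = ((cx.map τ).map ι).map π) (hy : y.map π = ((cy.map τ).map ι).map π)
    (h1 : x * y = e.map ι) (h2 : y * x = e'.map ι) (h3 : cx * cy = e.map f)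
    (h4 : cy * cx = e'.map f) : K0.ofMat e he = K0.ofMat e' he' := by
  choose X hX1 hX2 using fun i k => H.lift (x i k) (cx i k) (congrFun (congrFun hx i) k)
  choose Y hY1 hY2 using fun i k => H.lift (y i k) (cy i k) (congrFun (congrFun hy i) k)
  have a1 : (Matrix.of X).map f = cx := Matrix.ext hX1
  have a2 : (Matrix.of X).map ι = x := Matrix.ext hX2
  have a3 : (Matrix.of Y).map f = cy := Matrix.ext hY1
  have a4 : (Matrix.of Y).map ι = y := Matrix.ext hY2
  refine K0.ofMat_eqv he he' (Matrix.of X) (Matrix.of Y) ?_ ?_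
  · have b1 : (Matrix.of X * Matrix.of Y).map f = e.map f := by rw [Matrix.map_mul, a1, a3, h3]
    have b2 : (Matrix.of X * Matrix.of Y).map ι = e.map ι := by rw [Matrix.map_mul, a2, a4, h1]
    exact Matrix.ext fun i k => H.inj _ _ (congrFun (congrFun b1 i) k) (congrFun (congrFun b2 i) k)
  · have b1 : (Matrix.of Y * Matrix.of X).map f = e'.map f := by rw [Matrix.map_mul, a1, a3, h4]
    have b2 : (Matrix.of Y * Matrix.of X).map ι = e'.map ι := by rw [Matrix.map_mul, a2, a4, h2]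
    exact Matrix.ext fun i k => H.inj _ _ (congrFun (congrFun b1 i) k) (congrFun (congrFun b2 i) k)

open Matrix in
theorem kz_corner {α : Type} [Fintype α] {E P t t' : Matrix α α M} (hE : E * E = E)
    (hP : P * P = P) (h1 : E * t = t) (h2 : t * P = t) (h3 : P * t' = t') (h4 : t' * E = t') :
    fromBlocks (E - t * t') (-(t + t - t * t' * t)) t' (P - t' * t) *
      fromBlocks (E - t * t') (t + t - t * t' * t) (-t') (P - t' * t) = fromBlocks E 0 0 P := by
  have e1 : ∀ u u' : Matrix α α M, E * u = u → u * P = u → P * u' = u' → u' * E = u' →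
      fromBlocks (E - u * u') (u + u - u * u' * u) (-u') (P - u' * u) =
        fromBlocks E u 0 P * fromBlocks E 0 (-u') P * fromBlocks E u 0 P := by
    intro u u' b1 b2 b3 b4
    simp only [fromBlocks_multiply, Matrix.mul_zero, Matrix.zero_mul, add_zero, zero_add,
      Matrix.mul_neg, Matrix.neg_mul, Matrix.add_mul, hE, hP, b1, b2, b3, b4, Matrix.mul_assoc]
    congr 1 <;> abel
  have e2 := e1 (-t) (-t') (by simp [h1]) (by simp [h2]) (by simp [h3]) (by simp [h4])
  have e3 : fromBlocks (E - t * t') (-(t + t - t * t' * t)) t' (P - t' * t) =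
      fromBlocks E (-t) 0 P * fromBlocks E 0 t' P * fromBlocks E (-t) 0 P := by
    simp only [Matrix.neg_mul, Matrix.mul_neg, neg_neg] at e2
    rw [← e2]
    congr 1
    abel
  have u1 : fromBlocks E (-t) 0 P * fromBlocks E t 0 P = fromBlocks E 0 0 P := by
    simp [fromBlocks_multiply, hE, hP, h1, h2]
  have u2 : fromBlocks E 0 0 P * fromBlocks E 0 (-t') P = fromBlocks E 0 (-t') P := by
    simp [fromBlocks_multiply, hE, hP, h3]
  have u3 : fromBlocks E 0 t' P * fromBlocks E 0 (-t') P = fromBlocks E 0 0 P := by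
    simp [fromBlocks_multiply, hE, hP, h3, h4]
  have u4 : fromBlocks E 0 0 P * fromBlocks E t 0 P = fromBlocks E t 0 P := by
    simp [fromBlocks_multiply, hE, hP, h1]
  rw [e3, e1 t t' h1 h2 h3 h4]
  calc _ = fromBlocks E (-t) 0 P * ((fromBlocks E 0 t' P *
        ((fromBlocks E (-t) 0 P * fromBlocks E t 0 P) * fromBlocks E 0 (-t') P)) *
        fromBlocks E t 0 P) := by simp only [Matrix.mul_assoc]
    _ = _ := by rw [u1, u2, u3, u4, u1]

open Matrix in
theorem KzPull.conj (H : KzPull f ι τ π) {α : Type} [Fintype α] [DecidableEq α]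
    {e e' : Matrix α α S} (he : e * e = e) (he' : e' * e' = e') (hf : e'.map f = e.map f)
    (g g' : Matrix α α M) (hg : g * g' = 1) (hg' : g' * g = 1)
    (hP : g * ((e.map f).map τ).map ι = ((e.map f).map τ).map ι * g)
    (hc : e'.map ι = g * e.map ι * g') : K0.ofMat e he = K0.ofMat e' he' := by
  obtain ⟨p, hp⟩ : ∃ p, p = e.map f := ⟨_, rfl⟩
  have hpp : p * p = p := by rw [hp, ← Matrix.map_mul, he]
  have hq : p.map τ * p.map τ = p.map τ := by rw [← Matrix.map_mul, hpp]
  have hpf : (p.map τ).map f = p := Matrix.ext fun i k => H.sec _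
  rw [← hp] at hP hf
  obtain ⟨P, hPd⟩ : ∃ P, P = (p.map τ).map ι := ⟨_, rfl⟩
  obtain ⟨E, hEd⟩ : ∃ E, E = e.map ι := ⟨_, rfl⟩
  have hEP : E.map π = P.map π := by
    rw [hEd, hPd, hp]
    exact Matrix.ext fun i k => H.comp _
  have hPP : P * P = P := by rw [hPd, ← Matrix.map_mul, hq]
  have hEE : E * E = E := by rw [hEd, ← Matrix.map_mul, he]
  rw [← hPd] at hP
  rw [← hEd] at hc
  have hP' : g' * P = P * g' := by
    calc g' * P = g' * P * (g * g') := by rw [hg, Matrix.mul_one]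
      _ = g' * (P * g) * g' := by simp only [Matrix.mul_assoc]
      _ = (g' * g) * P * g' := by rw [← hP]; simp only [Matrix.mul_assoc]
      _ = P * g' := by rw [hg', Matrix.one_mul]
  obtain ⟨t, ht⟩ : ∃ t, t = E * g' * P := ⟨_, rfl⟩
  obtain ⟨t', ht'⟩ : ∃ t', t' = P * g * E := ⟨_, rfl⟩
  have h1 : E * t = t := by rw [ht, ← Matrix.mul_assoc, ← Matrix.mul_assoc, hEE]
  have h2 : t * P = t := by rw [ht, Matrix.mul_assoc, hPP]
  have h3 : P * t' = t' := by rw [ht', ← Matrix.mul_assoc, ← Matrix.mul_assoc, hPP]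
  have h4 : t' * E = t' := by rw [ht', Matrix.mul_assoc, hEE]
  have c1 := kz_corner hEE hPP h1 h2 h3 h4
  have c2 := kz_corner (t := -t) (t' := -t') hEE hPP (by simp [h1]) (by simp [h2]) (by simp [h3])
    (by simp [h4])
  have c3 : fromBlocks (E - t * t') (t + t - t * t' * t) (-t') (P - t' * t) *
      fromBlocks (E - t * t') (-(t + t - t * t' * t)) t' (P - t' * t) = fromBlocks E 0 0 P := by
    simp only [Matrix.neg_mul, Matrix.mul_neg, neg_neg] at c2
    rw [← c2]
    congr 2 <;> abel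
  have hh : fromBlocks g' 0 0 g * fromBlocks g 0 0 g' = 1 := by
    simp [fromBlocks_multiply, hg, hg']
  let φ : Matrix α α M →+* Matrix α α Q := π.mapMatrix
  have φE : φ E = φ P := hEP
  have φP : φ P * φ P = φ P := by rw [← map_mul, hPP]
  have φ1 : φ g * φ g' = 1 := by rw [← map_mul, hg, map_one]
  have φ2 : φ g' * φ g = 1 := by rw [← map_mul, hg', map_one]
  have φ3 : φ P * φ g = φ g * φ P := by rw [← map_mul, ← hP, map_mul]
  have φ4 : φ P * φ g' = φ g' * φ P := by rw [← map_mul, ← hP', map_mul]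
  have φt : φ t = φ g' * φ P := by rw [ht, map_mul, map_mul, φE, φ4, mul_assoc, φP]
  have φt' : φ t' = φ g * φ P := by rw [ht', map_mul, map_mul, φE, φ3, mul_assoc, φP]
  have φtt : φ t * φ t' = φ P := by
    rw [φt, φt', mul_assoc, ← mul_assoc (φ P), φ3, mul_assoc, φP, ← mul_assoc, φ2, one_mul]
  have φtt' : φ t' * φ t = φ P := by
    rw [φt, φt', mul_assoc, ← mul_assoc (φ P), φ4, mul_assoc, φP, ← mul_assoc, φ1, one_mul]
  have k1 : φ (E - t * t') = 0 := by rw [map_sub, map_mul, φE, φtt, sub_self]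
  have k2 : φ (P - t' * t) = 0 := by rw [map_sub, map_mul, φtt', sub_self]
  have k3 : φ (t + t - t * t' * t) = φ g' * φ P := by
    rw [map_sub, map_add, map_mul, map_mul, φtt, φt, ← mul_assoc, φ4, mul_assoc, φP,
      add_sub_cancel_right]
  have hb : ∀ a b c d : Matrix α α M, (fromBlocks a b c d).map π =
      fromBlocks (φ a) (φ b) (φ c) (φ d) := fun a b c d => fromBlocks_map _ _ _ _ _
  have hneg : ((-p).map τ).map ι = -P := by
    rw [hPd]
    ext i k
    simp
  have hi : ∀ u : Matrix α α S, u * u = u →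
      fromBlocks u 0 0 (p.map τ) * fromBlocks u 0 0 (p.map τ) = fromBlocks u 0 0 (p.map τ) := by
    intro u hu
    simp [fromBlocks_multiply, hu, hq]
  have main := H.eqv (hi e he) (hi e' he')
    (fromBlocks (E - t * t') (-(t + t - t * t' * t)) t' (P - t' * t) * fromBlocks g' 0 0 g)
    (fromBlocks g 0 0 g' * fromBlocks (E - t * t') (t + t - t * t' * t) (-t') (P - t' * t))
    (fromBlocks 0 (-p) p 0) (fromBlocks 0 p (-p) 0)
    (by
      rw [Matrix.map_mul, hb, hb, fromBlocks_map, fromBlocks_map, hb, hneg, ← hPd, map_neg, k1, k2,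
        k3, φt', fromBlocks_multiply]
      simp [mul_assoc, φ3, φ4, ← mul_assoc (φ g), ← mul_assoc (φ g'), φ1, φ2])
    (by
      rw [Matrix.map_mul, hb, hb, fromBlocks_map, fromBlocks_map, hb, hneg, ← hPd, map_neg, k1, k2,
        k3, φt', fromBlocks_multiply]
      simp [← mul_assoc, φ1, φ2])
    (by
      rw [Matrix.mul_assoc, ← Matrix.mul_assoc (fromBlocks g' 0 0 g), hh, Matrix.one_mul, c1,
        fromBlocks_map, ← hEd, ← hPd]
      simp)
    (by
      rw [Matrix.mul_assoc, ← Matrix.mul_assoc (fromBlocks (E - t * t') _ _ _), c3,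
        fromBlocks_map, hc, ← hPd]
      simp [fromBlocks_multiply, Matrix.mul_assoc, hP.symm, ← Matrix.mul_assoc g', hg'])
    (by
      rw [fromBlocks_map, ← hp, hpf]
      simp [fromBlocks_multiply, hpp])
    (by
      rw [fromBlocks_map, hf, hpf]
      simp [fromBlocks_multiply, hpp])
  rw [K0.ofMat_fromBlocks he hq, K0.ofMat_fromBlocks he' hq] at main
  exact add_right_cancel main

end Abstract

/-- The scalar part. -/
def kzFst (A : Type) [NonUnitalRing A] [Module ℂ A] [IsAlg A] : UnitOf A →+* ℂ :=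
  (Unitization.fstHom ℂ A).toRingHom

/-- The unital extension of `j`. -/
def kzLift (j : A →ₙₐ[ℂ] B) : UnitOf A →+* B := j.toAlgHom.toRingHom

theorem kzFst_apply (x : UnitOf A) : kzFst A x = x.fst := rfl

theorem kzLift_apply (j : A →ₙₐ[ℂ] B) (x : UnitOf A) :
    kzLift j x = algebraMap ℂ B x.fst + j x.snd := rfl

theorem kz_inj (j : A →ₙₐ[ℂ] B) (hj : Function.Injective j) {x y : UnitOf A}
    (h1 : kzFst A x = kzFst A y) (h2 : kzLift j x = kzLift j y) : x = y := by
  rw [kzFst_apply, kzFst_apply] at h1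
  rw [kzLift_apply, kzLift_apply, h1] at h2
  exact Unitization.ext h1 (hj (add_left_cancel h2))

theorem kz_mat_inj (j : A →ₙₐ[ℂ] B) (hj : Function.Injective j) {x y : M2 (UnitOf A)}
    (h1 : x.map (kzFst A) = y.map (kzFst A)) (h2 : x.map (kzLift j) = y.map (kzLift j)) : x = y :=
  Matrix.ext fun i k => kz_inj j hj (congrFun (congrFun h1 i) k) (congrFun (congrFun h2 i) k)

theorem kz_e10_map {C D : Type} [Ring C] [Ring D] (φ : C →+* D) : (e10 C).map φ = e10 D := by
  ext i k
  fin_cases i <;> fin_cases k <;> simp [e10, mat2]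

theorem kz_unitMat_map {D : Type} [Ring D] (φ : UnitOf A →+* D) (a : M2 A) :
    (unitMat a).map φ = e10 D + a.map fun x => φ (Unitization.inr x) := by
  rw [← kz_e10_map φ]
  ext i k
  simp [unitMat]

theorem kz_unitMat_fst (a : M2 A) : (unitMat a).map (kzFst A) = e10 ℂ := by
  rw [kz_unitMat_map]
  ext i k
  simp [kzFst_apply]

theorem kz_unitMat_lift (j : A →ₙₐ[ℂ] B) (a : M2 A) :
    (unitMat a).map (kzLift j) = e10 B + a.map j := by
  rw [kz_unitMat_map]
  ext i k
  simp [kzLift_apply]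

theorem unitMat_idem (j : A →ₙₐ[ℂ] B) (hj : Function.Injective j) (a : M2 A)
    (h : (e10 B + a.map j) * (e10 B + a.map j) = e10 B + a.map j) :
    unitMat a * unitMat a = unitMat a := by
  refine kz_mat_inj j hj ?_ ?_
  · rw [Matrix.map_mul, kz_unitMat_fst]
    exact (idem10 ℂ).idem
  · rw [Matrix.map_mul, kz_unitMat_lift]
    exact h

theorem idem_of_unitMat (j : A →ₙₐ[ℂ] B) (a : M2 A)
    (h : unitMat a * unitMat a = unitMat a) :
    (e10 B + a.map j) * (e10 B + a.map j) = e10 B + a.map j := by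
  rw [← kz_unitMat_lift, ← Matrix.map_mul, h]

/-- The class `[diag(1,0) + a] - [diag(1,0)]`. -/
def kap (a : M2 A) (h : unitMat a * unitMat a = unitMat a) :
    K0 (UnitOf A) :=
  K0.diff ⟨2, unitMat a, h⟩ (idem10 _)

/-- `g` is a multiplier of `range j`. -/
def IsMult (j : A →ₙₐ[ℂ] B) (g : B) : Prop :=
  ∀ a, (∃ b, j b = g * j a) ∧ ∃ b, j b = j a * g

/-- The ring of multipliers. -/
def kzMult (j : A →ₙₐ[ℂ] B) : Subring B where
  carrier := {g | IsMult j g}
  mul_mem' := by
    intro g g' hg hg' a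
    obtain ⟨⟨b, hb⟩, -⟩ := hg' a
    obtain ⟨⟨c, hc⟩, -⟩ := hg b
    obtain ⟨-, b', hb'⟩ := hg a
    obtain ⟨-, c', hc'⟩ := hg' b'
    exact ⟨⟨c, by rw [hc, hb, mul_assoc]⟩, c', by rw [hc', hb', mul_assoc]⟩
  one_mem' a := ⟨⟨a, (one_mul _).symm⟩, a, (mul_one _).symm⟩
  add_mem' := by
    intro g g' hg hg' a
    obtain ⟨⟨b, hb⟩, c, hc⟩ := hg a
    obtain ⟨⟨b', hb'⟩, c', hc'⟩ := hg' a
    exact ⟨⟨b + b', by rw [map_add, hb, hb', add_mul]⟩, c + c', by rw [map_add, hc, hc', mul_add]⟩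
  zero_mem' a := ⟨⟨0, by simp⟩, 0, by simp⟩
  neg_mem' := by
    intro g hg a
    obtain ⟨⟨b, hb⟩, c, hc⟩ := hg a
    exact ⟨⟨-b, by rw [map_neg, hb, neg_mul]⟩, -c, by rw [map_neg, hc, mul_neg]⟩

theorem kzLift_mem (j : A →ₙₐ[ℂ] B) (x : UnitOf A) : kzLift j x ∈ kzMult j := by
  intro a
  refine ⟨⟨x.fst • a + x.snd * a, ?_⟩, x.fst • a + a * x.snd, ?_⟩
  · rw [kzLift_apply, map_add, map_smul, map_mul, add_mul, Algebra.smul_def]
  · rw [kzLift_apply, map_add, map_smul, map_mul, mul_add, Algebra.smul_def, Algebra.commutes]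

/-- The unitization inside the multipliers. -/
def kzIota (j : A →ₙₐ[ℂ] B) : UnitOf A →+* kzMult j := (kzLift j).codRestrict _ (kzLift_mem j)

/-- The ideal inside the multipliers. -/
def kzJ (j : A →ₙₐ[ℂ] B) (a : A) : kzMult j := kzIota j (Unitization.inr a)

theorem kzJ_val (j : A →ₙₐ[ℂ] B) (a : A) : (kzJ j a : B) = j a := by
  change kzLift j _ = _
  simp [kzLift_apply]

theorem kzJ_zero (j : A →ₙₐ[ℂ] B) : kzJ j 0 = 0 := by simp [kzJ]

/-- Congruence modulo the range of `j`. -/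
def kzCon (j : A →ₙₐ[ℂ] B) : RingCon (kzMult j) where
  r x y := ∃ a, j a = x.1 - y.1
  iseqv :=
    ⟨fun x => ⟨0, by simp⟩, fun ⟨a, ha⟩ => ⟨-a, by rw [map_neg, ha, neg_sub]⟩,
      fun ⟨a, ha⟩ ⟨b, hb⟩ => ⟨a + b, by rw [map_add, ha, hb, sub_add_sub_cancel]⟩⟩
  mul' := by
    rintro w x y z ⟨a, ha⟩ ⟨b, hb⟩
    obtain ⟨-, c, hc⟩ := y.2 a
    obtain ⟨⟨d, hd⟩, -⟩ := x.2 b
    refine ⟨c + d, ?_⟩
    rw [map_add, hc, hd, ha, hb, Subring.coe_mul, Subring.coe_mul]
    noncomm_ring
  add' := by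
    rintro w x y z ⟨a, ha⟩ ⟨b, hb⟩
    refine ⟨a + b, ?_⟩
    rw [map_add, ha, hb, Subring.coe_add, Subring.coe_add]
    abel

theorem kz_pull (j : A →ₙₐ[ℂ] B) (hj : Function.Injective j) :
    KzPull (kzFst A) (kzIota j) (algebraMap ℂ (UnitOf A)) (kzCon j).mk' := by
  have hs : ∀ c : ℂ, (kzIota j (algebraMap ℂ (UnitOf A) c) : B) = algebraMap ℂ B c := fun c =>
    j.toAlgHom.commutes c
  refine ⟨fun s s' h1 h2 => kz_inj j hj h1 (congrArg Subtype.val h2), fun m c h => ?_,
    fun s => ?_, fun c => (Unitization.fstHom ℂ A).commutes c⟩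
  · obtain ⟨a, ha⟩ := (kzCon j).eq.1 h
    refine ⟨Unitization.inl c + Unitization.inr a, by simp [kzFst_apply], Subtype.ext ?_⟩
    change kzLift j _ = _
    rw [hs] at ha
    simp [kzLift_apply, ha]
  · refine (kzCon j).eq.2 ⟨s.snd, ?_⟩
    rw [hs]
    change _ = kzLift j s - _
    rw [kzLift_apply, kzFst_apply, add_sub_cancel_left]

theorem kz_unitMat_zero : unitMat (0 : M2 A) = e10 (UnitOf A) := by
  ext1 i k
  simp [unitMat]

theorem kz_zero_idem : unitMat (0 : M2 A) * unitMat 0 = unitMat 0 := by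
  rw [kz_unitMat_zero]
  exact (idem10 _).idem

theorem kz_kap_eq (a : M2 A) (h : unitMat a * unitMat a = unitMat a) :
    kap a h = K0.ofMat (unitMat a) h - K0.of (idem10 _) := by
  rw [kap, K0.diff_eq, ← K0.ofMat_idem]

theorem kz_kap_zero : kap (0 : M2 A) kz_zero_idem = 0 := by
  rw [kap, K0.diff_eq, sub_eq_zero]
  congr 1
  simp only [idem10, kz_unitMat_zero]

theorem kz_scalar_e10 {C : Type} [Ring C] (u : C) :
    Matrix.scalar (Fin 2) u * e10 C = e10 C * Matrix.scalar (Fin 2) u := by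
  ext i k
  fin_cases i <;> fin_cases k <;> simp [e10, mat2]

open Matrix in
theorem kz_two (j : A →ₙₐ[ℂ] B) (hj : Function.Injective j) {a a' b b' : M2 A}
    (ha : unitMat a * unitMat a = unitMat a) (ha' : unitMat a' * unitMat a' = unitMat a')
    (hb : unitMat b * unitMat b = unitMat b) (hb' : unitMat b' * unitMat b' = unitMat b')
    (g1 g2 g3 g4 h1 h2 h3 h4 : kzMult j)
    (e1 : g1 * h1 + g2 * h3 = 1) (e2 : g1 * h2 + g2 * h4 = 0) (e3 : g3 * h1 + g4 * h3 = 0)
    (e4 : g3 * h2 + g4 * h4 = 1) (f1 : h1 * g1 + h2 * g3 = 1) (f2 : h1 * g2 + h2 * g4 = 0)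
    (f3 : h3 * g1 + h4 * g3 = 0) (f4 : h3 * g2 + h4 * g4 = 1)
    (hc : ∀ i k, kzJ j (b i k) = g1 * kzJ j (a i k) * h1 + g2 * kzJ j (a' i k) * h3 ∧
      0 = g1 * kzJ j (a i k) * h2 + g2 * kzJ j (a' i k) * h4 ∧
      0 = g3 * kzJ j (a i k) * h1 + g4 * kzJ j (a' i k) * h3 ∧
      kzJ j (b' i k) = g3 * kzJ j (a i k) * h2 + g4 * kzJ j (a' i k) * h4) :
    kap a ha + kap a' ha' = kap b hb + kap b' hb' := by
  have hi : ∀ {u v : M2 (UnitOf A)}, u * u = u → v * v = v →
      fromBlocks u 0 0 v * fromBlocks u 0 0 v = fromBlocks u 0 0 v := by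
    intro u v hu hv
    simp [fromBlocks_multiply, hu, hv]
  let sc := Matrix.scalar (α := kzMult j) (Fin 2)
  have hf : ∀ u v : M2 A, (fromBlocks (unitMat u) 0 0 (unitMat v)).map (kzFst A) =
      fromBlocks (e10 ℂ) 0 0 (e10 ℂ) := by
    intro u v
    rw [fromBlocks_map, kz_unitMat_fst, kz_unitMat_fst]
    simp
  have hl : ∀ u v : M2 A, (fromBlocks (unitMat u) 0 0 (unitMat v)).map (kzIota j) =
      fromBlocks (e10 _) 0 0 (e10 _) + fromBlocks (u.map (kzJ j)) 0 0 (v.map (kzJ j)) := by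
    intro u v
    rw [fromBlocks_map, kz_unitMat_map, kz_unitMat_map, fromBlocks_add]
    simp only [Matrix.map_zero _ (map_zero _), add_zero]
    rfl
  have hg : fromBlocks (sc g1) (sc g2) (sc g3) (sc g4) *
      fromBlocks (sc h1) (sc h2) (sc h3) (sc h4) = 1 := by
    simp only [fromBlocks_multiply, ← map_mul, ← map_add, e1, e2, e3, e4, map_one, map_zero,
      fromBlocks_one]
  have hg' : fromBlocks (sc h1) (sc h2) (sc h3) (sc h4) *
      fromBlocks (sc g1) (sc g2) (sc g3) (sc g4) = 1 := by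
    simp only [fromBlocks_multiply, ← map_mul, ← map_add, f1, f2, f3, f4, map_one, map_zero,
      fromBlocks_one]
  have hP : fromBlocks (sc g1) (sc g2) (sc g3) (sc g4) * fromBlocks (e10 _) 0 0 (e10 _) =
      fromBlocks (e10 _) 0 0 (e10 _) * fromBlocks (sc g1) (sc g2) (sc g3) (sc g4) := by
    simp only [fromBlocks_multiply, Matrix.mul_zero, Matrix.zero_mul, add_zero, zero_add, sc,
      kz_scalar_e10]
  have main := (kz_pull j hj).conj (hi ha ha') (hi hb hb') (by rw [hf, hf]) _ _ hg hg'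
    (by
      rw [hf, fromBlocks_map, fromBlocks_map, kz_e10_map, kz_e10_map]
      simpa only [Matrix.map_zero _ (map_zero _)] using hP)
    (by
      rw [hl, hl, Matrix.mul_add, Matrix.add_mul, hP, Matrix.mul_assoc (fromBlocks (e10 _) _ _ _),
        hg, Matrix.mul_one]
      congr 1
      simp only [fromBlocks_multiply, Matrix.mul_zero, add_zero, zero_add]
      congr 1 <;> ext1 i k <;>
        simp only [sc, Matrix.scalar_apply, Matrix.add_apply, Matrix.mul_diagonal,
          Matrix.diagonal_mul, Matrix.map_apply, Matrix.zero_apply]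
      exacts [(hc i k).1, (hc i k).2.1, (hc i k).2.2.1, (hc i k).2.2.2])
  rw [K0.ofMat_fromBlocks ha ha', K0.ofMat_fromBlocks hb hb'] at main
  simp only [kz_kap_eq]
  rw [sub_add_sub_comm, sub_add_sub_comm, main]

theorem kap_conj (j : A →ₙₐ[ℂ] B) (hj : Function.Injective j) {s s' : B} (hs : IsMult j s)
    (hs' : IsMult j s') (h : s' * s = 1) {a b : M2 A}
    (ha : unitMat a * unitMat a = unitMat a) (hb : unitMat b * unitMat b = unitMat b)
    (hab : ∀ i k, j (b i k) = s * j (a i k) * s') : kap b hb = kap a ha := by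
  obtain ⟨u, hu⟩ : ∃ u : kzMult j, u = ⟨s, hs⟩ := ⟨_, rfl⟩
  obtain ⟨v, hv⟩ : ∃ v : kzMult j, v = ⟨s', hs'⟩ := ⟨_, rfl⟩
  have hvu : v * u = 1 := by
    rw [hu, hv]
    exact Subtype.ext h
  have a1 : (1 - u * v) * u = 0 := by rw [sub_mul, one_mul, mul_assoc, hvu, mul_one, sub_self]
  have a2 : v * (1 - u * v) = 0 := by rw [mul_sub, mul_one, ← mul_assoc, hvu, one_mul, sub_self]
  have a3 : (1 - u * v) * (1 - u * v) = 1 - u * v := by
    rw [mul_sub, mul_one, ← mul_assoc, a1, zero_mul, sub_zero]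
  have key := kz_two j hj ha kz_zero_idem hb kz_zero_idem u (1 - u * v) 0 v v 0 (1 - u * v) u
    (by rw [a3]; abel) (by simp [a1]) (by simp [a2]) (by simp [hvu])
    (by simp [hvu]) (by simp [a2]) (by simp [a1]) (by rw [a3]; abel)
    (fun i k => by
      refine ⟨?_, by simp [kzJ_zero], by simp [kzJ_zero], by simp [kzJ_zero]⟩
      simp only [Matrix.zero_apply, kzJ_zero, mul_zero, zero_mul, add_zero]
      refine Subtype.ext ?_
      rw [Subring.coe_mul, Subring.coe_mul, kzJ_val, kzJ_val, hu, hv]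
      exact hab i k)
  rw [kz_kap_zero, add_zero, add_zero] at key
  exact key.symm

theorem kap_add (j : A →ₙₐ[ℂ] B) (hj : Function.Injective j) {χ : B} (hχ : IsMult j χ)
    (hχ2 : χ * χ = χ) {a b : M2 A}
    (ha : unitMat a * unitMat a = unitMat a) (hb : unitMat b * unitMat b = unitMat b)
    (hc : unitMat (a + b) * unitMat (a + b) = unitMat (a + b))
    (h1 : ∀ i k, χ * j (a i k) * χ = j (a i k))
    (h2 : ∀ i k, (1 - χ) * j (b i k) * (1 - χ) = j (b i k)) :
    kap (a + b) hc = kap a ha + kap b hb := by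
  obtain ⟨u, hu⟩ : ∃ u : kzMult j, u = ⟨χ, hχ⟩ := ⟨_, rfl⟩
  have huu : u * u = u := by
    rw [hu]
    exact Subtype.ext hχ2
  have a1 : u * (1 - u) = 0 := by rw [mul_sub, mul_one, huu, sub_self]
  have a2 : (1 - u) * u = 0 := by rw [sub_mul, one_mul, huu, sub_self]
  have a3 : (1 - u) * (1 - u) = 1 - u := by rw [mul_sub, mul_one, a2, sub_zero]
  have key := kz_two j hj ha hb hc kz_zero_idem u (1 - u) (-(1 - u)) u u (-(1 - u)) (1 - u) u
    (by rw [huu, a3]; abel) (by rw [mul_neg, a1, a2]; simp) (by rw [neg_mul, a1, a2]; simp)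
    (by rw [neg_mul_neg, huu, a3]; abel) (by rw [neg_mul_neg, huu, a3]; abel)
    (by rw [neg_mul, a1, a2]; simp) (by rw [mul_neg, a1, a2]; simp) (by rw [huu, a3]; abel)
    (fun i k => by
      have b1 : u * kzJ j (a i k) * u = kzJ j (a i k) := by
        refine Subtype.ext ?_
        rw [Subring.coe_mul, Subring.coe_mul, kzJ_val, hu]
        exact h1 i k
      have b2 : (1 - u) * kzJ j (b i k) * (1 - u) = kzJ j (b i k) := by
        refine Subtype.ext ?_
        rw [Subring.coe_mul, Subring.coe_mul, kzJ_val, hu]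
        exact h2 i k
      have b3 : kzJ j (a i k) * (1 - u) = 0 := by rw [← b1, mul_assoc, a1, mul_zero]
      have b4 : (1 - u) * kzJ j (a i k) = 0 := by
        rw [← b1, ← mul_assoc, ← mul_assoc, a2, zero_mul, zero_mul]
      have b5 : kzJ j (b i k) * u = 0 := by rw [← b2, mul_assoc, a2, mul_zero]
      have b6 : u * kzJ j (b i k) = 0 := by
        rw [← b2, ← mul_assoc, ← mul_assoc, a1, zero_mul, zero_mul]
      refine ⟨?_, ?_, ?_, ?_⟩
      · rw [b1, b2]
        simp [kzJ]
      · rw [mul_neg, mul_assoc, b3, mul_assoc, b5]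
        simp
      · rw [neg_mul, b4, b6]
        simp
      · rw [neg_mul, b4, b6]
        simp [kzJ_zero])
  rw [kz_kap_zero, add_zero] at key
  exact key.symm

/-- The image of `kap` under a unital ring homomorphism. -/
theorem map_kap {C : Type} [Ring C] (Φ : UnitOf A →+* C) (a : M2 A)
    (h : unitMat a * unitMat a = unitMat a)
    (h' : (unitMat a).map Φ * (unitMat a).map Φ = (unitMat a).map Φ) :
    K0.map Φ (kap a h) = K0.diff ⟨2, (unitMat a).map Φ, h'⟩ (idem10 C) := by
  rw [kap, K0.diff_eq, K0.diff_eq, map_sub, K0.map_of, K0.map_of]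
  congr 2
  simp only [Idem.map, idem10, kz_e10_map]

theorem kz_isUnit_of_small {C I : Type} [NormedRing C] [CompleteSpace C] [Fintype I]
    [DecidableEq I] (z : Matrix I I C) (h : ∀ a b, ‖z a b‖ ≤ 1 / (Fintype.card I + 1)) :
    IsUnit (1 - z) := by
  let inst : NormedRing (Matrix I I C) := Matrix.linftyOpNormedRing
  have hc : @CompleteSpace (Matrix I I C) inst.toMetricSpace.toUniformSpace :=
    inferInstanceAs (CompleteSpace (I → I → C))
  refine isUnit_one_sub_of_norm_lt_one ?_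
  have h1 : ((Finset.univ : Finset I).sup fun i => ∑ j, ‖z i j‖₊ : NNReal) < 1 := by
    rw [Finset.sup_lt_iff (by simp)]
    intro i _
    rw [← NNReal.coe_lt_coe]
    push_cast
    refine lt_of_le_of_lt (Finset.sum_le_sum fun j _ => h i j) ?_
    rw [Finset.sum_const, Finset.card_univ, nsmul_eq_mul, mul_one_div, div_lt_one (by positivity)]
    exact lt_add_one _
  exact (Matrix.linfty_opNorm_def z).trans_lt (by exact_mod_cast h1)

/-- Homotopy invariance of `K₀` of a Banach ring. -/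
theorem K0.of_path {C : Type} [NormedRing C] [CompleteSpace C] {n : ℕ}
    (E : ℝ → Matrix (Fin n) (Fin n) C) (hE : ∀ i k, Continuous fun s => E s i k)
    (h : ∀ s, E s * E s = E s) : K0.of ⟨n, E 0, h 0⟩ = K0.of ⟨n, E 1, h 1⟩ := by
  have hlc : IsLocallyConstant fun s => K0.of (⟨n, E s, h s⟩ : Idem C) := by
    rw [IsLocallyConstant.iff_eventually_eq]
    intro s0
    have hz : ∀ i k, Continuous fun s => ((E s0 - E s) * (E s0 + E s0 - 1)) i k := by
      intro i k
      simp only [Matrix.mul_apply, Matrix.sub_apply]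
      exact continuous_finsetSum _ fun l _ => (continuous_const.sub (hE i l)).mul continuous_const
    have hev : ∀ᶠ s in nhds s0, ∀ i k,
        ‖((E s0 - E s) * (E s0 + E s0 - 1)) i k‖ ≤ 1 / (Fintype.card (Fin n) + 1) := by
      refine Filter.eventually_all.2 fun i => Filter.eventually_all.2 fun k => ?_
      refine ((hz i k).norm.continuousAt.eventually_lt continuousAt_const ?_).mono fun _ => le_of_lt
      simp only [sub_self, Matrix.zero_mul, Matrix.zero_apply, norm_zero]
      positivity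
    refine hev.mono fun s hs => ?_
    obtain ⟨v, hv⟩ := kz_isUnit_of_small _ hs
    have h1 : v.val * E s0 = E s * v.val := by
      have a1 := h s
      have a2 := h s0
      rw [hv]
      simp only [mul_sub, sub_mul, mul_add, add_mul, mul_one, one_mul, mul_assoc, a2,
        ← mul_assoc (E s) (E s), a1]
      abel
    refine K0.of_eqv ⟨v.val * E s0, E s0 * v.inv, ?_, ?_⟩
    · change v.val * E s0 * (E s0 * v.inv) = E s
      rw [mul_assoc, ← mul_assoc (E s0), h s0, ← mul_assoc, h1, mul_assoc, v.val_inv, mul_one]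
    · change E s0 * v.inv * (v.val * E s0) = E s0
      rw [mul_assoc, ← mul_assoc v.inv, v.inv_val, one_mul, h s0]
  exact hlc.apply_eq_of_preconnectedSpace 0 1

end Vale.Agent.P212
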