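import Vale.Agent.P212.RepBound
import Vale.Agent.P212.KZero

/-! TASK IndexOp: the covering projection and the index idempotent of a cycle.
Plan. `ev x ∘ cover π = π (√t_x)`, so `entry (V V*) x y = π(√t_x) ∘ (ev y ∘ V)* = π(√t_x √t_y)`
(`adjoint_ev`, `√t_y` is self adjoint). `√t_x √t_y = 0` if `edist x y > r`. For `P * P = P` use
`entry_mul_left` with `s = ballF x r` and the pointwise identity
`∑_{z ∈ ballF x r} √t_x √t_z √t_z √t_y = √t_x √t_y` (`Rips.sum_eq_one`). The congruences are
checked on entries with `entry_ampl_mul`, `entry_mul_ampl`. To get `index0_isRoe` work in the ring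
`propAlg X H` with the ideal `roeIdeal X H` (`GradRel.index0_mem`) and transport by `index0_map`
along the inclusion; the same trick with the propagation bound gives `propLE_index0`
(unfold `index0, mil0, milD, evenPart`, use `PropLE.mul/add/sub/smul/mono`; every monomial has at
most `30` factors `P`). -/

noncomputable section

open scoped ZeroAtInfty

namespace Vale.Agent.P212

variable {X H : Type} [PseudoEMetricSpace X] [BddGeom X] [NormedAddCommGroup H]
  [InnerProductSpace ℂ H] [CompleteSpace H] {r : ℕ}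

@[simp] theorem sqrtCoord_apply (x : X) (μ : Rips X r) : sqrtCoord r x μ = Rips.sqrtAt x μ := rfl

theorem entry_coverProj (π : C0Rep (Rips X r) H) (x y : X) :
    entry (coverProj π) x y = π (sqrtCoord r x * sqrtCoord r y) := by
  have h1 : ∀ z : X, (ev z).comp (column π (sumSqLe_sqrtCoord r)) = π (sqrtCoord r z) :=
    fun z => ContinuousLinearMap.ext fun _ => rfl
  have h2 : star (sqrtCoord r y) = sqrtCoord r y :=
    ZeroAtInftyContinuousMap.ext fun μ => Rips.star_sqrtAt y μ
  have h3 : (ContinuousLinearMap.adjoint (column π (sumSqLe_sqrtCoord r))).comp (sing y) =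
      π (sqrtCoord r y) := by
    rw [← adjoint_ev, ← ContinuousLinearMap.adjoint_comp, h1,
      ← ContinuousLinearMap.star_eq_adjoint, ← map_star, h2]
  rw [map_mul, ← h3, ← h1]
  rfl

theorem propLE_coverProj (π : C0Rep (Rips X r) H) :
    PropLE (coverProj π) r := fun x y h => by
  have h1 : sqrtCoord r x * sqrtCoord r y = 0 := ZeroAtInftyContinuousMap.ext fun μ => by
    change Rips.sqrtAt x μ * Rips.sqrtAt y μ = 0
    by_contra hne
    obtain ⟨h2, h3⟩ := mul_ne_zero_iff.1 hne
    exact absurd (μ.diam x y (mt Rips.sqrtAt_eq_zero.2 h2) (mt Rips.sqrtAt_eq_zero.2 h3))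
      (not_le.2 h)
  rw [entry_coverProj, h1, map_zero]

theorem indexOp_c0_sum {Ω ι : Type} [TopologicalSpace Ω] (s : Finset ι) (f : ι → C0 Ω) (ω : Ω) :
    (∑ i ∈ s, f i) ω = ∑ i ∈ s, f i ω := by
  classical
  induction s using Finset.induction_on with
  | empty => rfl
  | insert a s ha ih => rw [Finset.sum_insert ha, Finset.sum_insert ha, ← ih]; rfl

theorem indexOp_cover_idem (π : C0Rep (Rips X r) H) :
    coverProj π * coverProj π = coverProj π := by
  refine entry_ext fun x y => ?_
  rw [entry_mul_left _ _ x y (ballF x r) fun z hz =>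
    propLE_coverProj π x z (not_le.1 fun h => hz (mem_ballF.2 h))]
  simp only [entry_coverProj, ← map_mul, ← map_sum]
  refine congrArg π (ZeroAtInftyContinuousMap.ext fun μ => ?_)
  rw [indexOp_c0_sum]
  change ∑ z ∈ ballF x r, Rips.sqrtAt x μ * Rips.sqrtAt z μ * (Rips.sqrtAt z μ * Rips.sqrtAt y μ) =
    Rips.sqrtAt x μ * Rips.sqrtAt y μ
  have h1 : ∀ z, Rips.sqrtAt x μ * Rips.sqrtAt z μ * (Rips.sqrtAt z μ * Rips.sqrtAt y μ) =
      Rips.sqrtAt x μ * Rips.sqrtAt y μ * (μ.t z : ℂ) := fun z => by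
    rw [← Rips.sqrtAt_mul_self]; ring
  simp only [h1, ← Finset.mul_sum]
  by_cases hx : μ.t x = 0
  · rw [Rips.sqrtAt_eq_zero.2 hx, zero_mul, zero_mul]
  · rw [← Complex.ofReal_sum, μ.sum_eq_one _ fun z hz => mem_ballF.2 (μ.diam x z hx hz),
      Complex.ofReal_one, mul_one]

theorem gradRel_cover {π : C0Rep (Rips X r) H} {γ F : H →L[ℂ] H}
    (h : IsFredholmModule (compacts H) π γ F) :
    GradRel (coverProj π) (ampl X γ) (ampl X F) := by
  refine ⟨indexOp_cover_idem π, ?_, entry_ext fun x y => ?_, ?_⟩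
  · rw [← amplHom_apply, ← map_mul, h.grading_sq, map_one]
  · rw [entry_ampl_mul, entry_mul_ampl, entry_coverProj]
    exact h.even_π _
  · rw [← amplHom_apply, ← amplHom_apply, ← map_mul, ← map_mul, h.odd_F, map_neg]

/-- The inclusion of the finite propagation operators. -/
def indexOpVal (X H : Type) [PseudoEMetricSpace X] [NormedAddCommGroup H]
    [InnerProductSpace ℂ H] [CompleteSpace H] : propAlg X H →ₙₐ[ℂ] Op (L2 X H) (L2 X H) where
  toFun a := a.1
  map_smul' _ _ := rfl
  map_zero' := rfl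
  map_add' _ _ := rfl
  map_mul' _ _ := rfl

theorem index0_isRoe {π : C0Rep (Rips X r) H} {γ F : H →L[ℂ] H}
    (h : IsFredholmModule (compacts H) π γ F) (i k : Fin 2) :
    IsRoe (index0 (coverProj π) (ampl X γ) (ampl X F) i k) := by
  let P' : propAlg X H := ⟨coverProj π, r, propLE_coverProj π⟩
  let G' : propAlg X H := ⟨ampl X γ, 0, PropLE.ampl γ 0⟩
  let F' : propAlg X H := ⟨ampl X F, 0, PropLE.ampl F 0⟩
  have h0 := gradRel_cover h
  have h1 : GradRel P' G' F' :=
    ⟨Subtype.ext h0.PP, Subtype.ext h0.GG, Subtype.ext h0.GP, Subtype.ext h0.GF⟩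
  have h2 : P' * F' - F' * P' ∈ roeIdeal X H := by
    refine mem_roeIdeal.2 ⟨fun x y => ?_, (P' * F' - F' * P').2⟩
    change entry (coverProj π * ampl X F - ampl X F * coverProj π) x y ∈ _
    rw [entry_sub, entry_ampl_mul, entry_mul_ampl, entry_coverProj]
    exact h.comm_F _
  have h3 : P' * (F' * F' - 1) ∈ roeIdeal X H := by
    refine mem_roeIdeal.2 ⟨fun x y => ?_, (P' * (F' * F' - 1)).2⟩
    have h4 : ampl X F * ampl X F - 1 = ampl X (F * F - 1) := by
      rw [← amplHom_apply, ← amplHom_apply, map_sub, map_mul, map_one]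
    change entry (coverProj π * (ampl X F * ampl X F - 1)) x y ∈ _
    rw [h4, entry_mul_ampl, entry_coverProj]
    exact h.sq_F _
  have h4 := mem_roeIdeal.1 (h1.index0_mem _ h2 h3 i k)
  have h5 := index0_map (indexOpVal X H) (P := P') (G := G') (F := F') (G' := ampl X γ)
    (F' := ampl X F) (fun _ => rfl) (fun _ => rfl)
  have h6 : (index0 P' G' F' i k).1 = index0 (coverProj π) (ampl X γ) (ampl X F) i k :=
    congrFun (congrFun h5 i) k
  rwa [h6] at h4

omit [BddGeom X] [CompleteSpace H] in
theorem indexOp_prop_mil0 {p q t t' : Op (L2 X H) (L2 X H)} (hp : PropLE p r) (hq : PropLE q r)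
    (ht : PropLE t (2 * r)) (ht' : PropLE t' (2 * r)) (i k : Fin 2) :
    PropLE (mil0 p q t t' i k) (30 * r) := by
  have h1 : PropLE (p - t' * t) (4 * r) := (hp.mono (by omega)).sub ((ht'.mul ht).mono (by omega))
  have h2 : PropLE (t + t - t * t' * t) (6 * r) :=
    ((ht.add ht).mono (by omega)).sub (((ht.mul ht').mul ht).mono (by omega))
  have hD : PropLE (milD p q t t') (10 * r) :=
    ((((h1.mono (by omega)).add h2).mul (h1.add (ht'.mono (by omega)))).mono (by omega)).sub
      (hq.mono (by omega))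
  have a1 : PropLE (milD p q t t') (30 * r) := hD.mono (by omega)
  have a2 : PropLE (q * milD p q t t') (30 * r) := (hq.mul hD).mono (by omega)
  have a3 : PropLE (milD p q t t' * q) (30 * r) := (hD.mul hq).mono (by omega)
  have a4 : PropLE (q * milD p q t t' * q) (30 * r) := ((hq.mul hD).mul hq).mono (by omega)
  fin_cases i <;> fin_cases k
  · exact a4
  · exact a2.sub a4
  · exact a3.sub a4
  · exact ((a1.sub a2).sub a3).add a4

omit [BddGeom X] [CompleteSpace H] in
theorem indexOp_prop_even {P G : Op (L2 X H) (L2 X H)} (hP : PropLE P r) (hG : PropLE G 0) :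
    PropLE (evenPart P G) r :=
  hP.mul (((PropLE.one 0).add hG).smul _)

theorem propLE_index0 (π : C0Rep (Rips X r) H) (γ F : H →L[ℂ] H) (i k : Fin 2) :
    PropLE (index0 (coverProj π) (ampl X γ) (ampl X F) i k) (30 * r) := by
  have hp := indexOp_prop_even (propLE_coverProj π) (PropLE.ampl γ 0)
  have hq := indexOp_prop_even (propLE_coverProj π) (PropLE.ampl γ 0).neg
  exact indexOp_prop_mil0 hp hq (((hq.mul (PropLE.ampl F 0)).mul hp).mono (by omega))
    (((hp.mul (PropLE.ampl F 0)).mul hq).mono (by omega)) i k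

theorem indexOp_sub (z : Cycle0 (Rips X r) H) (i k : Fin 2) :
    indexOp z i k - e10 _ i k = index0 (coverProj z.π) (ampl X z.γ) (ampl X z.F) i k := by
  rw [indexOp, indexMatOp, (gradRel_cover z.fredholm).indexMat_eq, Matrix.add_apply,
    add_sub_cancel_left]

theorem diffMem_indexOp_aux (z : Cycle0 (Rips X r) H) : DiffMem (roeAlg X H) (indexOp z) := by
  intro i k
  rw [indexOp_sub]; exact index0_isRoe z.fredholm i k

/-- The matrix `indexOp z - diag(1, 0)`, which has entries in `ℂ[X]`. -/
def indexRoe (z : Cycle0 (Rips X r) H) : M2 (roeAlg X H) :=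
  fun i k => ⟨indexOp z i k - e10 _ i k, diffMem_indexOp_aux z i k⟩

theorem indexRoe_val (z : Cycle0 (Rips X r) H) (i k : Fin 2) :
    (indexRoe z i k).1 = index0 (coverProj z.π) (ampl X z.γ) (ampl X z.F) i k := indexOp_sub z i k

theorem indexRoe_idem (z : Cycle0 (Rips X r) H) :
    unitMat (indexRoe z) * unitMat (indexRoe z) = unitMat (indexRoe z) := by
  have h : e10 _ + (indexRoe z).map (roeVal X H) = indexOp z := by
    ext1 i k
    exact add_sub_cancel _ _
  refine unitMat_idem (roeVal X H) roeVal_injective _ ?_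
  rw [h]
  exact (gradRel_cover z.fredholm).indexMat_idem

/-- Finite propagation operators are multipliers of `ℂ[X]`. -/
theorem FinProp.isMult {g : Op (L2 X H) (L2 X H)} (hg : FinProp g) : IsMult (roeVal X H) g :=
  fun a => ⟨⟨⟨_, IsRoe.mul_left hg a.2⟩, rfl⟩, ⟨⟨_, IsRoe.mul_right a.2 hg⟩, rfl⟩⟩

end Vale.Agent.P212
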