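import Vale.Agent.P212.Joint

/-! TASK RelT: quantitative relative property (T) for `(SL₂(ℤ) ⋉ ℤ², ℤ²)`.
Plan. `A = ρ a`, `B = ρ b` are commuting unitaries; `exists_joint` on `Ω = Circle × Circle` with
the coordinates `z, w` gives `π` (`Unitary.spectrum_subset_circle`/`spectrum.subset_circle_of_unitary`).
Put `φ f = re ⟪π f ξ, ξ⟫`; if `f ≥ 0` pointwise (real valued) then `f = star g * g`, `g = √f`,
so `φ f ≥ 0`. By `joint_ext`, `ρ (u^k) * π f * ρ (u^k)⁻¹ = π (f ∘ α_k)` with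
`α_k (z, w) = (z, z^k w)` and `ρ (l^k) * π f * ρ (l^k)⁻¹ = π (f ∘ β_k)`, `β_k (z, w) = (z w^k, w)`,
for `k = 4, -4` (`u^k b u^-k = a^k b`). Hence `|φ (f ∘ α_k) - φ f| ≤ 8 ε` if `‖f‖ ≤ 1`
(`‖ρ (u^k)⁻¹ ξ - ξ‖ ≤ 4 ε`, `‖π f‖ ≤ 1`). For `δ > 0`, with `p = im z`, `q = im w` put
`F = q² / (p² + q² + δ)`, `G = p² / (p² + q² + δ)`, `S = |1 - z|² + |1 - w|²`, `φ S ≤ 2 ε² ≤ 2 ε`.
Pointwise inequality (I):
`(F∘α₄ - F) + (F∘α₋₄ - F) + (G∘β₄ - G) + (G∘β₋₄ - G) + 210 S ≥ (F + G) / 10`.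
If `S ≥ 1/100` it is trivial (`0 ≤ F, G`, `F + G ≤ 1`). Otherwise `|p|, |q| ≤ 1/10`,
`re z, re w ≥ 0.995`; by symmetry let `q² ≤ p²`, `t = F + G ≤ 2p² / (2p² + δ)`.
`im z⁴ = 4 p (re z) (1 - 2p²)`, so `|im (z^±4 w)| ≥ 2.5 |p|` and
`F∘α_±4 ≥ 6.25 p² / (7.25 p² + δ) ≥ (25/29) t`. Also
`im (z w⁴)² + im (z w⁻⁴)² ≥ 2 p² (re w⁴)² ≥ 2 · 0.84 p²` (`re w⁴ = 1 - 8 q² (re w)²`), so one of
`G∘β_±4` is `≥ 0.84 p² / (p² + q² + δ) ≥ 0.42 t`. Total `≥ (50/29 + 0.42 - 2) t ≥ t / 10`.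
So `φ (F + G) ≤ 10 (32 + 420) ε`. Pointwise inequality (II):
`|1 - z^m|² ≤ 8 (F + G) + 2 S + 2 m² δ` (if `re z ≤ 0` then `S ≥ 2`; otherwise `|1 - z|² ≤ 2p²`,
`|1 - z^m| ≤ |m| |1 - z|`, and either `p² ≤ δ` or `F + G ≥ 1/2`). Finally
`‖ρ (a^m) ξ - ξ‖² = φ |1 - z^m|²`; let `δ → 0`. `C = 40000` works. It is best to state (I) and
(II) as lemmas about real numbers / unit complex numbers first.
(The proof below follows this plan with `|1 - z|`, `|1 - w|` in place of `|im z|`, `|im w|`.) -/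

noncomputable section

namespace Vale.Agent.P212

namespace RelT

open scoped InnerProductSpace

/-- chordal distance from `1` on the circle -/
def D (z : Circle) : ℝ := ‖1 - (z : ℂ)‖

theorem D_nonneg (z : Circle) : 0 ≤ D z := norm_nonneg _

theorem D_le_two (z : Circle) : D z ≤ 2 := by
  have := norm_sub_le (1 : ℂ) (z : ℂ)
  rw [norm_one, Circle.norm_coe] at this
  unfold D; linarith

theorem D_one : D 1 = 0 := by simp [D]

theorem D_mul (z w : Circle) : D (z * w) ≤ D z + D w := by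
  have h : (1 : ℂ) - ((z * w : Circle) : ℂ) = (1 - z) + z * (1 - w) := by
    rw [Circle.coe_mul]; ring
  unfold D
  rw [h]
  refine (norm_add_le _ _).trans ?_
  rw [norm_mul, Circle.norm_coe, one_mul]

theorem D_inv (z : Circle) : D z⁻¹ = D z := by
  have h : (1 : ℂ) - ((z⁻¹ : Circle) : ℂ) = -((z⁻¹ : Circle) : ℂ) * (1 - z) := by
    rw [Circle.coe_inv]
    have := z.coe_ne_zero
    field_simp
    ring
  unfold D
  rw [h, norm_mul, norm_neg, Circle.norm_coe, one_mul]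

theorem D_sq_ge (z : Circle) : (2 - D z) * D z ≤ D (z * z) := by
  have h : (1 : ℂ) - ((z * z : Circle) : ℂ) = (2 - (1 - z)) * (1 - z) := by
    rw [Circle.coe_mul]; ring
  have h2 := norm_sub_norm_le (2 : ℂ) (1 - z)
  rw [Complex.norm_two] at h2
  unfold D
  rw [h, norm_mul]
  exact mul_le_mul_of_nonneg_right h2 (norm_nonneg _)

theorem D_pow (z : Circle) (n : ℕ) : D (z ^ n) ≤ n * D z := by
  induction n with
  | zero => simp [D_one]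
  | succ n ih =>
    rw [pow_succ]
    have := D_mul (z ^ n) z
    push_cast; linarith

theorem D_zpow (z : Circle) (m : ℤ) : D (z ^ m) ≤ |(m : ℝ)| * D z := by
  obtain ⟨n, rfl | rfl⟩ := m.eq_nat_or_neg
  · simpa using D_pow z n
  · rw [zpow_neg, D_inv]
    simpa using D_pow z n

theorem D_sq (z : Circle) : D z ^ 2 = 2 - 2 * (z : ℂ).re := by
  have h := Circle.normSq_coe z
  rw [Complex.normSq_apply] at h
  unfold D
  rw [← Complex.normSq_eq_norm_sq, Complex.normSq_apply]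
  simp only [Complex.sub_re, Complex.one_re, Complex.sub_im, Complex.one_im]
  linarith

theorem D_two (z v : Circle) (hz : D z ≤ 1) :
    D z ^ 2 ≤ D (v * z) ^ 2 ∨ D z ^ 2 ≤ D (v⁻¹ * z) ^ 2 := by
  have h1 := D_sq z
  have h2 := D_sq (v * z)
  have h3 := D_sq (v⁻¹ * z)
  have h4 := D_sq v
  have h5 := D_nonneg z
  have h6 : 0 ≤ D v ^ 2 := sq_nonneg _
  rw [Circle.coe_mul, Complex.mul_re] at h2 h3
  rw [Circle.coe_inv_eq_conj, Complex.conj_re, Complex.conj_im] at h3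
  have h7 : 0 ≤ (z : ℂ).re := by nlinarith
  have h8 : 0 ≤ (1 - (v : ℂ).re) * (z : ℂ).re := mul_nonneg (by linarith) h7
  by_contra hc
  push Not at hc
  nlinarith [hc.1, hc.2]

theorem D_four (z w : Circle) (h : D w ≤ D z) (h2 : D z ≤ 1 / 20) :
    25 / 4 * D z ^ 2 ≤ D (z ^ (4 : ℤ) * w) ^ 2 := by
  have h0 := D_nonneg z
  have h3 := D_sq_ge z
  have h4 := D_sq_ge (z * z)
  have h5 := D_mul z z
  have h6 := D_mul (z ^ (4 : ℤ) * w) w⁻¹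
  have e : z ^ (4 : ℤ) * w * w⁻¹ = z * z * (z * z) := by
    rw [mul_inv_cancel_right, zpow_ofNat]
    simp only [pow_succ, pow_zero, one_mul, mul_assoc]
  rw [e, D_inv] at h6
  have h7 : 19 / 10 * D z ≤ D (z * z) := by nlinarith
  have h8 : 19 / 10 * D (z * z) ≤ D (z * z * (z * z)) := by nlinarith
  have h9 : 5 / 2 * D z ≤ D (z ^ (4 : ℤ) * w) := by linarith
  nlinarith

/-- the regularised ratio -/
def r (δ x y : ℝ) : ℝ := x / (x + y + δ)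

theorem r_nonneg {δ x y : ℝ} (hδ : 0 < δ) (hx : 0 ≤ x) (hy : 0 ≤ y) : 0 ≤ r δ x y := by
  unfold r; positivity

theorem r_mono {δ x x' y : ℝ} (hδ : 0 < δ) (hx : 0 ≤ x) (hy : 0 ≤ y) (h : x ≤ x') :
    r δ x y ≤ r δ x' y := by
  unfold r
  rw [div_le_div_iff₀ (by positivity) (by linarith)]
  nlinarith

theorem r_add (δ x y : ℝ) : r δ x y + r δ y x = (x + y) / (x + y + δ) := by
  unfold r; rw [add_comm y x, add_div]

theorem r_add_le {δ x y : ℝ} (hδ : 0 < δ) (hx : 0 ≤ x) (hy : 0 ≤ y) : r δ x y + r δ y x ≤ 1 := by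
  rw [r_add, div_le_one (by positivity)]; linarith

theorem r_abs {δ x y : ℝ} (hδ : 0 < δ) (hx : 0 ≤ x) (hy : 0 ≤ y) : |r δ x y| ≤ 1 := by
  rw [abs_of_nonneg (r_nonneg hδ hx hy)]
  linarith [r_add_le hδ hx hy, r_nonneg hδ hy hx]

theorem r_big {δ x y : ℝ} (hδ : 0 < δ) (hy : 0 ≤ y) (h : y ≤ x) :
    43 / 50 * (r δ y x + r δ x y) ≤ r δ (25 / 4 * x) x := by
  have hx : 0 ≤ x := hy.trans h
  rw [r_add, ← mul_div_assoc]
  unfold r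
  rw [div_le_div_iff₀ (by positivity) (by positivity)]
  nlinarith [mul_nonneg hx hy, mul_nonneg hx hδ.le, mul_nonneg hy hδ.le, mul_nonneg hx hx,
    mul_nonneg hδ.le (sub_nonneg.2 h)]

theorem r_half {δ x y : ℝ} (hδ : 0 < δ) (hy : 0 ≤ y) (h : y ≤ x) : r δ y x ≤ r δ x y := by
  have hx : 0 ≤ x := hy.trans h
  unfold r
  rw [add_comm y x]
  gcongr

theorem key {δ : ℝ} (hδ : 0 < δ) (z w : Circle) (h : D w ≤ D z) (h2 : D z ≤ 1 / 20) :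
    21 / 10 * (r δ (D w ^ 2) (D z ^ 2) + r δ (D z ^ 2) (D w ^ 2)) ≤
      r δ (D (z ^ (4 : ℤ) * w) ^ 2) (D z ^ 2) + r δ (D (z ^ (-4 : ℤ) * w) ^ 2) (D z ^ 2) +
      r δ (D (w ^ (4 : ℤ) * z) ^ 2) (D w ^ 2) + r δ (D (w ^ (-4 : ℤ) * z) ^ 2) (D w ^ 2) := by
  have hw := D_nonneg w
  have hs : D w ^ 2 ≤ D z ^ 2 := by gcongr
  have a1 := D_four z w h h2
  have a2 := D_four z⁻¹ w (by rwa [D_inv]) (by rwa [D_inv])
  rw [D_inv, inv_zpow'] at a2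
  have b1 := r_mono hδ (by positivity) (sq_nonneg (D z)) a1
  have b2 := r_mono hδ (by positivity) (sq_nonneg (D z)) a2
  have b3 := r_big hδ (sq_nonneg (D w)) hs
  have b4 := r_half hδ (sq_nonneg (D w)) hs
  have b5 := r_nonneg hδ (sq_nonneg (D w)) (sq_nonneg (D z))
  have c1 := r_nonneg hδ (sq_nonneg (D (w ^ (4 : ℤ) * z))) (sq_nonneg (D w))
  have c2 := r_nonneg hδ (sq_nonneg (D (w ^ (-4 : ℤ) * z))) (sq_nonneg (D w))
  rcases D_two z (w ^ (4 : ℤ)) (by linarith) with h3 | h3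
  · have := r_mono hδ (sq_nonneg _) (sq_nonneg (D w)) h3
    linarith
  · rw [← zpow_neg] at h3
    have := r_mono hδ (sq_nonneg _) (sq_nonneg (D w)) h3
    linarith

theorem ineqI {δ : ℝ} (hδ : 0 < δ) (z w : Circle) :
    21 / 10 * (r δ (D w ^ 2) (D z ^ 2) + r δ (D z ^ 2) (D w ^ 2)) ≤
      r δ (D (z ^ (4 : ℤ) * w) ^ 2) (D z ^ 2) + r δ (D (z ^ (-4 : ℤ) * w) ^ 2) (D z ^ 2) +
      r δ (D (w ^ (4 : ℤ) * z) ^ 2) (D w ^ 2) + r δ (D (w ^ (-4 : ℤ) * z) ^ 2) (D w ^ 2) +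
      840 * (D z ^ 2 + D w ^ 2) := by
  have hz := D_nonneg z
  have hw := D_nonneg w
  have s1 := sq_nonneg (D z)
  have s2 := sq_nonneg (D w)
  have c1 := r_nonneg hδ (sq_nonneg (D (w ^ (4 : ℤ) * z))) s2
  have c2 := r_nonneg hδ (sq_nonneg (D (w ^ (-4 : ℤ) * z))) s2
  have c3 := r_nonneg hδ (sq_nonneg (D (z ^ (4 : ℤ) * w))) s1
  have c4 := r_nonneg hδ (sq_nonneg (D (z ^ (-4 : ℤ) * w))) s1
  have c5 := r_add_le hδ s2 s1
  by_cases h1 : D z ≤ 1 / 20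
  · by_cases h2 : D w ≤ 1 / 20
    · rcases le_total (D w) (D z) with h | h
      · have := key hδ z w h h1
        linarith
      · have := key hδ w z h h2
        linarith
    · have : 1 / 400 ≤ D w ^ 2 := by nlinarith [not_le.1 h2]
      linarith
  · have : 1 / 400 ≤ D z ^ 2 := by nlinarith [not_le.1 h1]
    linarith

theorem ineqII {δ : ℝ} (hδ : 0 < δ) (z w : Circle) (m : ℤ) :
    D (z ^ m) ^ 2 ≤ 8 * (r δ (D w ^ 2) (D z ^ 2) + r δ (D z ^ 2) (D w ^ 2)) + (m : ℝ) ^ 2 * δ := by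
  have s1 := sq_nonneg (D z)
  have s2 := sq_nonneg (D w)
  have h0 := D_nonneg (z ^ m)
  have c1 := r_nonneg hδ s1 s2
  have c2 := r_nonneg hδ s2 s1
  rcases le_total (D z ^ 2) δ with h | h
  · have h1 : D (z ^ m) ^ 2 ≤ (|(m : ℝ)| * D z) ^ 2 := by gcongr; exact D_zpow z m
    rw [mul_pow, sq_abs] at h1
    have h2 : (m : ℝ) ^ 2 * D z ^ 2 ≤ (m : ℝ) ^ 2 * δ := by gcongr
    linarith
  · have h1 : 1 / 2 ≤ r δ (D w ^ 2) (D z ^ 2) + r δ (D z ^ 2) (D w ^ 2) := by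
      rw [r_add, le_div_iff₀ (by positivity)]; linarith
    have h2 := D_le_two (z ^ m)
    have h3 : 0 ≤ (m : ℝ) ^ 2 * δ := by positivity
    nlinarith

/-! ### The state -/

abbrev T2 := Circle × Circle

/-- complexification of a real function -/
def cx (f : C(T2, ℝ)) : C(T2, ℂ) := ⟨fun ω => (f ω : ℂ), by fun_prop⟩

/-- square of the modulus -/
def nsq (h : C(T2, ℂ)) : C(T2, ℝ) := ⟨fun ω => ‖h ω‖ ^ 2, by fun_prop⟩

theorem cx_add (f g : C(T2, ℝ)) : cx (f + g) = cx f + cx g := by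
  ext ω; simp [cx]

theorem cx_smul (c : ℝ) (f : C(T2, ℝ)) : cx (c • f) = (c : ℂ) • cx f := by
  ext ω; simp [cx]

theorem cx_nsq (h : C(T2, ℂ)) : cx (nsq h) = star h * h := by
  ext ω; simp [cx, nsq, Complex.conj_mul']

variable {K : Type} [NormedAddCommGroup K] [InnerProductSpace ℂ K] [CompleteSpace K]

/-- the vector state -/
def Phi (π : C(T2, ℂ) →⋆ₐ[ℂ] (K →L[ℂ] K)) (ξ : K) : C(T2, ℝ) →ₗ[ℝ] ℝ where
  toFun f := (⟪ξ, π (cx f) ξ⟫_ℂ).re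
  map_add' f g := by
    rw [cx_add, map_add, ContinuousLinearMap.add_apply, inner_add_right, Complex.add_re]
  map_smul' c f := by
    rw [cx_smul, map_smul, ContinuousLinearMap.smul_apply, inner_smul_right]
    simp

variable (π : C(T2, ℂ) →⋆ₐ[ℂ] (K →L[ℂ] K)) (ξ : K)

theorem Phi_apply (f : C(T2, ℝ)) : Phi π ξ f = (⟪ξ, π (cx f) ξ⟫_ℂ).re := rfl

theorem Phi_nsq (h : C(T2, ℂ)) : Phi π ξ (nsq h) = ‖π h ξ‖ ^ 2 := by
  rw [Phi_apply, cx_nsq, map_mul, map_star, ContinuousLinearMap.mul_apply,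
    ContinuousLinearMap.star_eq_adjoint, ContinuousLinearMap.adjoint_inner_right,
    inner_self_eq_norm_sq_to_K]
  simp [← Complex.ofReal_pow]

theorem Phi_mono {f g : C(T2, ℝ)} (h : ∀ ω, f ω ≤ g ω) : Phi π ξ f ≤ Phi π ξ g := by
  have e : g - f = nsq (cx ⟨fun ω => √(g ω - f ω), by fun_prop⟩) := by
    ext ω
    simp [nsq, cx, Real.sq_sqrt (sub_nonneg.2 (h ω))]
  have := Phi_nsq π ξ (cx ⟨fun ω => √(g ω - f ω), by fun_prop⟩)
  rw [← e, map_sub] at this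
  nlinarith [sq_nonneg ‖π (cx ⟨fun ω => √(g ω - f ω), by fun_prop⟩) ξ‖]

theorem Phi_one : Phi π ξ 1 = ‖ξ‖ ^ 2 := by
  have e : (1 : C(T2, ℝ)) = nsq 1 := by ext ω; simp [nsq]
  rw [e, Phi_nsq, map_one, ContinuousLinearMap.one_apply]

variable {Γ : Type} [Group Γ] (ρ : Γ →* (K →L[ℂ] K))

theorem mem_unitary (hρ : ∀ g, star (ρ g) = ρ g⁻¹) (g : Γ) : ρ g ∈ unitary (K →L[ℂ] K) := by
  rw [Unitary.mem_iff, hρ, ← map_mul, ← map_mul]; simp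

theorem norm_rho (hρ : ∀ g, star (ρ g) = ρ g⁻¹) (g : Γ) (x : K) : ‖ρ g x‖ = ‖x‖ :=
  ContinuousLinearMap.norm_map_of_mem_unitary (mem_unitary ρ hρ g) x

theorem disp_mul (hρ : ∀ g, star (ρ g) = ρ g⁻¹) (g h : Γ) :
    ‖ρ (g * h) ξ - ξ‖ ≤ ‖ρ g ξ - ξ‖ + ‖ρ h ξ - ξ‖ := by
  have e : ρ (g * h) ξ - ξ = (ρ g ξ - ξ) + ρ g (ρ h ξ - ξ) := by
    rw [map_mul, ContinuousLinearMap.mul_apply, map_sub]; abel
  rw [e]
  refine (norm_add_le _ _).trans ?_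
  rw [norm_rho ρ hρ]

theorem disp_inv (hρ : ∀ g, star (ρ g) = ρ g⁻¹) (g : Γ) : ‖ρ g⁻¹ ξ - ξ‖ = ‖ρ g ξ - ξ‖ := by
  rw [← norm_rho ρ hρ g, map_sub, ← ContinuousLinearMap.mul_apply, ← map_mul, mul_inv_cancel,
    map_one, ContinuousLinearMap.one_apply, norm_sub_rev]

theorem disp_four (hρ : ∀ g, star (ρ g) = ρ g⁻¹) (g : Γ) {k : ℤ} (hk : k = 4 ∨ k = -4) :
    ‖ρ (g ^ k) ξ - ξ‖ ≤ 4 * ‖ρ g ξ - ξ‖ := by
  have h : ‖ρ (g ^ (4 : ℤ)) ξ - ξ‖ ≤ 4 * ‖ρ g ξ - ξ‖ := by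
    have e : g ^ (4 : ℤ) = g * g * (g * g) := by
      rw [zpow_ofNat]
      simp only [pow_succ, pow_zero, one_mul, mul_assoc]
    have h1 := disp_mul ξ ρ hρ g g
    have h2 := disp_mul ξ ρ hρ (g * g) (g * g)
    rw [e]; linarith
  rcases hk with rfl | rfl
  · exact h
  · rw [zpow_neg, disp_inv ξ ρ hρ]; exact h

/-- a character of the torus as a complex function -/
def ch (p : C(T2, Circle)) : C(T2, ℂ) := ⟨fun ω => (p ω : ℂ), by fun_prop⟩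

theorem ch_mul (p q : C(T2, Circle)) : ch (p * q) = ch p * ch q := by
  ext ω; simp [ch]

theorem ch_inv (p : C(T2, Circle)) : ch p⁻¹ = star (ch p) := by
  ext ω; simp [ch, Circle.coe_inv_eq_conj, -Circle.coe_inv]

theorem ch_one : ch 1 = 1 := by ext ω; simp [ch]

theorem pi_zpow (hρ : ∀ g, star (ρ g) = ρ g⁻¹) {p : C(T2, Circle)} {a : Γ}
    (h : π (ch p) = ρ a) (m : ℤ) : π (ch (p ^ m)) = ρ (a ^ m) := by
  induction m using Int.induction_on with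
  | zero => rw [zpow_zero, zpow_zero, ch_one, map_one, map_one]
  | succ n ih => rw [zpow_add_one, zpow_add_one, ch_mul, map_mul, map_mul, ih, h]
  | pred n ih =>
    rw [zpow_sub_one, zpow_sub_one, ch_mul, map_mul, map_mul, ih, ch_inv, map_star, h, hρ]

theorem ch_inj : Function.Injective fun ω : T2 =>
    (ch ContinuousMap.fst ω, ch ContinuousMap.snd ω) := by
  intro x y h
  simp only [ch, ContinuousMap.coe_mk, Prod.mk.injEq, Circle.coe_inj] at h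
  exact Prod.ext h.1 h.2

theorem conj_est (hρ : ∀ g, star (ρ g) = ρ g⁻¹) (hξ : ‖ξ‖ ≤ 1) (g : Γ) (T : C(T2, T2))
    (h₁ : π ((ch ContinuousMap.fst).comp T) = ρ g * π (ch ContinuousMap.fst) * ρ g⁻¹)
    (h₂ : π ((ch ContinuousMap.snd).comp T) = ρ g * π (ch ContinuousMap.snd) * ρ g⁻¹)
    (f : C(T2, ℝ)) (hf : ∀ ω, |f ω| ≤ 1) :
    Phi π ξ (f.comp T) ≤ Phi π ξ f + 2 * ‖ρ g ξ - ξ‖ := by
  let U : unitary (K →L[ℂ] K) := ⟨ρ g, mem_unitary ρ hρ g⟩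
  have hext := joint_ext _ _ ch_inj (π.comp (ContinuousMap.compStarAlgHom' ℂ ℂ T))
    (((Unitary.conjStarAlgAut ℂ _ U : (K →L[ℂ] K) ≃⋆ₐ[ℂ] (K →L[ℂ] K)) :
      (K →L[ℂ] K) →⋆ₐ[ℂ] (K →L[ℂ] K)).comp π)
    (by rw [← hρ] at h₁; exact h₁) (by rw [← hρ] at h₂; exact h₂)
  have h3 : π (cx (f.comp T)) = ρ g * π (cx f) * star (ρ g) := DFunLike.congr_fun hext (cx f)
  have hX : ‖π (cx f)‖ ≤ 1 := by
    refine (NonUnitalStarAlgHom.norm_apply_le π _).trans ?_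
    refine (ContinuousMap.norm_le _ zero_le_one).2 fun ω => ?_
    simpa [cx] using hf ω
  have hX' : ∀ x, ‖π (cx f) x‖ ≤ ‖x‖ := fun x => by
    simpa using (π (cx f)).le_of_opNorm_le hX x
  have h4 : ⟪ξ, π (cx (f.comp T)) ξ⟫_ℂ = ⟪ρ g⁻¹ ξ, π (cx f) (ρ g⁻¹ ξ)⟫_ℂ := by
    rw [h3, ContinuousLinearMap.mul_apply, ContinuousLinearMap.mul_apply, ← hρ,
      ContinuousLinearMap.star_eq_adjoint, ContinuousLinearMap.adjoint_inner_left]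
  have h5 : ⟪ρ g⁻¹ ξ, π (cx f) (ρ g⁻¹ ξ)⟫_ℂ = ⟪ξ, π (cx f) ξ⟫_ℂ +
      (⟪ρ g⁻¹ ξ - ξ, π (cx f) (ρ g⁻¹ ξ)⟫_ℂ + ⟪ξ, π (cx f) (ρ g⁻¹ ξ - ξ)⟫_ℂ) := by
    rw [inner_sub_left, map_sub, inner_sub_right]; ring
  have h6 : ‖⟪ρ g⁻¹ ξ - ξ, π (cx f) (ρ g⁻¹ ξ)⟫_ℂ‖ ≤ ‖ρ g ξ - ξ‖ := by
    refine (norm_inner_le_norm _ _).trans ?_
    rw [disp_inv ξ ρ hρ]
    refine mul_le_of_le_one_right (norm_nonneg _) ((hX' _).trans ?_)
    rwa [norm_rho ρ hρ]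
  have h7 : ‖⟪ξ, π (cx f) (ρ g⁻¹ ξ - ξ)⟫_ℂ‖ ≤ ‖ρ g ξ - ξ‖ := by
    refine (norm_inner_le_norm _ _).trans ?_
    refine (mul_le_of_le_one_left (norm_nonneg _) hξ).trans ((hX' _).trans ?_)
    rw [disp_inv ξ ρ hρ]
  rw [Phi_apply, Phi_apply, h4, h5, Complex.add_re, Complex.add_re]
  have h8 := (Complex.re_le_norm _).trans h6
  have h9 := (Complex.re_le_norm _).trans h7
  linarith

theorem conj_zpow {a b u : Γ} (h1 : u * a * u⁻¹ = a) (h2 : u * b * u⁻¹ = a * b) (k : ℤ) :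
    u ^ k * a * (u ^ k)⁻¹ = a ∧ u ^ k * b * (u ^ k)⁻¹ = a ^ k * b := by
  have hc : Commute u a := by
    rw [Commute, SemiconjBy]; rw [mul_inv_eq_iff_eq_mul] at h1; exact h1
  refine ⟨by rw [(hc.zpow_left k).eq, mul_inv_cancel_right], ?_⟩
  have h3 : u⁻¹ * b * u = a⁻¹ * b := by
    have e : b = a⁻¹ * (u * b * u⁻¹) := by rw [h2, inv_mul_cancel_left]
    calc u⁻¹ * b * u = u⁻¹ * (a⁻¹ * (u * b * u⁻¹)) * u := by rw [← e]
      _ = (u⁻¹ * a⁻¹) * (u * b) := by group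
      _ = a⁻¹ * b := by rw [hc.inv_inv.eq]; group
  induction k using Int.induction_on with
  | zero => simp
  | succ n ih =>
    calc u ^ ((n : ℤ) + 1) * b * (u ^ ((n : ℤ) + 1))⁻¹
        = u ^ (n : ℤ) * (u * b * u⁻¹) * (u ^ (n : ℤ))⁻¹ := by group
      _ = (u ^ (n : ℤ) * a) * b * (u ^ (n : ℤ))⁻¹ := by rw [h2]; group
      _ = a * (u ^ (n : ℤ) * b * (u ^ (n : ℤ))⁻¹) := by rw [(hc.zpow_left _).eq]; group
      _ = _ := by rw [ih]; group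
  | pred n ih =>
    calc u ^ (-(n : ℤ) - 1) * b * (u ^ (-(n : ℤ) - 1))⁻¹
        = u ^ (-(n : ℤ)) * (u⁻¹ * b * u) * (u ^ (-(n : ℤ)))⁻¹ := by group
      _ = (u ^ (-(n : ℤ)) * a⁻¹) * b * (u ^ (-(n : ℤ)))⁻¹ := by rw [h3]; group
      _ = a⁻¹ * (u ^ (-(n : ℤ)) * b * (u ^ (-(n : ℤ)))⁻¹) := by
        rw [(hc.zpow_left _).inv_right.eq]; group
      _ = _ := by rw [ih]; group

/-- the shear `(z, w) ↦ (z, z^k w)` -/
def al (k : ℤ) : C(T2, T2) := ⟨fun ω => (ω.1, ω.1 ^ k * ω.2), by fun_prop⟩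

/-- the shear `(z, w) ↦ (w^k z, w)` -/
def be (k : ℤ) : C(T2, T2) := ⟨fun ω => (ω.2 ^ k * ω.1, ω.2), by fun_prop⟩

theorem continuous_D : Continuous D := by unfold D; fun_prop

/-- the ratio as a continuous function -/
def R {δ : ℝ} (hδ : 0 < δ) (p q : C(T2, Circle)) : C(T2, ℝ) :=
  ⟨fun ω => r δ (D (p ω) ^ 2) (D (q ω) ^ 2), by
    have := continuous_D
    unfold r
    refine Continuous.div (by fun_prop) (by fun_prop) fun ω => by positivity⟩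

theorem Phi_ch {p : C(T2, Circle)} {a : Γ} (h : π (ch p) = ρ a) :
    Phi π ξ (nsq (1 - ch p)) = ‖ρ a ξ - ξ‖ ^ 2 := by
  rw [Phi_nsq, map_sub, map_one, h, ContinuousLinearMap.sub_apply, ContinuousLinearMap.one_apply,
    norm_sub_rev]

end RelT

open RelT in
theorem relT : ∃ C : ℝ, 0 < C ∧ ∀ (Γ K : Type) [Group Γ] [NormedAddCommGroup K]
    [InnerProductSpace ℂ K] [CompleteSpace K] (ρ : Γ →* (K →L[ℂ] K)),
    (∀ g, star (ρ g) = ρ g⁻¹) → ∀ a b u l : Γ, a * b = b * a → u * a * u⁻¹ = a →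
    u * b * u⁻¹ = a * b → l * b * l⁻¹ = b → l * a * l⁻¹ = a * b →
    ∀ (ξ : K) (ε : ℝ), ‖ξ‖ ≤ 1 → ε ≤ 1 → ‖ρ a ξ - ξ‖ ≤ ε → ‖ρ b ξ - ξ‖ ≤ ε → ‖ρ u ξ - ξ‖ ≤ ε →
    ‖ρ l ξ - ξ‖ ≤ ε → ∀ m : ℤ, ‖ρ (a ^ m) ξ - ξ‖ ^ 2 ≤ C * ε := by
  refine ⟨136960, by norm_num, ?_⟩
  intro Γ K _ _ _ _ ρ hρ a b u l hab hua hub hlb hla ξ ε hξ hε ha hb hu hl m
  have hab' : Commute a b := hab
  obtain ⟨π, hπa, hπb⟩ := exists_joint (ch ContinuousMap.fst) (ch ContinuousMap.snd) ch_inj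
    (ρ a) (ρ b) (by rw [hρ]; exact ((Commute.refl a).inv_right).map ρ)
    (by rw [hρ]; exact ((Commute.refl b).inv_right).map ρ) (hab'.map ρ)
    (by rw [hρ]; exact hab'.inv_right.map ρ) (fun x hx y hy =>
      ⟨(⟨x, spectrum.subset_circle_of_unitary (mem_unitary ρ hρ a) hx⟩,
        ⟨y, spectrum.subset_circle_of_unitary (mem_unitary ρ hρ b) hy⟩), rfl, rfl⟩)
  have hal : ∀ k : ℤ, k = 4 ∨ k = -4 → ∀ f : C(T2, ℝ), (∀ ω, |f ω| ≤ 1) →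
      Phi π ξ (f.comp (al k)) ≤ Phi π ξ f + 8 * ε := by
    intro k hk f hf
    obtain ⟨e1, e2⟩ := conj_zpow hua hub k
    have := conj_est π ξ ρ hρ hξ (u ^ k) (al k) ?_ ?_ f hf
    · linarith [disp_four ξ ρ hρ u hk]
    · rw [hπa, ← map_mul, ← map_mul, e1]; exact hπa
    · rw [hπb, ← map_mul, ← map_mul, e2, map_mul, ← pi_zpow π ρ hρ hπa, ← hπb, ← map_mul, ← ch_mul]
      rfl
  have hbe : ∀ k : ℤ, k = 4 ∨ k = -4 → ∀ f : C(T2, ℝ), (∀ ω, |f ω| ≤ 1) →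
      Phi π ξ (f.comp (be k)) ≤ Phi π ξ f + 8 * ε := by
    intro k hk f hf
    obtain ⟨e1, e2⟩ := conj_zpow hlb (hla.trans hab) k
    have := conj_est π ξ ρ hρ hξ (l ^ k) (be k) ?_ ?_ f hf
    · linarith [disp_four ξ ρ hρ l hk]
    · rw [hπa, ← map_mul, ← map_mul, e2, map_mul, ← pi_zpow π ρ hρ hπb, ← hπa, ← map_mul, ← ch_mul]
      rfl
    · rw [hπb, ← map_mul, ← map_mul, e1]; exact hπb
  have hε0 : 0 ≤ ε := (norm_nonneg _).trans ha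
  have hSa : Phi π ξ (nsq (1 - ch ContinuousMap.fst)) ≤ ε := by
    rw [Phi_ch π ξ ρ hπa]; nlinarith [norm_nonneg (ρ a ξ - ξ)]
  have hSb : Phi π ξ (nsq (1 - ch ContinuousMap.snd)) ≤ ε := by
    rw [Phi_ch π ξ ρ hπb]; nlinarith [norm_nonneg (ρ b ξ - ξ)]
  have h1 : Phi π ξ 1 ≤ 1 := by rw [Phi_one]; nlinarith [norm_nonneg ξ]
  have main : ∀ δ : ℝ, 0 < δ → ‖ρ (a ^ m) ξ - ξ‖ ^ 2 ≤ 136960 * ε + (m : ℝ) ^ 2 * δ := by
    intro δ hδ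
    set F := R hδ ContinuousMap.snd ContinuousMap.fst
    set G := R hδ ContinuousMap.fst ContinuousMap.snd
    have hF : ∀ ω, |F ω| ≤ 1 := fun ω => r_abs hδ (sq_nonneg _) (sq_nonneg _)
    have hG : ∀ ω, |G ω| ≤ 1 := fun ω => r_abs hδ (sq_nonneg _) (sq_nonneg _)
    have i1 := Phi_mono π ξ (f := (21 / 10 : ℝ) • (F + G))
      (g := F.comp (al 4) + F.comp (al (-4)) + G.comp (be 4) + G.comp (be (-4)) +
        (840 : ℝ) • (nsq (1 - ch ContinuousMap.fst) + nsq (1 - ch ContinuousMap.snd)))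
      fun ω => ineqI hδ ω.1 ω.2
    have i2 := Phi_mono π ξ (f := nsq (1 - ch (ContinuousMap.fst ^ m)))
      (g := (8 : ℝ) • (F + G) + ((m : ℝ) ^ 2 * δ) • 1) fun ω => by
        have := ineqII hδ ω.1 ω.2 m
        rw [← mul_one ((m : ℝ) ^ 2 * δ)] at this
        exact this
    rw [Phi_ch π ξ ρ (pi_zpow π ρ hρ hπa m)] at i2
    simp only [map_add, map_smul, smul_eq_mul] at i1 i2
    have j1 := hal 4 (Or.inl rfl) F hF
    have j2 := hal (-4) (Or.inr rfl) F hF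
    have j3 := hbe 4 (Or.inl rfl) G hG
    have j4 := hbe (-4) (Or.inr rfl) G hG
    have j5 : (m : ℝ) ^ 2 * δ * Phi π ξ 1 ≤ (m : ℝ) ^ 2 * δ :=
      mul_le_of_le_one_right (by positivity) h1
    linarith
  refine le_of_forall_pos_le_add fun η hη => ?_
  have := main (η / ((m : ℝ) ^ 2 + 1)) (by positivity)
  have h2 : (m : ℝ) ^ 2 * (η / ((m : ℝ) ^ 2 + 1)) ≤ η := by
    rw [← mul_div_assoc, div_le_iff₀ (by positivity)]; nlinarith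
  linarith

end Vale.Agent.P212
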