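import Vale.Agent.P212.Grp
import Vale.Agent.P212.RelT

/-! TASK Kazhdan: property (T) for `G7 = SL₃(ℤ) ⋉ H₇(ℤ)`.
Plan. `exists_prod_zpow`: `g = (γ, v, φ, s)` equals `z^{s'} · ∏ vv i ^ (v i) · ∏ ff i ^ (φ' i) · γ`
for suitable `s', φ'` (`φ' = φ γ⁻¹`); `γ` is a product of at most `k` matrices `el i j h m =
el i j h 1 ^ m` (`bdd_gen`, `el_zpow`; `γ ↦ (γ,0,0,0,0,0)` is a homomorphism), and the central
element `z^m = (1,0,0,0,0,m)` is the commutator `ff 0 * vv 0 ^ m * (ff 0)⁻¹ * vv 0 ^ (-m)`.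
`kazhdan_G7`: every `a ∈ gens` fits in a configuration `a, b, u, l` of `relT` with
`b ∈ gens` and `u, l ∈ gens ∪ gens⁻¹`: for `a = ee i j`, with `k` the third index, `b = ee k j`,
`u = ee i k`, `l = ee k i`; for `a = vv i` and `k ≠ i`: `b = vv k`, `u = ee i k`, `l = ee k i`;
for `a = ff i`: `b = ff k`, `u = (ee k i)⁻¹`, `l = (ee i k)⁻¹`. Note
`‖ρ t⁻¹ ξ - ξ‖ = ‖ρ t ξ - ξ‖` (`ρ t` is unitary). So if `‖ξ‖ = 1` and `‖ρ t ξ - ξ‖ ≤ ε` on `gens`
then `‖ρ g ξ - ξ‖ ≤ k √(C ε) ≤ 1/2` for all `g` when `ε = c` is small. The closed convex hull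
`K₀` of the orbit of `ξ` is invariant and lies in the ball of radius `1/2` about `ξ`; its point `η`
of minimal norm (`exists_norm_eq_iInf_of_complete_convex`, real structure
`InnerProductSpace.rclikeToReal`; uniqueness by the parallelogram law, or use
`norm_eq_iInf_iff_real_inner_le_zero`) is invariant, so `⟪η, ξ⟫ = 0`, contradicting
`‖η - ξ‖ ≤ 1/2`. (Alternative to the convex hull: the set of `η` in the closed ball is not
invariant, but `{η | ∀ g, ‖η - ρ g ξ‖ ≤ 1/2}` is closed, convex, invariant and contains `ξ`.) -/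

noncomputable section

namespace Vale.Agent.P212

/-- `(T, c)` is a Kazhdan pair. -/
def KazhdanSet {G : Type} [Group G] (T : Finset G) (c : ℝ) : Prop :=
  ∀ (K : Type) [NormedAddCommGroup K] [InnerProductSpace ℂ K] [CompleteSpace K]
    (ρ : G →* (K →L[ℂ] K)), (∀ g, star (ρ g) = ρ g⁻¹) → ∀ ξ : K,
    (∀ η : K, (∀ g, ρ g η = η) → inner ℂ η ξ = 0) → ∃ t ∈ T, c * ‖ξ‖ ≤ ‖ρ t ξ - ξ‖

/-- The generator `e_{ij}(1)`. -/
def ee (i j : Fin 3) (h : i ≠ j) : G7 := ⟨⟨el i j h 1, 0, 0, 0, 0, 0⟩, rfl, rfl⟩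

/-- The generator `v_i`. -/
def vv (i : Fin 3) : G7 := ⟨⟨1, Pi.single i 1, 0, 0, 0, 0⟩, rfl, rfl⟩

/-- The generator `φ_i`. -/
def ff (i : Fin 3) : G7 := ⟨⟨1, 0, Pi.single i 1, 0, 0, 0⟩, rfl, rfl⟩

/-- The generating set. -/
def gens : Set G7 := {g | (∃ i j h, g = ee i j h) ∨ (∃ i, g = vv i) ∨ ∃ i, g = ff i}

namespace KazhdanAux

open Matrix

/-- The embedding of `SL₃(ℤ)`. -/
def em : SL3 →* G7 where
  toFun γ := ⟨⟨γ, 0, 0, 0, 0, 0⟩, rfl, rfl⟩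
  map_one' := rfl
  map_mul' a b := by
    refine Subtype.ext ?_
    rw [Subgroup.coe_mul]
    ext1 <;> simp

/-- Translation by a column vector. -/
def vE (v : Fin 3 → ℤ) : G7 := ⟨⟨1, v, 0, 0, 0, 0⟩, rfl, rfl⟩

/-- Translation by a row vector. -/
def fE (φ : Fin 3 → ℤ) : G7 := ⟨⟨1, 0, φ, 0, 0, 0⟩, rfl, rfl⟩

/-- Central elements. -/
def zE (s : ℤ) : G7 := ⟨⟨1, 0, 0, 0, 0, s⟩, rfl, rfl⟩

theorem vE_add (v w : Fin 3 → ℤ) : vE (v + w) = vE v * vE w := by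
  refine Subtype.ext ?_
  rw [Subgroup.coe_mul]
  ext1 <;> simp [vE]

theorem fE_add (v w : Fin 3 → ℤ) : fE (v + w) = fE v * fE w := by
  refine Subtype.ext ?_
  rw [Subgroup.coe_mul]
  ext1 <;> simp [fE]

theorem vE_zpow (v : Fin 3 → ℤ) (m : ℤ) : vE v ^ m = vE (m • v) := by
  let H : Multiplicative (Fin 3 → ℤ) →* G7 :=
    MonoidHom.mk' (fun v => vE v.toAdd) fun a b => vE_add _ _
  exact (map_zpow H (Multiplicative.ofAdd v) m).symm

theorem fE_zpow (v : Fin 3 → ℤ) (m : ℤ) : fE v ^ m = fE (m • v) := by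
  let H : Multiplicative (Fin 3 → ℤ) →* G7 :=
    MonoidHom.mk' (fun v => fE v.toAdd) fun a b => fE_add _ _
  exact (map_zpow H (Multiplicative.ofAdd v) m).symm

theorem sum_single (v : Fin 3 → ℤ) :
    v 0 • Pi.single 0 1 + v 1 • Pi.single 1 1 + v 2 • Pi.single 2 1 = v := by
  funext k
  fin_cases k <;> simp

theorem vE_eq (v : Fin 3 → ℤ) : vE v = vv 0 ^ v 0 * vv 1 ^ v 1 * vv 2 ^ v 2 := by
  have h : ∀ i, vv i = vE (Pi.single i 1) := fun _ => rfl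
  rw [h, h, h, vE_zpow, vE_zpow, vE_zpow, ← vE_add, ← vE_add, sum_single]

theorem fE_eq (v : Fin 3 → ℤ) : fE v = ff 0 ^ v 0 * ff 1 ^ v 1 * ff 2 ^ v 2 := by
  have h : ∀ i, ff i = fE (Pi.single i 1) := fun _ => rfl
  rw [h, h, h, fE_zpow, fE_zpow, fE_zpow, ← fE_add, ← fE_add, sum_single]

theorem zE_eq (s : ℤ) : zE s = ff 0 ^ (1 : ℤ) * vv 0 ^ s * ff 0 ^ (-1 : ℤ) * vv 0 ^ (-s) := by
  have h : ∀ i, ff i = fE (Pi.single i 1) := fun _ => rfl
  have h' : ∀ i, vv i = vE (Pi.single i 1) := fun _ => rfl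
  rw [h, h', fE_zpow, fE_zpow, vE_zpow, vE_zpow]
  refine Subtype.ext ?_
  rw [Subgroup.coe_mul, Subgroup.coe_mul, Subgroup.coe_mul]
  ext1 <;> simp [vE, fE, zE]

theorem decomp (g : G7) :
    g = zE g.1.s * vE g.1.v * fE (g.1.φ ᵥ* (g.1.γ⁻¹).1) * em g.1.γ := by
  refine Subtype.ext ?_
  rw [Subgroup.coe_mul, Subgroup.coe_mul, Subgroup.coe_mul]
  have hx := g.2.1
  have hy := g.2.2
  ext1
  · simp [vE, fE, zE, em]
  · simp [vE, fE, zE, em]
  · simp only [vE, fE, zE, em, MonoidHom.coe_mk, OneHom.coe_mk, G9.mul_φ, Matrix.zero_vecMul,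
      zero_add, add_zero, Matrix.vecMul_vecMul, ← Matrix.SpecialLinearGroup.coe_mul,
      inv_mul_cancel]
    simp
  · simp [vE, fE, zE, em, hx]
  · simp [vE, fE, zE, em, hy]
  · simp [vE, fE, zE, em]

theorem em_vE (γ : SL3) (v : Fin 3 → ℤ) : em γ * vE v * (em γ)⁻¹ = vE (γ.1 *ᵥ v) := by
  rw [mul_inv_eq_iff_eq_mul]
  refine Subtype.ext ?_
  rw [Subgroup.coe_mul, Subgroup.coe_mul]
  ext1 <;> simp [vE, em]

theorem em_fE (γ : SL3) (v : Fin 3 → ℤ) : (em γ)⁻¹ * fE v * (em γ)⁻¹⁻¹ = fE (v ᵥ* γ.1) := by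
  rw [inv_inv, mul_assoc, inv_mul_eq_iff_eq_mul]
  refine Subtype.ext ?_
  rw [Subgroup.coe_mul, Subgroup.coe_mul]
  ext1 <;> simp [fE, em]

theorem tr_mulVec_same {i k : Fin 3} :
    transvection i k (1 : ℤ) *ᵥ Pi.single k 1 = Pi.single i 1 + Pi.single k 1 := by
  revert i k; decide

theorem tr_mulVec_ne {i k : Fin 3} (h : i ≠ k) :
    transvection i k (1 : ℤ) *ᵥ Pi.single i 1 = Pi.single i 1 := by
  revert i k; decide

theorem tr_vecMul_same {i k : Fin 3} :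
    Pi.single k 1 ᵥ* transvection k i (1 : ℤ) = Pi.single i 1 + Pi.single k 1 := by
  revert i k; decide

theorem tr_vecMul_ne {i k : Fin 3} (h : i ≠ k) :
    Pi.single i 1 ᵥ* transvection k i (1 : ℤ) = Pi.single i 1 := by
  revert i k; decide

theorem tr_comm_col {i j k : Fin 3} (hij : i ≠ j) (hkj : k ≠ j) :
    transvection i j (1 : ℤ) * transvection k j 1 = transvection k j 1 * transvection i j 1 := by
  revert i j k; decide

theorem tr_comm_row {i j k : Fin 3} (hij : i ≠ j) (hik : i ≠ k) :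
    transvection i k (1 : ℤ) * transvection i j 1 = transvection i j 1 * transvection i k 1 := by
  revert i j k; decide

theorem tr_steinberg {i j k : Fin 3} (hij : i ≠ j) (hik : i ≠ k) (hkj : k ≠ j) :
    transvection i k (1 : ℤ) * transvection k j 1
      = transvection i j 1 * transvection k j 1 * transvection i k 1 := by
  revert i j k; decide

theorem config {a : G7} (ha : a ∈ gens) : ∃ b u l : G7, b ∈ gens ∧ (u ∈ gens ∨ u⁻¹ ∈ gens) ∧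
    (l ∈ gens ∨ l⁻¹ ∈ gens) ∧ a * b = b * a ∧ u * a * u⁻¹ = a ∧ u * b * u⁻¹ = a * b ∧
    l * b * l⁻¹ = b ∧ l * a * l⁻¹ = a * b := by
  have he : ∀ i j h, ee i j h = em (el i j h 1) := fun _ _ _ => rfl
  have hv : ∀ i, vv i = vE (Pi.single i 1) := fun _ => rfl
  have hf : ∀ i, ff i = fE (Pi.single i 1) := fun _ => rfl
  have mE : ∀ i j h, ee i j h ∈ gens := fun i j h => Or.inl ⟨i, j, h, rfl⟩
  rcases ha with ⟨i, j, hij, rfl⟩ | ⟨i, rfl⟩ | ⟨i, rfl⟩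
  · obtain ⟨k, hik, hkj⟩ : ∃ k, i ≠ k ∧ k ≠ j := by revert i j; decide
    have c1 : ee i j hij * ee k j hkj = ee k j hkj * ee i j hij := by
      rw [he, he, ← map_mul, ← map_mul]
      exact congrArg em (Subtype.ext (tr_comm_col hij hkj))
    refine ⟨ee k j hkj, ee i k hik, ee k i hik.symm, mE _ _ _, Or.inl (mE _ _ _),
      Or.inl (mE _ _ _), c1, ?_, ?_, ?_, ?_⟩
    · rw [mul_inv_eq_iff_eq_mul, he, he, ← map_mul, ← map_mul]
      exact congrArg em (Subtype.ext (tr_comm_row hij hik))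
    · rw [mul_inv_eq_iff_eq_mul, he, he, he, ← map_mul, ← map_mul, ← map_mul]
      exact congrArg em (Subtype.ext (tr_steinberg hij hik hkj))
    · rw [mul_inv_eq_iff_eq_mul, he, he, ← map_mul, ← map_mul]
      exact congrArg em (Subtype.ext (tr_comm_row hkj hik.symm))
    · rw [c1, mul_inv_eq_iff_eq_mul, he, he, he, ← map_mul, ← map_mul, ← map_mul]
      exact congrArg em (Subtype.ext (tr_steinberg hkj hik.symm hij))
  · obtain ⟨k, hik⟩ : ∃ k, i ≠ k := by revert i; decide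
    have c1 : vv i * vv k = vv k * vv i := by rw [hv, hv, ← vE_add, ← vE_add, add_comm]
    refine ⟨vv k, ee i k hik, ee k i hik.symm, Or.inr (Or.inl ⟨k, rfl⟩), Or.inl (mE _ _ _),
      Or.inl (mE _ _ _), c1, ?_, ?_, ?_, ?_⟩
    · rw [he, hv, em_vE, el_val, tr_mulVec_ne hik]
    · rw [he, hv, hv, em_vE, el_val, tr_mulVec_same, vE_add]
    · rw [he, hv, em_vE, el_val, tr_mulVec_ne hik.symm]
    · rw [c1, he, hv, hv, em_vE, el_val, tr_mulVec_same, vE_add]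
  · obtain ⟨k, hik⟩ : ∃ k, i ≠ k := by revert i; decide
    have c1 : ff i * ff k = ff k * ff i := by rw [hf, hf, ← fE_add, ← fE_add, add_comm]
    refine ⟨ff k, (ee k i hik.symm)⁻¹, (ee i k hik)⁻¹, Or.inr (Or.inr ⟨k, rfl⟩),
      Or.inr (by rw [inv_inv]; exact mE _ _ _), Or.inr (by rw [inv_inv]; exact mE _ _ _),
      c1, ?_, ?_, ?_, ?_⟩
    · rw [he, hf, em_fE, el_val, tr_vecMul_ne hik]
    · rw [he, hf, hf, em_fE, el_val, tr_vecMul_same, fE_add]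
    · rw [he, hf, em_fE, el_val, tr_vecMul_ne hik.symm]
    · rw [c1, he, hf, hf, em_fE, el_val, tr_vecMul_same, fE_add]

section Rep

variable {G K : Type} [Group G] [NormedAddCommGroup K] [InnerProductSpace ℂ K] [CompleteSpace K]
  {ρ : G →* (K →L[ℂ] K)}

omit [CompleteSpace K] in
theorem rho_rho (g h : G) (ξ : K) : ρ g (ρ h ξ) = ρ (g * h) ξ := by
  rw [map_mul]; rfl

theorem norm_rho (hρ : ∀ g, star (ρ g) = ρ g⁻¹) (g : G) (ξ : K) : ‖ρ g ξ‖ = ‖ξ‖ := by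
  have h : inner ℂ (ρ g ξ) (ρ g ξ) = inner ℂ ξ ξ := by
    rw [← ContinuousLinearMap.adjoint_inner_right, ← ContinuousLinearMap.star_eq_adjoint, hρ,
      rho_rho, inv_mul_cancel, map_one]
    rfl
  rw [@norm_eq_sqrt_re_inner ℂ, h, ← @norm_eq_sqrt_re_inner ℂ]

theorem norm_inv_sub (hρ : ∀ g, star (ρ g) = ρ g⁻¹) (g : G) (ξ : K) :
    ‖ρ g⁻¹ ξ - ξ‖ = ‖ρ g ξ - ξ‖ := by
  rw [← norm_rho hρ g, map_sub, rho_rho, mul_inv_cancel, map_one, norm_sub_rev]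
  rfl

theorem norm_prod_sub (hρ : ∀ g, star (ρ g) = ρ g⁻¹) (ξ : K) (δ : ℝ) : ∀ l : List G,
    (∀ e ∈ l, ‖ρ e ξ - ξ‖ ≤ δ) → ‖ρ l.prod ξ - ξ‖ ≤ l.length * δ
  | [], _ => by simp
  | a :: l, h => by
    have h1 := h a (by simp)
    have h2 := norm_prod_sub hρ ξ δ l fun e he => h e (by simp [he])
    have h3 : ρ (a :: l).prod ξ - ξ = ρ a (ρ l.prod ξ - ξ) + (ρ a ξ - ξ) := by
      rw [List.prod_cons, map_sub, rho_rho]; abel
    rw [h3, List.length_cons]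
    refine (norm_add_le _ _).trans ?_
    rw [norm_rho hρ]
    push_cast
    linarith

theorem exists_fixed (hρ : ∀ g, star (ρ g) = ρ g⁻¹) (ξ : K) (r : ℝ)
    (h : ∀ g, ‖ρ g ξ - ξ‖ ≤ r) : ∃ η : K, (∀ g, ρ g η = η) ∧ ‖η - ξ‖ ≤ r := by
  let _ : InnerProductSpace ℝ K := InnerProductSpace.complexToReal
  set S : Set K := ⋂ g, Metric.closedBall (ρ g ξ) r with hS
  have hmem : ∀ η, η ∈ S ↔ ∀ g, ‖η - ρ g ξ‖ ≤ r := by
    intro η
    simp only [hS, Set.mem_iInter, mem_closedBall_iff_norm]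
  have hne : S.Nonempty := ⟨ξ, (hmem ξ).2 fun g => by rw [norm_sub_rev]; exact h g⟩
  have hcl : IsClosed S := isClosed_iInter fun g => Metric.isClosed_closedBall
  have hcv : Convex ℝ S := convex_iInter fun g => convex_closedBall _ _
  obtain ⟨η, hη, hmin⟩ := exists_norm_eq_iInf_of_complete_convex hne hcl.isComplete hcv 0
  have hle : ∀ w ∈ S, ‖η‖ ≤ ‖w‖ := by
    intro w hw
    have : ⨅ w : S, ‖(0 : K) - w‖ ≤ ‖(0 : K) - w‖ :=
      ciInf_le (f := fun w : S => ‖(0 : K) - w‖) ⟨0, by rintro _ ⟨w, rfl⟩; positivity⟩ ⟨w, hw⟩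
    rw [← hmin] at this
    simpa using this
  refine ⟨η, fun g => ?_, by simpa using (hmem η).1 hη 1⟩
  have hg : ρ g η ∈ S := by
    refine (hmem _).2 fun g' => ?_
    have := (hmem η).1 hη (g⁻¹ * g')
    rwa [← norm_rho hρ g, map_sub, rho_rho, mul_inv_cancel_left] at this
  have hm := hle _ (hcv hg hη (a := 1 / 2) (b := 1 / 2) (by norm_num) (by norm_num) (by norm_num))
  rw [← smul_add, norm_smul] at hm
  have hp := parallelogram_law_with_norm ℂ (ρ g η) η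
  rw [norm_rho hρ] at hp
  have h2 : ‖(1 / 2 : ℝ)‖ = 1 / 2 := by norm_num
  rw [h2] at hm
  have h3 : ‖ρ g η - η‖ * ‖ρ g η - η‖ ≤ 0 := by nlinarith [norm_nonneg η]
  have h4 : ‖ρ g η - η‖ = 0 := by nlinarith [norm_nonneg (ρ g η - η)]
  exact sub_eq_zero.1 (norm_eq_zero.1 h4)

end Rep

end KazhdanAux

theorem small_of_mem_gens {g : G7} (h : g ∈ gens) : Small 1 g.1 := by
  rcases h with ⟨i, j, hij, rfl⟩ | ⟨i, rfl⟩ | ⟨i, rfl⟩
  · refine ⟨?_, by simp [ee], by simp [ee], by simp [ee], by simp [ee], by simp [ee]⟩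
    change ∀ a b, |Matrix.transvection i j (1 : ℤ) a b| ≤ 1
    revert i j; decide
  · refine ⟨?_, ?_, by simp [vv], by simp [vv], by simp [vv], by simp [vv]⟩
    · change ∀ a b, |(1 : Matrix (Fin 3) (Fin 3) ℤ) a b| ≤ 1
      decide
    · change ∀ a, |(Pi.single i 1 : Fin 3 → ℤ) a| ≤ 1
      revert i; decide
  · refine ⟨?_, by simp [ff], ?_, by simp [ff], by simp [ff], by simp [ff]⟩
    · change ∀ a b, |(1 : Matrix (Fin 3) (Fin 3) ℤ) a b| ≤ 1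
      decide
    · change ∀ a, |(Pi.single i 1 : Fin 3 → ℤ) a| ≤ 1
      revert i; decide

theorem finite_gens : gens.Finite := by
  refine Set.Finite.subset ((finite_small 1).preimage Subtype.val_injective.injOn) ?_
  intro g hg
  exact small_of_mem_gens hg

theorem exists_prod_zpow : ∃ k : ℕ, ∀ g : G7, ∃ l : List G7, l.length ≤ k ∧
    (∀ e ∈ l, ∃ a ∈ gens, ∃ m : ℤ, e = a ^ m) ∧ l.prod = g := by
  obtain ⟨k, hk⟩ := bdd_gen
  refine ⟨10 + k, fun g => ?_⟩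
  obtain ⟨l, hl, hm, hp⟩ := hk g.1.γ
  set ψ := Matrix.vecMul g.1.φ (g.1.γ⁻¹).1 with hψ
  have mv : ∀ (i : Fin 3) (m : ℤ), ∃ a ∈ gens, ∃ n : ℤ, vv i ^ m = a ^ n :=
    fun i m => ⟨vv i, Or.inr (Or.inl ⟨i, rfl⟩), m, rfl⟩
  have mf : ∀ (i : Fin 3) (m : ℤ), ∃ a ∈ gens, ∃ n : ℤ, ff i ^ m = a ^ n :=
    fun i m => ⟨ff i, Or.inr (Or.inr ⟨i, rfl⟩), m, rfl⟩
  refine ⟨[ff 0 ^ (1 : ℤ), vv 0 ^ g.1.s, ff 0 ^ (-1 : ℤ), vv 0 ^ (-g.1.s), vv 0 ^ g.1.v 0,
    vv 1 ^ g.1.v 1, vv 2 ^ g.1.v 2, ff 0 ^ ψ 0, ff 1 ^ ψ 1, ff 2 ^ ψ 2] ++ l.map KazhdanAux.em,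
    by simp; omega, ?_, ?_⟩
  · intro e he
    rcases List.mem_append.1 he with he | he
    · simp only [List.mem_cons, List.not_mem_nil, or_false] at he
      rcases he with rfl | rfl | rfl | rfl | rfl | rfl | rfl | rfl | rfl | rfl <;>
        first | exact mv _ _ | exact mf _ _
    · obtain ⟨γ, hγ, rfl⟩ := List.mem_map.1 he
      obtain ⟨i, j, h, m, rfl⟩ := hm γ hγ
      refine ⟨ee i j h, Or.inl ⟨i, j, h, rfl⟩, m, ?_⟩
      rw [← el_zpow, map_zpow]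
      rfl
  · rw [List.prod_append, ← map_list_prod, hp]
    conv_rhs => rw [KazhdanAux.decomp g, KazhdanAux.zE_eq, KazhdanAux.vE_eq, KazhdanAux.fE_eq]
    simp only [List.prod_cons, List.prod_nil, mul_one, mul_assoc, ← hψ]

theorem closure_gens : Subgroup.closure gens = ⊤ := by
  obtain ⟨k, hk⟩ := exists_prod_zpow
  rw [eq_top_iff]
  intro g _
  obtain ⟨l, _, hm, rfl⟩ := hk g
  refine Subgroup.list_prod_mem _ fun e he => ?_
  obtain ⟨a, ha, m, rfl⟩ := hm e he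
  exact Subgroup.zpow_mem _ (Subgroup.subset_closure ha) m

theorem kazhdan_G7 : ∃ (T : Finset G7) (c : ℝ), 0 < c ∧ KazhdanSet T c := by
  obtain ⟨k, hk⟩ := exists_prod_zpow
  obtain ⟨C, hC, hT⟩ := relT
  set δ : ℝ := 1 / (2 * (k + 1)) with hδ
  have hδ0 : 0 < δ := by positivity
  set c : ℝ := min 1 (δ ^ 2 / C) with hc
  have hc0 : 0 < c := lt_min one_pos (by positivity)
  have hcC : C * c ≤ δ ^ 2 := by
    have : c ≤ δ ^ 2 / C := min_le_right _ _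
    rwa [le_div_iff₀' hC] at this
  refine ⟨finite_gens.toFinset, c, hc0, fun K _ _ _ ρ hρ ξ₀ horth => ?_⟩
  by_contra hcon
  push Not at hcon
  have hne : ξ₀ ≠ 0 := by
    rintro rfl
    have := hcon (vv 0) ((Set.Finite.mem_toFinset _).2 (Or.inr (Or.inl ⟨0, rfl⟩)))
    simp at this
  have hn0 : 0 < ‖ξ₀‖ := norm_pos_iff.2 hne
  set ξ : K := ((‖ξ₀‖⁻¹ : ℝ) : ℂ) • ξ₀ with hξ
  have hξ1 : ‖ξ‖ = 1 := by
    rw [hξ, norm_smul, Complex.norm_real, norm_inv, norm_norm, inv_mul_cancel₀ hn0.ne']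
  have hgen : ∀ t ∈ gens, ‖ρ t ξ - ξ‖ ≤ c := by
    intro t ht
    have := (hcon t (by simpa using ht)).le
    rw [hξ, map_smul, ← smul_sub, norm_smul, Complex.norm_real, norm_inv, norm_norm,
      inv_mul_le_iff₀ hn0]
    linarith
  have hgen' : ∀ t : G7, t ∈ gens ∨ t⁻¹ ∈ gens → ‖ρ t ξ - ξ‖ ≤ c := by
    rintro t (ht | ht)
    · exact hgen t ht
    · rw [← KazhdanAux.norm_inv_sub hρ]
      exact hgen _ ht
  have hpow : ∀ a ∈ gens, ∀ m : ℤ, ‖ρ (a ^ m) ξ - ξ‖ ≤ δ := by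
    intro a ha m
    obtain ⟨b, u, l, hb, hu, hl, h1, h2, h3, h4, h5⟩ := KazhdanAux.config ha
    have := hT G7 K ρ hρ a b u l h1 h2 h3 h4 h5 ξ c hξ1.le (min_le_left _ _) (hgen a ha)
      (hgen b hb) (hgen' u hu) (hgen' l hl) m
    exact (pow_le_pow_iff_left₀ (norm_nonneg _) hδ0.le two_ne_zero).1 (this.trans hcC)
  have hall : ∀ g, ‖ρ g ξ - ξ‖ ≤ 1 / 2 := by
    intro g
    obtain ⟨l, hl, hm, rfl⟩ := hk g
    have h1 := KazhdanAux.norm_prod_sub hρ ξ δ l fun e he => by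
      obtain ⟨a, ha, m, rfl⟩ := hm e he
      exact hpow a ha m
    have h2 : (l.length : ℝ) ≤ k + 1 := by exact_mod_cast hl.trans (Nat.le_succ k)
    have h3 : ((k : ℝ) + 1) * δ = 1 / 2 := by rw [hδ]; field_simp
    exact h1.trans ((mul_le_mul_of_nonneg_right h2 hδ0.le).trans h3.le)
  obtain ⟨η, hη, hd⟩ := KazhdanAux.exists_fixed hρ ξ _ hall
  have h0 : inner ℂ η ξ = 0 := by rw [hξ, inner_smul_right, horth η hη, mul_zero]
  have h1 : inner ℂ (η - ξ) ξ = -1 := by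
    rw [inner_sub_left, h0, inner_self_eq_norm_sq_to_K, hξ1]; simp
  have h2 := norm_inner_le_norm (𝕜 := ℂ) (η - ξ) ξ
  rw [h1, hξ1, norm_neg, norm_one] at h2
  linarith

end Vale.Agent.P212
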