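import Vale.Agent.P212.Defs1

/-! TASK Near: metrics from filtrations of relations, path metrics of bounded degree graphs, and
the capped version making a coarse disjoint union.
Plan. `NearSys.d x y = ⨅ (r : ℕ) (_ : rel r x y), (r : ℝ≥0∞)`; if the set of `r` is nonempty the
infimum is attained at `Nat.find`, which gives `d_le_iff` and the triangle inequality. -/

noncomputable section

namespace Vale.Agent.P212

/-- A filtration of relations, `rel r x y` meaning `d(x, y) ≤ r`. -/
structure NearSys (X : Type) : Type where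
  rel : ℕ → X → X → Prop
  refl : ∀ x, rel 0 x x
  symm : ∀ {r x y}, rel r x y → rel r y x
  mono : ∀ {r r' x y}, r ≤ r' → rel r x y → rel r' x y
  trans : ∀ {r r' x y z}, rel r x y → rel r' y z → rel (r + r') x z

variable {X : Type}

namespace NearSys

variable (N : NearSys X)

/-- The distance. -/
def d (x y : X) : ENNReal := ⨅ (r : ℕ) (_ : N.rel r x y), (r : ENNReal)

theorem d_le_iff (x y : X) (r : ℕ) : N.d x y ≤ r ↔ N.rel r x y := by
  refine ⟨fun h => ?_, fun h => iInf₂_le r h⟩
  have h1 : N.d x y < ((r + 1 : ℕ) : ENNReal) :=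
    h.trans_lt (by exact_mod_cast Nat.lt_succ_self r)
  simp only [d, iInf_lt_iff] at h1
  obtain ⟨r', hr', hlt⟩ := h1
  exact N.mono (Nat.lt_succ_iff.1 (by exact_mod_cast hlt)) hr'

theorem d_ne_top_iff (x y : X) : N.d x y ≠ ⊤ ↔ ∃ r, N.rel r x y := by
  constructor
  · intro h
    by_contra hc
    push Not at hc
    exact h (by simp [d, hc])
  · rintro ⟨r, hr⟩
    exact ne_top_of_le_ne_top (ENNReal.natCast_ne_top r) ((N.d_le_iff x y r).2 hr)

theorem one_le_d {x y : X} (h : ¬ N.rel 0 x y) : 1 ≤ N.d x y := by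
  refine le_iInf₂ fun r hr => ?_
  have : r ≠ 0 := by rintro rfl; exact h hr
  exact_mod_cast Nat.one_le_iff_ne_zero.2 this

/-- The pseudo extended metric. -/
abbrev toPseudo : PseudoEMetricSpace X where
  edist := N.d
  edist_self := by
    intro x
    simpa using (N.d_le_iff x x 0).2 (N.refl x)
  edist_comm := by
    intro x y
    exact le_antisymm (le_iInf₂ fun r hr => iInf₂_le r (N.symm hr))
      (le_iInf₂ fun r hr => iInf₂_le r (N.symm hr))
  edist_triangle := by
    intro x y z
    refine ENNReal.le_iInf₂_add_iInf₂ fun r hr r' hr' => ?_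
    rw [← Nat.cast_add]
    exact iInf₂_le (r + r') (N.trans hr hr')

/-- The extended metric. -/
abbrev toEMetric (h0 : ∀ x y, N.rel 0 x y → x = y) : EMetricSpace X where
  toPseudoEMetricSpace := N.toPseudo
  eq_of_edist_eq_zero := by
    intro x y h
    exact h0 x y ((N.d_le_iff x y 0).1 (le_of_eq (h.trans Nat.cast_zero.symm)))

/-- The metric. -/
abbrev toMetric (h0 : ∀ x y, N.rel 0 x y → x = y) (hfin : ∀ x y, ∃ r, N.rel r x y) :
    MetricSpace X :=
  @EMetricSpace.toMetricSpace X (N.toEMetric h0) fun x y => (N.d_ne_top_iff x y).2 (hfin x y)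

theorem toMetric_one_le (h0 : ∀ x y, N.rel 0 x y → x = y) (hfin : ∀ x y, ∃ r, N.rel r x y)
    {x y : X} (h : x ≠ y) : 1 ≤ @dist X (N.toMetric h0 hfin).toDist x y := by
  have h1 : 1 ≤ N.d x y := N.one_le_d fun h' => h (h0 x y h')
  have h2 : N.d x y ≠ ⊤ := (N.d_ne_top_iff x y).2 (hfin x y)
  change 1 ≤ (N.d x y).toReal
  simpa using ENNReal.toReal_mono h2 h1

/-- Uniformly finite balls. -/
def Bdd : Prop := ∀ r : ℕ, ∃ M : ℕ, ∀ x, {y | N.rel r x y}.encard ≤ M

theorem bddGeom_of_edist [PseudoEMetricSpace X] (h : ∀ x y, edist x y = N.d x y) (hb : N.Bdd) :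
    BddGeom X := by
  refine ⟨fun R => ?_⟩
  obtain ⟨M, hM⟩ := hb R
  refine ⟨M, fun x => ?_⟩
  simpa only [h, d_le_iff] using hM x

/-- The capped filtration: points of level `< r` are `r`-close. -/
def cap (lv : X → ℕ) (h : ∀ r x y, N.rel r x y → lv x = lv y) : NearSys X where
  rel r x y := N.rel r x y ∨ (lv x < r ∧ lv y < r)
  refl x := Or.inl (N.refl x)
  symm := by
    rintro r x y (h1 | h1)
    · exact Or.inl (N.symm h1)
    · exact Or.inr h1.symm
  mono := by
    rintro r r' x y hr (h1 | h1)
    · exact Or.inl (N.mono hr h1)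
    · exact Or.inr ⟨h1.1.trans_le hr, h1.2.trans_le hr⟩
  trans := by
    rintro r r' x y z (h1 | h1) (h2 | h2)
    · exact Or.inl (N.trans h1 h2)
    · have := h _ _ _ h1
      exact Or.inr ⟨by omega, by omega⟩
    · have := h _ _ _ h2
      exact Or.inr ⟨by omega, by omega⟩
    · exact Or.inr ⟨by omega, by omega⟩

theorem cap_rel (lv : X → ℕ) (h : ∀ r x y, N.rel r x y → lv x = lv y) (r : ℕ) (x y : X) :
    (N.cap lv h).rel r x y ↔ N.rel r x y ∨ (lv x < r ∧ lv y < r) := Iff.rfl

theorem cap_fin (lv : X → ℕ) (h : ∀ r x y, N.rel r x y → lv x = lv y) (x y : X) :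
    ∃ r, (N.cap lv h).rel r x y := by
  exact ⟨lv x + lv y + 1, Or.inr ⟨by omega, by omega⟩⟩

theorem Bdd.cap {N : NearSys X} (hb : N.Bdd) (lv : X → ℕ)
    (h : ∀ r x y, N.rel r x y → lv x = lv y) (hf : ∀ n, {x | lv x = n}.Finite) :
    (N.cap lv h).Bdd := by
  intro r
  obtain ⟨M, hM⟩ := hb r
  have hfin : {y | lv y < r}.Finite := by
    refine ((Set.finite_lt_nat r).biUnion fun n _ => hf n).subset fun y hy => ?_
    simpa using hy
  refine ⟨M + hfin.toFinset.card, fun x => ?_⟩
  have hsub : {y | (N.cap lv h).rel r x y} ⊆ {y | N.rel r x y} ∪ {y | lv y < r} := by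
    rintro y (hy | hy)
    · exact Or.inl hy
    · exact Or.inr hy.2
  refine (Set.encard_le_encard hsub).trans ((Set.encard_union_le _ _).trans ?_)
  rw [Nat.cast_add, hfin.encard_eq_coe_toFinset_card]
  exact add_le_add (hM x) le_rfl

end NearSys

/-- Paths with `r` steps. -/
inductive Iter (S : X → X → Prop) : ℕ → X → X → Prop
  | zero (x : X) : Iter S 0 x x
  | succ {r : ℕ} {x y z : X} : Iter S r x y → S y z → Iter S (r + 1) x z

theorem Iter.eq_of_zero {S : X → X → Prop} {x y : X} (h : Iter S 0 x y) : x = y := by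
  cases h; rfl

theorem Iter.single {S : X → X → Prop} {x y : X} (h : S x y) : Iter S 1 x y :=
  (Iter.zero x).succ h

theorem Iter.of_one {S : X → X → Prop} {x y : X} (h : Iter S 1 x y) : S x y := by
  cases h with
  | succ h1 h2 => rwa [h1.eq_of_zero]

theorem Iter.map {Y : Type} {S : X → X → Prop} {S' : Y → Y → Prop} (f : X → Y)
    (hf : ∀ x y, S x y → S' (f x) (f y)) {r : ℕ} {x y : X} (h : Iter S r x y) :
    Iter S' r (f x) (f y) := by
  induction h with
  | zero x => exact Iter.zero _
  | succ _ h2 ih => exact ih.succ (hf _ _ h2)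

theorem Iter.cons_near {S : X → X → Prop} {r : ℕ} {x y z : X} (h : S x y) (h' : Iter S r y z) :
    Iter S (r + 1) x z := by
  induction h' with
  | zero y => exact Iter.single h
  | succ _ h2 ih => exact (ih h).succ h2

theorem encard_biUnion_le_near {Y : Type} (s : Finset Y) (t : Y → Set X) (M : ℕ)
    (hM : ∀ y, (t y).encard ≤ M) : (⋃ y ∈ s, t y).encard ≤ s.card * M := by
  classical
  induction s using Finset.induction_on with
  | empty => simp
  | insert a s ha ih =>
    rw [Finset.set_biUnion_insert, Finset.card_insert_of_notMem ha, Nat.cast_succ, add_mul,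
      one_mul, add_comm]
    exact (Set.encard_union_le _ _).trans (add_le_add (hM a) ih)

/-- The path filtration of a reflexive symmetric relation. -/
def iterSys (S : X → X → Prop) (hr : ∀ x, S x x) (hs : ∀ x y, S x y → S y x) : NearSys X where
  rel := Iter S
  refl := Iter.zero
  symm := by
    intro r x y h
    induction h with
    | zero x => exact Iter.zero _
    | succ _ h2 ih => exact Iter.cons_near (hs _ _ h2) ih
  mono := by
    intro r r' x y hle h
    induction hle with
    | refl => exact h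
    | step _ ih => exact ih.succ (hr y)
  trans := by
    intro r r' x y z h h'
    induction h' with
    | zero x => exact h
    | succ _ h2 ih => exact (ih h).succ h2

theorem iterSys_bdd (S : X → X → Prop) (hr : ∀ x, S x x) (hs : ∀ x y, S x y → S y x) (M : ℕ)
    (hM : ∀ x, {y | S x y}.encard ≤ M) : (iterSys S hr hs).Bdd := by
  intro r
  refine ⟨M ^ r, fun x => ?_⟩
  change {y | Iter S r x y}.encard ≤ _
  induction r with
  | zero =>
    have : {y | Iter S 0 x y} ⊆ {x} := fun y hy => (Iter.eq_of_zero hy).symm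
    simpa using Set.encard_le_encard this
  | succ r ih =>
    have hfin : {y | Iter S r x y}.Finite := Set.finite_of_encard_le_coe ih
    have hsub : {z | Iter S (r + 1) x z} ⊆ ⋃ y ∈ hfin.toFinset, {z | S y z} := by
      intro z hz
      cases hz with
      | succ h1 h2 => exact Set.mem_biUnion ((Set.Finite.mem_toFinset _).2 h1) h2
    refine (Set.encard_le_encard hsub).trans ((encard_biUnion_le_near _ _ M hM).trans ?_)
    rw [← hfin.encard_eq_coe_toFinset_card, pow_succ, Nat.cast_mul]
    exact mul_le_mul_left ih _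

end Vale.Agent.P212
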