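import Vale.Agent.P212.Defs1

/-! TASK OpKit1: matrix entries of operators on `ℓ²(X, H)`, compact operators, `ampl`, permutation
operators. No metric on `X` here.
Hints: `ev x ξ = ξ x` and `sing y v = lp.single 2 y v` are `rfl`; `lp.hasSum_single` gives
`ξ = ∑ sing z (ξ z)`, apply continuous linear maps with `HasSum.mapL`; `lp.inner_single_left/right`
for the adjoints; for `compacts_star` use `Vale.Agent.P089.Model.compact_mem` (a compact operator
is in the closed span of the rank one operators `a.comp f`; you may import `Vale.Agent.P089.Model`)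
together with `isClosed_setOf_isCompactOperator` and continuity of `star`; `permOp` can be built
like `Vale.Agent.P089.shift`. -/

noncomputable section

open Classical

namespace Vale.Agent.P212

variable {X H : Type} [NormedAddCommGroup H] [InnerProductSpace ℂ H]

@[simp] theorem ev_apply (x : X) (ξ : L2 X H) : ev x ξ = ξ x := rfl

theorem sing_apply (y : X) (v : H) (x : X) : (sing y v : L2 X H) x = if x = y then v else 0 := by
  change (lp.single 2 y v : L2 X H) x = _
  rw [lp.single_apply, Pi.single_apply]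

theorem entry_apply (T : Op (L2 X H) (L2 X H)) (x y : X) (v : H) :
    entry T x y v = T (sing y v) x := rfl

theorem norm_sing (y : X) (v : H) : ‖(sing y v : L2 X H)‖ = ‖v‖ := by
  exact lp.norm_single (E := fun _ : X => H) (by norm_num) y v

theorem op_ext {E : Type} [NormedAddCommGroup E] [InnerProductSpace ℂ E] {a b : Op E (L2 X H)}
    (h : ∀ ξ x, a ξ x = b ξ x) : a = b := by
  exact ContinuousLinearMap.ext fun ξ => lp.ext (funext (h ξ))

theorem entry_ext {S T : Op (L2 X H) (L2 X H)} (h : ∀ x y, entry S x y = entry T x y) : S = T := by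
  refine lp.ext_continuousLinearMap (by norm_num) fun y => op_ext fun v x => ?_
  exact DFunLike.congr_fun (h x y) v

theorem norm_entry_le (T : Op (L2 X H) (L2 X H)) (x y : X) : ‖entry T x y‖ ≤ ‖T‖ := by
  refine ContinuousLinearMap.opNorm_le_bound _ (norm_nonneg T) fun v => ?_
  rw [entry_apply, ← norm_sing y v]
  exact (lp.norm_apply_le_norm (by norm_num) _ x).trans (T.le_opNorm _)

@[simp] theorem entry_zero (x y : X) : entry (0 : Op (L2 X H) (L2 X H)) x y = 0 := by
  exact ContinuousLinearMap.ext fun _ => rfl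

theorem entry_one (x y : X) :
    entry (1 : Op (L2 X H) (L2 X H)) x y = if x = y then 1 else 0 := by
  refine ContinuousLinearMap.ext fun v => ?_
  change (sing y v : L2 X H) x = _
  rw [sing_apply]
  split_ifs <;> rfl

@[simp] theorem entry_add (S T : Op (L2 X H) (L2 X H)) (x y : X) :
    entry (S + T) x y = entry S x y + entry T x y := by
  exact ContinuousLinearMap.ext fun _ => rfl

@[simp] theorem entry_sub (S T : Op (L2 X H) (L2 X H)) (x y : X) :
    entry (S - T) x y = entry S x y - entry T x y := by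
  exact ContinuousLinearMap.ext fun _ => rfl

@[simp] theorem entry_neg (T : Op (L2 X H) (L2 X H)) (x y : X) :
    entry (-T) x y = -entry T x y := by
  exact ContinuousLinearMap.ext fun _ => rfl

@[simp] theorem entry_smul (c : ℂ) (T : Op (L2 X H) (L2 X H)) (x y : X) :
    entry (c • T) x y = c • entry T x y := by
  exact ContinuousLinearMap.ext fun _ => rfl

theorem entry_sum {ι : Type} (s : Finset ι) (T : ι → Op (L2 X H) (L2 X H)) (x y : X) :
    entry (∑ i ∈ s, T i) x y = ∑ i ∈ s, entry (T i) x y := by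
  induction s using Finset.induction_on with
  | empty => simp
  | insert i s hi ih => rw [Finset.sum_insert hi, Finset.sum_insert hi, entry_add, ih]

theorem continuous_entry (x y : X) :
    Continuous fun T : Op (L2 X H) (L2 X H) => entry T x y := by
  exact continuous_const.clm_comp (continuous_id.clm_comp continuous_const)

theorem hasSum_entry_ok1 (T : Op (L2 X H) (L2 X H)) (x : X) (ξ : L2 X H) :
    HasSum (fun z => entry T x z (ξ z)) (T ξ x) :=
  (lp.hasSum_single (by norm_num) ξ).mapL ((ev x).comp T)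

/-- `(T ξ)(x) = ∑_z T_{xz} ξ(z)` when row `x` of `T` is supported in `s`. -/
theorem apply_eq_sum (T : Op (L2 X H) (L2 X H)) (x : X) (s : Finset X)
    (h : ∀ z, z ∉ s → entry T x z = 0) (ξ : L2 X H) : T ξ x = ∑ z ∈ s, entry T x z (ξ z) := by
  refine (hasSum_entry_ok1 T x ξ).unique (hasSum_sum_of_ne_finset_zero fun z hz => ?_)
  rw [h z hz]
  rfl

theorem entry_mul_ok1 (S T : Op (L2 X H) (L2 X H)) (x y : X) (s : Finset X)
    (h : ∀ z, z ∉ s → entry S x z * entry T z y = 0) :
    entry (S * T) x y = ∑ z ∈ s, entry S x z * entry T z y := by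
  refine ContinuousLinearMap.ext fun v => ?_
  rw [sum_apply]
  exact (hasSum_entry_ok1 S x (T (sing y v))).unique
    (hasSum_sum_of_ne_finset_zero fun z hz => DFunLike.congr_fun (h z hz) v)

theorem entry_mul_left (S T : Op (L2 X H) (L2 X H)) (x y : X) (s : Finset X)
    (h : ∀ z, z ∉ s → entry S x z = 0) :
    entry (S * T) x y = ∑ z ∈ s, entry S x z * entry T z y := by
  exact entry_mul_ok1 S T x y s fun z hz => by rw [h z hz, zero_mul]

theorem entry_mul_right (S T : Op (L2 X H) (L2 X H)) (x y : X) (s : Finset X)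
    (h : ∀ z, z ∉ s → entry T z y = 0) :
    entry (S * T) x y = ∑ z ∈ s, entry S x z * entry T z y := by
  exact entry_mul_ok1 S T x y s fun z hz => by rw [h z hz, mul_zero]

/-- If all products `S_{xz} T_{zy}` vanish outside `s`, the sum over `s` is the entry. -/
theorem entry_mul (S T : Op (L2 X H) (L2 X H)) (x y : X) (s : Finset X)
    (h : ∀ z, z ∉ s → entry S x z * entry T z y = 0) :
    entry (S * T) x y = ∑ z ∈ s, entry S x z * entry T z y := by
  exact entry_mul_ok1 S T x y s h

theorem adjoint_ev [CompleteSpace H] (x : X) :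
    ContinuousLinearMap.adjoint (ev x : Op (L2 X H) H) = sing x := by
  refine ((ContinuousLinearMap.eq_adjoint_iff _ _).2 fun v ξ => ?_).symm
  exact lp.inner_single_left (G := fun _ : X => H) x v ξ

theorem adjoint_sing [CompleteSpace H] (x : X) :
    ContinuousLinearMap.adjoint (sing x : Op H (L2 X H)) = ev x := by
  rw [← adjoint_ev, ContinuousLinearMap.adjoint_adjoint]

theorem entry_star [CompleteSpace H] (T : Op (L2 X H) (L2 X H)) (x y : X) :
    entry (star T) x y = star (entry T y x) := by
  rw [ContinuousLinearMap.star_eq_adjoint, ContinuousLinearMap.star_eq_adjoint, entry, entry,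
    sandwich, sandwich, ContinuousLinearMap.adjoint_comp, ContinuousLinearMap.adjoint_comp,
    adjoint_ev, adjoint_sing]
  rfl

/-! ### compact operators -/

theorem compacts_zero : (0 : Op H H) ∈ compacts H := by
  exact isCompactOperator_zero

theorem compacts_add {S T : Op H H} (hS : S ∈ compacts H) (hT : T ∈ compacts H) :
    S + T ∈ compacts H := by
  exact IsCompactOperator.add hS hT

theorem compacts_neg {T : Op H H} (hT : T ∈ compacts H) : -T ∈ compacts H := by
  exact IsCompactOperator.neg hT

theorem compacts_sub {S T : Op H H} (hS : S ∈ compacts H) (hT : T ∈ compacts H) :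
    S - T ∈ compacts H := by
  exact IsCompactOperator.sub hS hT

theorem compacts_smul (c : ℂ) {T : Op H H} (hT : T ∈ compacts H) : c • T ∈ compacts H := by
  exact IsCompactOperator.smul hT c

theorem compacts_mul_left (S : Op H H) {T : Op H H} (hT : T ∈ compacts H) :
    S * T ∈ compacts H := by
  exact IsCompactOperator.clm_comp hT S

theorem compacts_mul_right {S : Op H H} (hS : S ∈ compacts H) (T : Op H H) :
    S * T ∈ compacts H := by
  exact IsCompactOperator.comp_clm hS T

theorem compacts_sum {ι : Type} (s : Finset ι) {T : ι → Op H H} (h : ∀ i ∈ s, T i ∈ compacts H) :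
    ∑ i ∈ s, T i ∈ compacts H := by
  exact Finset.sum_induction T (· ∈ compacts H) (fun _ _ => compacts_add) compacts_zero h

theorem isClosed_compacts [CompleteSpace H] : IsClosed (compacts H) := by
  exact isClosed_setOfPred_isCompactOperator

theorem compacts_star [CompleteSpace H] {T : Op H H} (hT : T ∈ compacts H) :
    star T ∈ compacts H := by
  rw [← isClosed_compacts.closure_eq]
  refine Metric.mem_closure_iff.2 fun δ hδ => ?_
  obtain ⟨C, hC, hTC⟩ :=
    IsCompactOperator.image_closedBall_subset_compact (f := (T : H →ₗ[ℂ] H)) hT 1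
  obtain ⟨t, ht, hcov⟩ := Metric.totallyBounded_iff.1 hC.totallyBounded (δ / 2) (half_pos hδ)
  let V : Submodule ℂ H := Submodule.span ℂ t
  have : FiniteDimensional ℂ V := FiniteDimensional.span_of_finite ℂ ht
  have : ProperSpace V := FiniteDimensional.proper ℂ V
  have hP : V.starProjection ∈ compacts H :=
    (isCompactOperator_of_locallyCompactSpace_dom V.orthogonalProjectionOnto).clm_comp V.subtypeL
  refine ⟨star (V.starProjection * T), ?_, ?_⟩
  · rw [star_mul, (isSelfAdjoint_starProjection V).star_eq]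
    exact compacts_mul_left _ hP
  · rw [dist_eq_norm, ← star_sub, norm_star]
    refine lt_of_le_of_lt (ContinuousLinearMap.opNorm_le_of_unit_norm (half_pos hδ).le
      fun x hx => ?_) (half_lt_self hδ)
    have h1 := hcov (hTC ⟨x, by simp [hx], rfl⟩)
    simp only [Set.mem_iUnion] at h1
    obtain ⟨y, hy, hxy⟩ := h1
    change ‖T x - V.starProjection (T x)‖ ≤ _
    rw [Submodule.starProjection_minimal]
    refine le_trans ?_ (mem_ball_iff_norm.1 hxy).le
    change _ ≤ ‖T x - (⟨y, Submodule.subset_span hy⟩ : V)‖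
    exact ciInf_le ⟨0, Set.forall_mem_range.mpr fun _ => norm_nonneg _⟩ _

/-- The compact operators as a two sided ideal. -/
def cptIdeal (H : Type) [NormedAddCommGroup H] [InnerProductSpace ℂ H] : TwoSidedIdeal (Op H H) :=
  TwoSidedIdeal.mk' (compacts H) compacts_zero compacts_add compacts_neg
    (fun {x _} hy => compacts_mul_left x hy) (fun {_ y} hx => compacts_mul_right hx y)

theorem mem_cptIdeal {T : Op H H} : T ∈ cptIdeal H ↔ T ∈ compacts H :=
  TwoSidedIdeal.mem_mk' _ _ _ _ _ _ _

/-- The operator with the single entry `A` at `(x, y)`. -/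
def blkOk1 (x y : X) (A : Op H H) : Op (L2 X H) (L2 X H) := (sing x).comp (A.comp (ev y))

theorem entry_blkOk1 (x y x' y' : X) (A : Op H H) :
    entry (blkOk1 x y A) x' y' = if x' = x ∧ y = y' then A else 0 := by
  refine ContinuousLinearMap.ext fun v => ?_
  change (sing x (A ((sing y' v : L2 X H) y)) : L2 X H) x' = _
  rw [sing_apply, sing_apply]
  by_cases h1 : x' = x <;> by_cases h2 : y = y' <;> simp [h1, h2]

theorem blkOk1_mem (x y : X) {A : Op H H} (hA : A ∈ compacts H) :
    blkOk1 x y A ∈ compacts (L2 X H) :=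
  (IsCompactOperator.comp_clm hA (ev y)).clm_comp (sing x)

/-- An operator on `ℓ²(X, H)` with finitely many nonzero entries, all compact, is compact. -/
theorem compacts_of_finite (T : Op (L2 X H) (L2 X H)) (s : Finset X)
    (h : ∀ x y, x ∉ s ∨ y ∉ s → entry T x y = 0) (hc : ∀ x y, entry T x y ∈ compacts H) :
    T ∈ compacts (L2 X H) := by
  have e : T = ∑ x ∈ s, ∑ y ∈ s, blkOk1 x y (entry T x y) := by
    refine entry_ext fun x' y' => ?_
    simp only [entry_sum, entry_blkOk1, ite_and, Finset.sum_ite_irrel, Finset.sum_const_zero,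
      Finset.sum_ite_eq, Finset.sum_ite_eq']
    by_cases h1 : x' ∈ s
    · by_cases h2 : y' ∈ s
      · rw [if_pos h2, if_pos h1]
      · rw [if_neg h2, ite_self, h _ _ (Or.inr h2)]
    · rw [if_neg h1, h _ _ (Or.inl h1)]
  rw [e]
  exact compacts_sum _ fun x _ => compacts_sum _ fun y _ => blkOk1_mem x y (hc x y)

/-! ### block diagonal operators -/

/-- The block diagonal operator `⊕_x T_x`, for a family bounded by `C`. -/
def diagOp (T : X → Op H H) (C : ℝ) (h0 : 0 ≤ C) (h : ∀ x, ‖T x‖ ≤ C) : Op (L2 X H) (L2 X H) :=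
  lp.mapCLM 2 T h0 h

@[simp] theorem diagOp_apply (T : X → Op H H) (C : ℝ) (h0 : 0 ≤ C) (h : ∀ x, ‖T x‖ ≤ C)
    (ξ : L2 X H) (x : X) : diagOp T C h0 h ξ x = T x (ξ x) := rfl

theorem norm_diagOp_le (T : X → Op H H) (C : ℝ) (h0 : 0 ≤ C) (h : ∀ x, ‖T x‖ ≤ C) :
    ‖diagOp T C h0 h‖ ≤ C := by
  exact lp.norm_mapCLM_le 2 T h0 h

theorem entry_diagOp (T : X → Op H H) (C : ℝ) (h0 : 0 ≤ C) (h : ∀ x, ‖T x‖ ≤ C) (x y : X) :
    entry (diagOp T C h0 h) x y = if x = y then T x else 0 := by
  refine ContinuousLinearMap.ext fun v => ?_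
  rw [entry_apply, diagOp_apply, sing_apply]
  split_ifs <;> simp

/-- The vector `x ↦ ξ (σ⁻¹ x)`. -/
def permVecOk1 (σ : Equiv.Perm X) (ξ : L2 X H) : L2 X H :=
  ⟨fun x => ξ (σ.symm x), memℓp_gen
    (σ.symm.summable_iff.2 ((lp.memℓp ξ).summable (by norm_num)))⟩

omit [InnerProductSpace ℂ H] in
theorem norm_permVecOk1 (σ : Equiv.Perm X) (ξ : L2 X H) : ‖permVecOk1 σ ξ‖ = ‖ξ‖ := by
  rw [lp.norm_eq_tsum_rpow (by norm_num), lp.norm_eq_tsum_rpow (by norm_num)]
  exact congrArg (· ^ _) (σ.symm.tsum_eq fun g => ‖ξ g‖ ^ _)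

theorem norm_shift_le_ok1 (T : Op (L2 X H) (L2 X H)) (σ : Equiv.Perm X) {C : ℝ} (hC : 0 ≤ C)
    (h : ∀ x y, x ≠ σ y → entry T x y = 0) (hb : ∀ y, ‖entry T (σ y) y‖ ≤ C) : ‖T‖ ≤ C := by
  refine ContinuousLinearMap.opNorm_le_bound _ hC fun ξ => ?_
  have h1 : ‖T ξ‖ ≤ ‖(C : ℂ) • permVecOk1 σ ξ‖ := by
    refine lp.norm_mono (by norm_num) fun x => ?_
    obtain ⟨y, rfl⟩ := σ.surjective x
    rw [apply_eq_sum T (σ y) {y} (fun z hz => h _ _ fun e =>
      hz (Finset.mem_singleton.2 (σ.injective e).symm)), Finset.sum_singleton]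
    change _ ≤ ‖(C : ℂ) • ξ (σ.symm (σ y))‖
    rw [σ.symm_apply_apply, norm_smul, Complex.norm_real, Real.norm_of_nonneg hC]
    exact (entry T (σ y) y).le_of_opNorm_le (hb y) _
  rwa [norm_smul, Complex.norm_real, Real.norm_of_nonneg hC, norm_permVecOk1] at h1

/-- A `σ`-weighted shift (entries only at `(σ y, y)`) whose entries are compact and tend to `0`
is compact. For `σ = 1` this is the case of block diagonal operators. -/
theorem compacts_of_tendsto [CompleteSpace H] (T : Op (L2 X H) (L2 X H)) (σ : Equiv.Perm X)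
    (h : ∀ x y, x ≠ σ y → entry T x y = 0) (hc : ∀ y, entry T (σ y) y ∈ compacts H)
    (h0 : Filter.Tendsto (fun y => ‖entry T (σ y) y‖) Filter.cofinite (nhds 0)) :
    T ∈ compacts (L2 X H) := by
  rw [← isClosed_compacts.closure_eq]
  refine Metric.mem_closure_iff.2 fun δ hδ => ?_
  have hfin : {y | ¬ ‖entry T (σ y) y‖ < δ / 2}.Finite :=
    Filter.eventually_cofinite.1 (h0.eventually (gt_mem_nhds (half_pos hδ)))
  refine ⟨∑ y ∈ hfin.toFinset, blkOk1 (σ y) y (entry T (σ y) y),
    compacts_sum _ fun y _ => blkOk1_mem _ _ (hc y), ?_⟩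
  have key : ∀ x y, entry (∑ y ∈ hfin.toFinset, blkOk1 (σ y) y (entry T (σ y) y)) x y =
      if y ∈ hfin.toFinset ∧ x = σ y then entry T (σ y) y else 0 := by
    intro x y
    simp only [entry_sum, entry_blkOk1, and_comm (a := x = σ _), ite_and, Finset.sum_ite_eq']
  rw [dist_eq_norm]
  refine lt_of_le_of_lt (norm_shift_le_ok1 _ σ (half_pos hδ).le (fun x y hxy => ?_)
    fun y => ?_) (half_lt_self hδ)
  · rw [entry_sub, key, h x y hxy, if_neg fun e => hxy e.2, sub_zero]
  · rw [entry_sub, key]
    by_cases hy : y ∈ hfin.toFinset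
    · rw [if_pos ⟨hy, rfl⟩, sub_self, norm_zero]
      exact (half_pos hδ).le
    · rw [if_neg fun e => hy e.1, sub_zero]
      exact (not_not.1 fun e => hy (hfin.mem_toFinset.2 e)).le

@[simp] theorem ampl_apply (T : Op H H) (ξ : L2 X H) (x : X) : ampl X T ξ x = T (ξ x) := rfl

theorem entry_ampl (T : Op H H) (x y : X) : entry (ampl X T) x y = if x = y then T else 0 := by
  exact entry_diagOp (fun _ : X => T) ‖T‖ (norm_nonneg T) (fun _ => le_rfl) x y

theorem norm_ampl_le (T : Op H H) : ‖ampl X T‖ ≤ ‖T‖ := by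
  exact lp.norm_mapCLM_le 2 (fun _ : X => T) (norm_nonneg T) fun _ => le_rfl

/-- `T ↦ 1 ⊗ T` as a unital `*`-homomorphism. -/
def amplHom (X H : Type) [NormedAddCommGroup H] [InnerProductSpace ℂ H] [CompleteSpace H] :
    Op H H →⋆ₐ[ℂ] Op (L2 X H) (L2 X H) where
  toFun := ampl X
  map_one' := op_ext fun _ _ => rfl
  map_mul' := fun _ _ => op_ext fun _ _ => rfl
  map_zero' := op_ext fun _ _ => rfl
  map_add' := fun _ _ => op_ext fun _ _ => rfl
  commutes' := fun c => by
    rw [Algebra.algebraMap_eq_smul_one, Algebra.algebraMap_eq_smul_one]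
    exact op_ext fun _ _ => rfl
  map_star' := fun T => entry_ext fun x y => by
    rw [entry_star, entry_ampl, entry_ampl]
    by_cases h : x = y
    · rw [if_pos h, if_pos h.symm]
    · rw [if_neg h, if_neg (Ne.symm h), star_zero]

@[simp] theorem amplHom_apply [CompleteSpace H] (T : Op H H) : amplHom X H T = ampl X T := rfl

theorem continuous_ampl : Continuous (ampl X : Op H H → Op (L2 X H) (L2 X H)) := by
  exact AddMonoidHomClass.continuous_of_bound
    (AddMonoidHom.mk' (ampl X : Op H H → Op (L2 X H) (L2 X H))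
      fun _ _ => op_ext fun _ _ => rfl) 1 fun T => by
    rw [one_mul]
    exact norm_ampl_le T

theorem entry_ampl_mul (F : Op H H) (T : Op (L2 X H) (L2 X H)) (x y : X) :
    entry (ampl X F * T) x y = F * entry T x y := by
  exact ContinuousLinearMap.ext fun _ => rfl

theorem entry_mul_ampl (T : Op (L2 X H) (L2 X H)) (F : Op H H) (x y : X) :
    entry (T * ampl X F) x y = entry T x y * F := by
  refine ContinuousLinearMap.ext fun v => ?_
  have e : ampl X F (sing y v) = sing y (F v) := by
    refine lp.ext (funext fun z => ?_)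
    rw [ampl_apply, sing_apply, sing_apply]
    split_ifs <;> simp
  change T (ampl X F (sing y v)) x = T (sing y (F v)) x
  rw [e]

/-! ### permutation operators -/

/-- The permutation operators `(u_σ ξ)(x) = ξ (σ⁻¹ x)`. -/
def permOp (X H : Type) [NormedAddCommGroup H] [InnerProductSpace ℂ H] :
    Equiv.Perm X →* Op (L2 X H) (L2 X H) where
  toFun σ := LinearMap.mkContinuous
    { toFun := permVecOk1 σ, map_add' := fun _ _ => rfl, map_smul' := fun _ _ => rfl } 1
    fun ξ => by
      rw [one_mul]
      exact (norm_permVecOk1 σ ξ).le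
  map_one' := op_ext fun _ _ => rfl
  map_mul' := fun _ _ => op_ext fun _ _ => rfl

theorem permOp_apply (σ : Equiv.Perm X) (ξ : L2 X H) (x : X) :
    permOp X H σ ξ x = ξ (σ.symm x) := by
  rfl

theorem norm_permOp_apply (σ : Equiv.Perm X) (ξ : L2 X H) : ‖permOp X H σ ξ‖ = ‖ξ‖ := by
  exact norm_permVecOk1 σ ξ

theorem norm_permOp_le (σ : Equiv.Perm X) : ‖permOp X H σ‖ ≤ 1 := by
  refine ContinuousLinearMap.opNorm_le_bound _ zero_le_one fun ξ => ?_
  rw [one_mul, norm_permOp_apply]

theorem permOp_sing (σ : Equiv.Perm X) (y : X) (v : H) :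
    permOp X H σ (sing y v) = sing (σ y) v := by
  refine lp.ext (funext fun x => ?_)
  rw [permOp_apply, sing_apply, sing_apply]
  simp only [Equiv.symm_apply_eq]

theorem entry_permOp (σ : Equiv.Perm X) (x y : X) :
    entry (permOp X H σ) x y = if x = σ y then 1 else 0 := by
  refine ContinuousLinearMap.ext fun v => ?_
  rw [entry_apply, permOp_sing, sing_apply]
  split_ifs <;> rfl

theorem star_permOp [CompleteSpace H] (σ : Equiv.Perm X) :
    star (permOp X H σ) = permOp X H σ⁻¹ := by
  refine entry_ext fun x y => ?_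
  rw [entry_star, entry_permOp, entry_permOp]
  by_cases h : y = σ x
  · rw [if_pos h, if_pos (by rw [h]; simp), star_one]
  · rw [if_neg h, if_neg (fun e => h (by rw [e]; simp)), star_zero]

theorem entry_permOp_mul (σ : Equiv.Perm X) (T : Op (L2 X H) (L2 X H)) (x y : X) :
    entry (permOp X H σ * T) x y = entry T (σ.symm x) y := by
  exact ContinuousLinearMap.ext fun _ => rfl

theorem entry_mul_permOp (T : Op (L2 X H) (L2 X H)) (σ : Equiv.Perm X) (x y : X) :
    entry (T * permOp X H σ) x y = entry T x (σ y) := by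
  refine ContinuousLinearMap.ext fun v => ?_
  change T (permOp X H σ (sing y v)) x = T (sing (σ y) v) x
  rw [permOp_sing]

end Vale.Agent.P212
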