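import Vale.Agent.P212.OpKit1

/-! TASK OpKit2: finite propagation operators on `ℓ²(X, H)` for `X` of bounded geometry, the kernel
builder `kerOp` and the lifts `liftK`.
Hints: `exists_kernel`: put `(T ξ)(x) = ∑ y ∈ ballF x R, k x y (ξ y)`; by Cauchy-Schwarz
`‖(Tξ)(x)‖² ≤ N C² ∑ y ∈ ballF x R, ‖ξ y‖²` and each `y` lies in at most `N` balls
(`y ∈ ballF x R ↔ x ∈ ballF y R`), so every finite partial sum is `≤ N² C² ‖ξ‖²`
(`memℓp_gen'`, `lp.norm_le_of_forall_sum_le`, `LinearMap.mkContinuous`).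
`norm_le_of_entries` follows from it and `entry_ext`. -/

noncomputable section

open Classical

namespace Vale.Agent.P212

variable {X Y Z H : Type} [NormedAddCommGroup H] [InnerProductSpace ℂ H]

section Ball

variable [PseudoEMetricSpace X] [BddGeom X]

theorem finite_ball (x : X) (R : ℕ) : {y | edist x y ≤ R}.Finite := by
  obtain ⟨N, hN⟩ := BddGeom.bdd (X := X) R
  exact Set.finite_of_encard_le_coe (hN x)

/-- The closed ball as a finset. -/
def ballF (x : X) (R : ℕ) : Finset X := (finite_ball x R).toFinset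

theorem mem_ballF {x y : X} {R : ℕ} : y ∈ ballF x R ↔ edist x y ≤ R := by
  simp [ballF]

/-- A bound for the cardinality of `R`-balls. -/
def ballN (X : Type) [PseudoEMetricSpace X] [BddGeom X] (R : ℕ) : ℕ :=
  (BddGeom.bdd (X := X) R).choose

theorem card_ballF_le (x : X) (R : ℕ) : (ballF x R).card ≤ ballN X R := by
  have h := (BddGeom.bdd (X := X) R).choose_spec x
  rw [← (finite_ball x R).coe_toFinset, Set.encard_coe_eq_coe_finsetCard] at h
  exact_mod_cast h

end Ball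

section Prop_

variable [PseudoEMetricSpace X]

/-- propagation at most `R` -/
def PropLE (T : Op (L2 X H) (L2 X H)) (R : ℕ) : Prop :=
  ∀ x y, (R : ENNReal) < edist x y → entry T x y = 0

/-- finite propagation -/
def FinProp (T : Op (L2 X H) (L2 X H)) : Prop := ∃ R, PropLE T R

theorem PropLE.edist_le {T : Op (L2 X H) (L2 X H)} {R : ℕ} (h : PropLE T R) {x y : X}
    (hxy : entry T x y ≠ 0) : edist x y ≤ R := by
  by_contra hc
  exact hxy (h x y (not_le.1 hc))

theorem PropLE.mono {T : Op (L2 X H) (L2 X H)} {R R' : ℕ} (h : PropLE T R) (hR : R ≤ R') :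
    PropLE T R' := by
  intro x y hxy
  exact h x y (lt_of_le_of_lt (by exact_mod_cast hR) hxy)

theorem PropLE.zero (R : ℕ) : PropLE (0 : Op (L2 X H) (L2 X H)) R := by
  intro x y _
  simp

theorem PropLE.one (R : ℕ) : PropLE (1 : Op (L2 X H) (L2 X H)) R := by
  intro x y hxy
  rw [entry_one, if_neg]
  rintro rfl
  simp at hxy

theorem PropLE.ampl (T : Op H H) (R : ℕ) : PropLE (ampl X T) R := by
  intro x y hxy
  rw [entry_ampl, if_neg]
  rintro rfl
  simp at hxy

theorem PropLE.add {S T : Op (L2 X H) (L2 X H)} {R : ℕ} (hS : PropLE S R) (hT : PropLE T R) :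
    PropLE (S + T) R := by
  intro x y hxy
  rw [entry_add, hS x y hxy, hT x y hxy, add_zero]

theorem PropLE.neg {T : Op (L2 X H) (L2 X H)} {R : ℕ} (hT : PropLE T R) : PropLE (-T) R := by
  intro x y hxy
  rw [entry_neg, hT x y hxy, neg_zero]

theorem PropLE.sub {S T : Op (L2 X H) (L2 X H)} {R : ℕ} (hS : PropLE S R) (hT : PropLE T R) :
    PropLE (S - T) R := by
  intro x y hxy
  rw [entry_sub, hS x y hxy, hT x y hxy, sub_zero]

theorem PropLE.smul (c : ℂ) {T : Op (L2 X H) (L2 X H)} {R : ℕ} (hT : PropLE T R) :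
    PropLE (c • T) R := by
  intro x y hxy
  rw [entry_smul, hT x y hxy, smul_zero]

theorem PropLE.mul {S T : Op (L2 X H) (L2 X H)} {R R' : ℕ} (hS : PropLE S R) (hT : PropLE T R') :
    PropLE (S * T) (R + R') := by
  intro x y hxy
  rw [entry_mul S T x y ∅, Finset.sum_empty]
  intro z _
  by_cases h1 : entry S x z = 0
  · rw [h1, zero_mul]
  by_cases h2 : entry T z y = 0
  · rw [h2, mul_zero]
  exfalso
  have h3 := (edist_triangle x z y).trans (add_le_add (hS.edist_le h1) (hT.edist_le h2))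
  rw [← Nat.cast_add] at h3
  exact absurd hxy (not_lt.2 h3)

theorem PropLE.star [CompleteSpace H] {T : Op (L2 X H) (L2 X H)} {R : ℕ} (hT : PropLE T R) :
    PropLE (star T) R := by
  intro x y hxy
  rw [entry_star, hT y x (by rwa [edist_comm]), star_zero]

theorem PropLE.permOp {σ : Equiv.Perm X} {R : ℕ} (h : ∀ x, edist x (σ x) ≤ R) :
    PropLE (permOp X H σ) R := by
  intro x y hxy
  rw [entry_permOp, if_neg]
  rintro rfl
  rw [edist_comm] at hxy
  exact absurd hxy (not_lt.2 (h y))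

/-- The unital `*`-algebra of finite propagation operators. -/
def propAlg (X H : Type) [PseudoEMetricSpace X] [NormedAddCommGroup H] [InnerProductSpace ℂ H]
    [CompleteSpace H] : StarSubalgebra ℂ (Op (L2 X H) (L2 X H)) where
  carrier := {T | FinProp T}
  mul_mem' := by
    rintro a b ⟨R, hR⟩ ⟨R', hR'⟩
    exact ⟨R + R', hR.mul hR'⟩
  add_mem' := by
    rintro a b ⟨R, hR⟩ ⟨R', hR'⟩
    exact ⟨max R R', (hR.mono (le_max_left _ _)).add (hR'.mono (le_max_right _ _))⟩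
  algebraMap_mem' := by
    intro c
    rw [Algebra.algebraMap_eq_smul_one]
    exact ⟨0, (PropLE.one 0).smul c⟩
  star_mem' := by
    rintro a ⟨R, hR⟩
    exact ⟨R, hR.star⟩

theorem mem_propAlg [CompleteSpace H] {T : Op (L2 X H) (L2 X H)} :
    T ∈ propAlg X H ↔ FinProp T := Iff.rfl

theorem IsRoe.finProp {T : Op (L2 X H) (L2 X H)} (h : IsRoe T) : FinProp T := h.2

theorem isRoe_zero : IsRoe (0 : Op (L2 X H) (L2 X H)) := by
  refine ⟨fun x y => ?_, 0, PropLE.zero 0⟩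
  rw [entry_zero]
  exact compacts_zero

theorem IsRoe.add {S T : Op (L2 X H) (L2 X H)} (hS : IsRoe S) (hT : IsRoe T) : IsRoe (S + T) := by
  obtain ⟨R, hR⟩ := hS.finProp
  obtain ⟨R', hR'⟩ := hT.finProp
  refine ⟨fun x y => ?_, max R R', (hR.mono (le_max_left _ _)).add (hR'.mono (le_max_right _ _))⟩
  rw [entry_add]
  exact compacts_add (hS.1 x y) (hT.1 x y)

theorem IsRoe.neg {T : Op (L2 X H) (L2 X H)} (hT : IsRoe T) : IsRoe (-T) := by
  obtain ⟨R, hR⟩ := hT.finProp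
  refine ⟨fun x y => ?_, R, hR.neg⟩
  rw [entry_neg]
  exact compacts_neg (hT.1 x y)

theorem IsRoe.sub {S T : Op (L2 X H) (L2 X H)} (hS : IsRoe S) (hT : IsRoe T) : IsRoe (S - T) := by
  rw [sub_eq_add_neg]
  exact hS.add hT.neg

theorem IsRoe.smul (c : ℂ) {T : Op (L2 X H) (L2 X H)} (hT : IsRoe T) : IsRoe (c • T) := by
  obtain ⟨R, hR⟩ := hT.finProp
  refine ⟨fun x y => ?_, R, hR.smul c⟩
  rw [entry_smul]
  exact compacts_smul c (hT.1 x y)

theorem IsRoe.star [CompleteSpace H] {T : Op (L2 X H) (L2 X H)} (hT : IsRoe T) :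
    IsRoe (star T) := by
  obtain ⟨R, hR⟩ := hT.finProp
  refine ⟨fun x y => ?_, R, hR.star⟩
  rw [entry_star]
  exact compacts_star (hT.1 y x)

variable [BddGeom X]

theorem IsRoe.mul_left {S T : Op (L2 X H) (L2 X H)} (hS : FinProp S) (hT : IsRoe T) :
    IsRoe (S * T) := by
  obtain ⟨R, hR⟩ := hS
  obtain ⟨R', hR'⟩ := hT.finProp
  refine ⟨fun x y => ?_, R + R', hR.mul hR'⟩
  rw [entry_mul_left S T x y (ballF x R) fun z hz => hR x z (not_le.1 (mem_ballF.not.1 hz))]
  exact compacts_sum _ fun z _ => compacts_mul_left _ (hT.1 z y)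

theorem IsRoe.mul_right {S T : Op (L2 X H) (L2 X H)} (hS : IsRoe S) (hT : FinProp T) :
    IsRoe (S * T) := by
  obtain ⟨R, hR⟩ := hS.finProp
  obtain ⟨R', hR'⟩ := hT
  refine ⟨fun x y => ?_, R + R', hR.mul hR'⟩
  rw [entry_mul_left S T x y (ballF x R) fun z hz => hR x z (not_le.1 (mem_ballF.not.1 hz))]
  exact compacts_sum _ fun z _ => compacts_mul_right (hS.1 x z) _

theorem isStarAlg_roe_aux [CompleteSpace H] : IsStarAlg {T : Op (L2 X H) (L2 X H) | IsRoe T} :=
  ⟨isRoe_zero, IsRoe.add, fun hS hT => IsRoe.mul_left hS.2 hT, fun c _ hT => IsRoe.smul c hT,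
    IsRoe.star⟩

/-- The locally compact finite propagation operators as an ideal of `propAlg`. -/
def roeIdeal (X H : Type) [PseudoEMetricSpace X] [BddGeom X] [NormedAddCommGroup H]
    [InnerProductSpace ℂ H] [CompleteSpace H] : TwoSidedIdeal (propAlg X H) :=
  TwoSidedIdeal.mk' {T | IsRoe T.1} isRoe_zero (fun h h' => h.add h') (fun h => h.neg)
    (fun {x _} hy => IsRoe.mul_left x.2 hy) (fun {_ y} hx => IsRoe.mul_right hx y.2)

theorem mem_roeIdeal [CompleteSpace H] {T : propAlg X H} : T ∈ roeIdeal X H ↔ IsRoe T.1 :=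
  TwoSidedIdeal.mem_mk' _ _ _ _ _ _ _

theorem kernel_sum_le (k : X → X → Op H H) (C : ℝ) (R : ℕ)
    (hC : ∀ x y, ‖k x y‖ ≤ C) (ξ : L2 X H) (s : Finset X) :
    ∑ x ∈ s, ‖∑ y ∈ ballF x R, k x y (ξ y)‖ ^ (2 : ENNReal).toReal ≤
      (ballN X R * C * ‖ξ‖) ^ (2 : ENNReal).toReal := by
  have hp : 0 < (2 : ENNReal).toReal := by norm_num
  have h2 : ∀ t : ℝ, t ^ (2 : ENNReal).toReal = t ^ 2 := by
    intro t
    rw [ENNReal.toReal_ofNat, Real.rpow_ofNat]
  have hξ : ∀ t : Finset X, ∑ y ∈ t, ‖ξ y‖ ^ 2 ≤ ‖ξ‖ ^ 2 := by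
    intro t
    have := lp.sum_rpow_le_norm_rpow hp ξ t
    simpa only [h2] using this
  simp only [h2]
  set N : ℝ := (ballN X R : ℝ) with hN
  have hN0 : 0 ≤ N := by positivity
  have h1 : ∀ x, ‖∑ y ∈ ballF x R, k x y (ξ y)‖ ^ 2 ≤
      N * C ^ 2 * ∑ y ∈ ballF x R, ‖ξ y‖ ^ 2 := by
    intro x
    have a1 : ‖∑ y ∈ ballF x R, k x y (ξ y)‖ ≤ C * ∑ y ∈ ballF x R, ‖ξ y‖ := by
      rw [Finset.mul_sum]
      refine (norm_sum_le _ _).trans (Finset.sum_le_sum fun y _ => ?_)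
      exact ((k x y).le_opNorm _).trans (mul_le_mul_of_nonneg_right (hC x y) (norm_nonneg _))
    have a2 : (∑ y ∈ ballF x R, ‖ξ y‖) ^ 2 ≤ N * ∑ y ∈ ballF x R, ‖ξ y‖ ^ 2 := by
      refine sq_sum_le_card_mul_sum_sq.trans (mul_le_mul_of_nonneg_right ?_ (by positivity))
      rw [hN]
      exact_mod_cast card_ballF_le x R
    calc ‖∑ y ∈ ballF x R, k x y (ξ y)‖ ^ 2 ≤ (C * ∑ y ∈ ballF x R, ‖ξ y‖) ^ 2 := by
          gcongr
      _ = C ^ 2 * (∑ y ∈ ballF x R, ‖ξ y‖) ^ 2 := by ring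
      _ ≤ C ^ 2 * (N * ∑ y ∈ ballF x R, ‖ξ y‖ ^ 2) := by gcongr
      _ = _ := by ring
  have h3 : ∑ x ∈ s, ∑ y ∈ ballF x R, ‖ξ y‖ ^ 2 ≤ N * ‖ξ‖ ^ 2 := by
    set t : Finset X := s.biUnion fun x => ballF x R
    have e1 : ∑ x ∈ s, ∑ y ∈ ballF x R, ‖ξ y‖ ^ 2 =
        ∑ y ∈ t, ∑ x ∈ s.filter (fun x => y ∈ ballF x R), ‖ξ y‖ ^ 2 := by
      refine Finset.sum_comm' fun x y => ?_
      simp only [t, Finset.mem_filter, Finset.mem_biUnion]
      constructor
      · rintro ⟨hx, hy⟩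
        exact ⟨⟨hx, hy⟩, x, hx, hy⟩
      · rintro ⟨h, -⟩
        exact h
    rw [e1]
    refine le_trans (Finset.sum_le_sum fun y _ => ?_)
      ((Finset.mul_sum t (fun y => ‖ξ y‖ ^ 2) N).symm.le.trans
        (mul_le_mul_of_nonneg_left (hξ t) hN0))
    rw [Finset.sum_const, nsmul_eq_mul]
    refine mul_le_mul_of_nonneg_right ?_ (by positivity)
    rw [hN]
    have : (s.filter fun x => y ∈ ballF x R).card ≤ (ballF y R).card := by
      refine Finset.card_le_card fun x hx => ?_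
      have := mem_ballF.1 (Finset.mem_filter.1 hx).2
      rw [mem_ballF, edist_comm]
      exact this
    exact_mod_cast this.trans (card_ballF_le y R)
  calc ∑ x ∈ s, ‖∑ y ∈ ballF x R, k x y (ξ y)‖ ^ 2
      ≤ ∑ x ∈ s, N * C ^ 2 * ∑ y ∈ ballF x R, ‖ξ y‖ ^ 2 := Finset.sum_le_sum fun x _ => h1 x
    _ = N * C ^ 2 * ∑ x ∈ s, ∑ y ∈ ballF x R, ‖ξ y‖ ^ 2 := by rw [Finset.mul_sum]
    _ ≤ N * C ^ 2 * (N * ‖ξ‖ ^ 2) := by gcongr
    _ = _ := by ring

theorem exists_kernel (k : X → X → Op H H) (C : ℝ) (R : ℕ) (hC0 : 0 ≤ C)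
    (hC : ∀ x y, ‖k x y‖ ≤ C) (hR : ∀ x y, (R : ENNReal) < edist x y → k x y = 0) :
    ∃ T : Op (L2 X H) (L2 X H), (∀ x y, entry T x y = k x y) ∧ ‖T‖ ≤ ballN X R * C := by
  have hp : 0 < (2 : ENNReal).toReal := by norm_num
  let L : L2 X H →ₗ[ℂ] L2 X H :=
    { toFun := fun ξ => ⟨fun x => ∑ y ∈ ballF x R, k x y (ξ y),
        memℓp_gen' (kernel_sum_le k C R hC ξ)⟩
      map_add' := by
        intro ξ η
        ext x
        simp only [lp.coeFn_add, Pi.add_apply, map_add, Finset.sum_add_distrib]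
      map_smul' := by
        intro c ξ
        ext x
        simp [Finset.smul_sum] }
  have hL : ∀ ξ, ‖L ξ‖ ≤ ballN X R * C * ‖ξ‖ := fun ξ =>
    lp.norm_le_of_forall_sum_le hp (by positivity) (kernel_sum_le k C R hC ξ)
  refine ⟨L.mkContinuous _ hL, fun x y => ?_, L.mkContinuous_norm_le (by positivity) hL⟩
  ext v
  rw [entry_apply]
  change ∑ z ∈ ballF x R, k x z ((sing y v : L2 X H) z) = k x y v
  rw [Finset.sum_eq_single y]
  · rw [sing_apply, if_pos rfl]
  · intro z _ hz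
    rw [sing_apply, if_neg hz, map_zero]
  · intro hy
    rw [hR x y (not_le.1 (mem_ballF.not.1 hy))]
    rfl

theorem norm_le_of_entries {T : Op (L2 X H) (L2 X H)} {R : ℕ} (hR : PropLE T R) {C : ℝ}
    (hC0 : 0 ≤ C) (hC : ∀ x y, ‖entry T x y‖ ≤ C) : ‖T‖ ≤ ballN X R * C := by
  obtain ⟨S, hS, hn⟩ := exists_kernel (entry T) C R hC0 hC hR
  rw [← entry_ext hS]
  exact hn

end Prop_

/-- The operator with kernel `k`, if there is one. -/
def kerOp (k : X → X → Op H H) : Op (L2 X H) (L2 X H) :=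
  if h : ∃ T : Op (L2 X H) (L2 X H), ∀ x y, entry T x y = k x y then h.choose else 0

theorem entry_kerOp [PseudoEMetricSpace X] [BddGeom X] (k : X → X → Op H H) (C : ℝ) (R : ℕ)
    (hC : ∀ x y, ‖k x y‖ ≤ C) (hR : ∀ x y, (R : ENNReal) < edist x y → k x y = 0) (x y : X) :
    entry (kerOp k) x y = k x y := by
  have h : ∃ T : Op (L2 X H) (L2 X H), ∀ x y, entry T x y = k x y := by
    obtain ⟨T, hT, -⟩ := exists_kernel k C R ((norm_nonneg _).trans (hC x y)) hC hR
    exact ⟨T, hT⟩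
  rw [kerOp, dif_pos h]
  exact h.choose_spec x y

/-- The lift of an operator `a` on `ℓ²(Y, H)` along `π : Z → Y` with support condition `E`. -/
def liftK (E : Z → Z → Prop) (π : Z → Y) (a : Op (L2 Y H) (L2 Y H)) : Op (L2 Z H) (L2 Z H) :=
  kerOp fun z z' => if E z z' then entry a (π z) (π z') else 0

section Lift

variable [PseudoEMetricSpace Y] [PseudoEMetricSpace Z]

/-- `E`-related points over close points are close. -/
def Ctrl (E : Z → Z → Prop) (π : Z → Y) : Prop :=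
  ∀ r : ℕ, ∃ R : ℕ, ∀ z z', E z z' → edist (π z) (π z') ≤ r → edist z z' ≤ R

/-- `E` is a partial equivalence relation with unique lifting. -/
structure Flat (E : Z → Z → Prop) (π : Z → Y) : Prop where
  ctrl : Ctrl E π
  symm : ∀ z z', E z z' → E z' z
  trans : ∀ z z' z'', E z z' → E z' z'' → E z z''
  lift : ∀ z y, E z z → edist (π z) y ≠ ⊤ → ∃ z', E z z' ∧ π z' = y
  uniq : ∀ z z', E z z' → π z = π z' → z = z'

variable [BddGeom Z] {E : Z → Z → Prop} {π : Z → Y}

theorem entry_liftK (h : Ctrl E π) {a : Op (L2 Y H) (L2 Y H)} (ha : FinProp a) (z z' : Z) :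
    entry (liftK E π a) z z' = if E z z' then entry a (π z) (π z') else 0 := by
  obtain ⟨r, hr⟩ := ha
  obtain ⟨R, hR⟩ := h r
  refine entry_kerOp _ ‖a‖ R (fun x y => ?_) (fun x y hxy => ?_) z z'
  · split_ifs
    · exact norm_entry_le a _ _
    · rw [norm_zero]
      exact norm_nonneg a
  · split_ifs with hE
    · by_contra hc
      exact absurd hxy (not_lt.2 (hR x y hE (hr.edist_le hc)))
    · rfl

theorem finProp_liftK (h : Ctrl E π) {a : Op (L2 Y H) (L2 Y H)} (ha : FinProp a) :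
    FinProp (liftK E π a) := by
  obtain ⟨r, hr⟩ := id ha
  obtain ⟨R, hR⟩ := h r
  refine ⟨R, fun x y hxy => ?_⟩
  rw [entry_liftK h ha]
  split_ifs with hE
  · by_contra hc
    exact absurd hxy (not_lt.2 (hR x y hE (hr.edist_le hc)))
  · rfl

theorem isRoe_liftK (h : Ctrl E π) {a : Op (L2 Y H) (L2 Y H)} (ha : IsRoe a) :
    IsRoe (liftK E π a) := by
  refine ⟨fun x y => ?_, finProp_liftK h ha.finProp⟩
  rw [entry_liftK h ha.finProp]
  split_ifs
  · exact ha.1 _ _
  · exact compacts_zero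

theorem liftK_add (h : Ctrl E π) {a b : Op (L2 Y H) (L2 Y H)} (ha : FinProp a) (hb : FinProp b) :
    liftK E π (a + b) = liftK E π a + liftK E π b := by
  have hab : FinProp (a + b) := by
    obtain ⟨R, hR⟩ := ha
    obtain ⟨R', hR'⟩ := hb
    exact ⟨max R R', (hR.mono (le_max_left _ _)).add (hR'.mono (le_max_right _ _))⟩
  refine entry_ext fun x y => ?_
  rw [entry_add, entry_liftK h hab, entry_liftK h ha, entry_liftK h hb]
  split_ifs
  · rw [entry_add]
  · rw [add_zero]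

theorem liftK_smul (h : Ctrl E π) (c : ℂ) {a : Op (L2 Y H) (L2 Y H)} (ha : FinProp a) :
    liftK E π (c • a) = c • liftK E π a := by
  have hca : FinProp (c • a) := by
    obtain ⟨R, hR⟩ := ha
    exact ⟨R, hR.smul c⟩
  refine entry_ext fun x y => ?_
  rw [entry_smul, entry_liftK h hca, entry_liftK h ha]
  split_ifs
  · rw [entry_smul]
  · rw [smul_zero]

theorem liftK_mul_ampl (h : Ctrl E π) {a : Op (L2 Y H) (L2 Y H)} (ha : FinProp a) (F : Op H H) :
    liftK E π (a * ampl Y F) = liftK E π a * ampl Z F := by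
  have haF : FinProp (a * ampl Y F) := by
    obtain ⟨R, hR⟩ := ha
    exact ⟨R + 0, hR.mul (PropLE.ampl F 0)⟩
  refine entry_ext fun x y => ?_
  rw [entry_mul_ampl, entry_liftK h haF, entry_liftK h ha]
  split_ifs
  · rw [entry_mul_ampl]
  · rw [zero_mul]

theorem liftK_mul [BddGeom Y] (h : Flat E π) {a b : Op (L2 Y H) (L2 Y H)} (ha : FinProp a)
    (hb : FinProp b) : liftK E π (a * b) = liftK E π a * liftK E π b := by
  obtain ⟨r, hr⟩ := id ha
  obtain ⟨r', hr'⟩ := id hb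
  obtain ⟨R, hR⟩ := h.ctrl r
  have hab : FinProp (a * b) := ⟨r + r', hr.mul hr'⟩
  refine entry_ext fun z z' => ?_
  rw [entry_liftK h.ctrl hab, entry_mul_left (liftK E π a) (liftK E π b) z z'
    ((ballF z R).filter fun w => E z w ∧ edist (π z) (π w) ≤ r)]
  swap
  · intro w hw
    rw [entry_liftK h.ctrl ha]
    split_ifs with hE
    · by_contra hc
      have h1 := hr.edist_le hc
      exact hw (Finset.mem_filter.2 ⟨mem_ballF.2 (hR z w hE h1), hE, h1⟩)
    · rfl
  split_ifs with hE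
  · rw [entry_mul_left a b (π z) (π z') (ballF (π z) r)
      fun y hy => hr _ y (not_le.1 (mem_ballF.not.1 hy))]
    symm
    refine Finset.sum_nbij π ?_ ?_ ?_ ?_
    · intro w hw
      exact mem_ballF.2 (Finset.mem_filter.1 hw).2.2
    · intro w hw w' hw' hww
      have h1 := (Finset.mem_filter.1 hw).2.1
      have h2 := (Finset.mem_filter.1 hw').2.1
      exact h.uniq w w' (h.trans _ _ _ (h.symm _ _ h1) h2) hww
    · intro y hy
      have hy' : edist (π z) y ≤ r := mem_ballF.1 hy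
      obtain ⟨w, hw, rfl⟩ := h.lift z y (h.trans _ _ _ hE (h.symm _ _ hE))
        (ne_top_of_le_ne_top (ENNReal.natCast_ne_top r) hy')
      exact ⟨w, Finset.mem_coe.2 (Finset.mem_filter.2 ⟨mem_ballF.2 (hR z w hw hy'), hw, hy'⟩), rfl⟩
    · intro w hw
      have h1 := (Finset.mem_filter.1 hw).2.1
      rw [entry_liftK h.ctrl ha, entry_liftK h.ctrl hb, if_pos h1,
        if_pos (h.trans _ _ _ (h.symm _ _ h1) hE)]
  · symm
    refine Finset.sum_eq_zero fun w hw => ?_
    have h1 := (Finset.mem_filter.1 hw).2.1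
    rw [entry_liftK h.ctrl hb, if_neg fun h2 => hE (h.trans _ _ _ h1 h2), mul_zero]

/-- A flat lift as a nonunital algebra homomorphism. -/
def liftHom [BddGeom Y] [CompleteSpace H] (h : Flat E π) :
    propAlg Y H →ₙₐ[ℂ] Op (L2 Z H) (L2 Z H) where
  toFun a := liftK E π a.1
  map_smul' c a := liftK_smul h.ctrl c a.2
  map_zero' := by
    refine entry_ext fun z z' => ?_
    change entry (liftK E π 0) z z' = _
    rw [entry_liftK h.ctrl ⟨0, PropLE.zero 0⟩]
    simp
  map_add' a b := liftK_add h.ctrl a.2 b.2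
  map_mul' a b := liftK_mul h a.2 b.2

@[simp] theorem liftHom_apply [BddGeom Y] [CompleteSpace H] (h : Flat E π) (a : propAlg Y H) :
    liftHom h a = liftK E π a.1 := rfl

end Lift

end Vale.Agent.P212
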