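import Vale.Agent.P212.Kazhdan

/-! TASK RepExt: a Kazhdan group acting on a `*`-algebra by left multipliers; averaging converges
uniformly over all `*`-representations.
Plan. (1) Spectral gap: for a unitary representation `σ` of `G` on `K₀` let
`M = (|T| + 1)⁻¹ • (1 + ∑ t ∈ T, σ t)`. If `ζ` is orthogonal to the invariant vectors then so is
`M ζ`, and `‖M ζ‖ ≤ θ ‖ζ‖` with `θ = (|T| - 1 + √(max (4 - c²) 0)) / (|T| + 1) < 1`, because
`‖ζ + σ t ζ‖² = 4 ‖ζ‖² - ‖σ t ζ - ζ‖²` for the `t` given by the Kazhdan property. (`T` is nonempty: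
apply `hT` to `K = ℂ`, the trivial representation and `ξ = 0`.)
(2) Given `ρ`, let `E = (A × K) →₀ ℂ`, `e : E →ₗ K`, `(a, η) ↦ ρ a η`, `K₀` the closure of the range
of `e` (a complete Hilbert space), and `f g : E →ₗ K₀`, `(a, η) ↦ ρ (L g a) η`. Since
`⟪ρ (L g a) η, ρ (L g b) η'⟫ = ⟪η, ρ (star (L g a) * L g b) η'⟫ = ⟪ρ a η, ρ b η'⟫` we get
`‖f g x‖ = ‖e x‖`; `LinearMap.extendOfNorm` gives `σ g : K₀ →L K₀` with
`σ g (ρ a η) = ρ (L g a) η`; by density `σ` is a homomorphism preserving inner products, so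
`star (σ g) = σ g⁻¹`.
(3) `ρ (avg^k (L g a - a)) η = M^k (σ g ζ - ζ)`, `ζ = ρ a η`, and `σ g ζ - ζ` is orthogonal to the
invariant vectors and has norm `≤ 2 ‖ρ a‖ ‖η‖`. -/

noncomputable section

namespace Vale.Agent.P212

/-- The averaging operator `(|T| + 1)⁻¹ (1 + ∑_{t ∈ T} L t)`. -/
def avg {G A : Type} [Group G] [AddCommGroup A] [Module ℂ A] (L : G →* Module.End ℂ A)
    (T : Finset G) : Module.End ℂ A :=
  ((T.card : ℂ) + 1)⁻¹ • (1 + ∑ t ∈ T, L t)

/-- The rate of convergence. -/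
def repRate (n : ℕ) (c : ℝ) : ℝ := ((n : ℝ) - 1 + √(max (4 - c ^ 2) 0)) / ((n : ℝ) + 1)

theorem repRate_lt (n : ℕ) {c : ℝ} (hc : 0 < c) : repRate n c < 1 := by
  rw [repRate, div_lt_one (by positivity)]
  have : √(max (4 - c ^ 2) 0) < 2 := by
    rw [Real.sqrt_lt' (by norm_num)]
    exact max_lt (by nlinarith) (by norm_num)
  linarith

theorem repExt_gap {G K : Type} [Group G] {T : Finset G} {c : ℝ} (hc : 0 < c)
    (hT : KazhdanSet T c) [NormedAddCommGroup K] [InnerProductSpace ℂ K] [CompleteSpace K]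
    (σ : G →* (K →L[ℂ] K)) (hσ : ∀ g, star (σ g) = σ g⁻¹) (ζ : K)
    (hζ : ∀ η : K, (∀ g, σ g η = η) → inner ℂ η ζ = 0) :
    (∀ η : K, (∀ g, σ g η = η) → inner ℂ η (((T.card : ℂ) + 1)⁻¹ • (ζ + ∑ t ∈ T, σ t ζ)) = 0) ∧
      ‖((T.card : ℂ) + 1)⁻¹ • (ζ + ∑ t ∈ T, σ t ζ)‖ ≤ repRate T.card c * ‖ζ‖ := by
  classical
  have hadj : ∀ g (x y : K), inner ℂ x (σ g y) = inner ℂ (σ g⁻¹ x) y := fun g x y => by
    rw [← hσ, ContinuousLinearMap.star_eq_adjoint, ContinuousLinearMap.adjoint_inner_left]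
  have hnorm : ∀ g (x : K), ‖σ g x‖ = ‖x‖ := fun g x => by
    have h : inner ℂ (σ g x) (σ g x) = inner ℂ x x := by
      rw [hadj, ← mul_apply_eq_comp, ← map_mul, inv_mul_cancel, map_one,
        one_apply_eq_self]
    rw [@norm_eq_sqrt_re_inner ℂ, h, ← @norm_eq_sqrt_re_inner ℂ]
  constructor
  · intro η hη
    simp only [inner_smul_right, inner_add_right, inner_sum, hadj, hη, hζ η hη]
    simp
  · obtain ⟨t, ht, hct⟩ := hT K σ hσ ζ hζ
    have h1 : ‖ζ + σ t ζ‖ ≤ √(max (4 - c ^ 2) 0) * ‖ζ‖ := by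
      have hp := parallelogram_law_with_norm ℂ (σ t ζ) ζ
      rw [hnorm, add_comm (σ t ζ)] at hp
      rw [← Real.sqrt_sq (norm_nonneg ζ), ← Real.sqrt_mul (le_max_right _ _)]
      refine Real.le_sqrt_of_sq_le ?_
      have h2 : (c * ‖ζ‖) ^ 2 ≤ ‖σ t ζ - ζ‖ ^ 2 := pow_le_pow_left₀ (by positivity) hct 2
      have h3 := mul_le_mul_of_nonneg_right (le_max_left (4 - c ^ 2) 0) (sq_nonneg ‖ζ‖)
      nlinarith
    have h4 : ‖∑ s ∈ T.erase t, σ s ζ‖ ≤ ((T.card : ℝ) - 1) * ‖ζ‖ := by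
      refine (norm_sum_le _ _).trans ?_
      simp only [hnorm, Finset.sum_const, nsmul_eq_mul]
      rw [Finset.card_erase_of_mem ht, Nat.cast_sub (Finset.card_pos.2 ⟨t, ht⟩), Nat.cast_one]
    have h5 : ‖((T.card : ℂ) + 1)⁻¹‖ = ((T.card : ℝ) + 1)⁻¹ := by
      rw [norm_inv, ← Nat.cast_succ, Complex.norm_natCast, Nat.cast_succ]
    rw [norm_smul, h5, ← Finset.add_sum_erase T _ ht, ← add_assoc, repRate, div_eq_inv_mul,
      mul_assoc]
    refine mul_le_mul_of_nonneg_left ((norm_add_le _ _).trans ?_) (by positivity)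
    linarith

theorem repExt_ext {G A K : Type} [Group G] [AddCommGroup A] [Module ℂ A] [NormedAddCommGroup K]
    [InnerProductSpace ℂ K] [CompleteSpace K] (L : G →* Module.End ℂ A) (e : A →ₗ[ℂ] K)
    (he : DenseRange e) (hL : ∀ g a b, inner ℂ (e (L g a)) (e (L g b)) = inner ℂ (e a) (e b)) :
    ∃ σ : G →* (K →L[ℂ] K), (∀ g, star (σ g) = σ g⁻¹) ∧ ∀ g a, σ g (e a) = e (L g a) := by
  have hn : ∀ g, ∃ C, ∀ a, ‖(e ∘ₗ L g) a‖ ≤ C * ‖e a‖ := fun g => ⟨1, fun a => by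
    rw [one_mul, LinearMap.comp_apply, @norm_eq_sqrt_re_inner ℂ, hL, ← @norm_eq_sqrt_re_inner ℂ]⟩
  let s : G → K →L[ℂ] K := fun g => (e ∘ₗ L g).extendOfNorm e
  have hs : ∀ g a, s g (e a) = e (L g a) := fun g a => LinearMap.extendOfNorm_eq he (hn g) a
  have hext : ∀ u v : K →L[ℂ] K, (∀ a, u (e a) = v (e a)) → u = v := fun u v h =>
    ContinuousLinearMap.ext fun x =>
      he.induction_on x (isClosed_eq u.continuous v.continuous) h
  let σ : G →* (K →L[ℂ] K) :=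
    { toFun := s
      map_one' := hext _ _ fun a => by rw [hs, map_one]; rfl
      map_mul' := fun g h => hext _ _ fun a => by
        rw [hs, mul_apply_eq_comp, hs, hs, map_mul]; rfl }
  refine ⟨σ, fun g => ?_, hs⟩
  rw [ContinuousLinearMap.star_eq_adjoint, eq_comm, ContinuousLinearMap.eq_adjoint_iff]
  intro x y
  refine he.induction_on₂ (p := fun x y => inner ℂ (σ g⁻¹ x) y = inner ℂ x (σ g y))
    (isClosed_eq (by fun_prop) (by fun_prop)) (fun a b => ?_) x y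
  change inner ℂ (s g⁻¹ (e a)) (e b) = inner ℂ (e a) (s g (e b))
  rw [hs, hs, ← hL g, ← Module.End.mul_apply, ← map_mul, mul_inv_cancel, map_one,
    Module.End.one_apply]

theorem exists_rate {G : Type} [Group G] {T : Finset G} {c : ℝ} (hc : 0 < c)
    (hT : KazhdanSet T c) : ∃ θ : ℝ, 0 ≤ θ ∧ θ < 1 ∧
    ∀ (A K : Type) [NonUnitalRing A] [StarRing A] [Module ℂ A] [NormedAddCommGroup K]
      [InnerProductSpace ℂ K] [CompleteSpace K] (L : G →* Module.End ℂ A),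
      (∀ g a b, star (L g a) * L g b = star a * b) →
      ∀ (ρ : A →⋆ₙₐ[ℂ] (K →L[ℂ] K)) (k : ℕ) (g : G) (a : A),
        ‖ρ ((avg L T ^ k) (L g a - a))‖ ≤ 2 * θ ^ k * ‖ρ a‖ := by
  have hne : T.Nonempty := by
    obtain ⟨t, ht, -⟩ := hT ℂ 1 (fun g => by simp) 0 (fun η _ => by simp)
    exact ⟨t, ht⟩
  have hθ0 : 0 ≤ repRate T.card c := by
    have : (1 : ℝ) ≤ T.card := by exact_mod_cast Finset.card_pos.2 hne
    have := Real.sqrt_nonneg (max (4 - c ^ 2) 0)
    exact div_nonneg (by linarith) (by positivity)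
  refine ⟨repRate T.card c, hθ0, repRate_lt _ hc, fun A K _ _ _ _ _ _ L hL ρ k g a => ?_⟩
  refine ContinuousLinearMap.opNorm_le_bound _ (by positivity) fun η => ?_
  let e₀ : A →ₗ[ℂ] K :=
    { toFun := fun b => ρ b η
      map_add' := fun b b' => by simp
      map_smul' := fun z b => by simp }
  let K₀ : Submodule ℂ K := (LinearMap.range e₀).topologicalClosure
  have : CompleteSpace K₀ := (Submodule.isClosed_topologicalClosure _).completeSpace_coe
  let e : A →ₗ[ℂ] K₀ := e₀.codRestrict K₀ fun b =>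
    Submodule.le_topologicalClosure _ (LinearMap.mem_range_self e₀ b)
  have he : DenseRange e := by
    rw [DenseRange, Subtype.dense_iff]
    intro x hx
    refine closure_mono ?_ (show x ∈ closure (LinearMap.range e₀ : Set K) from hx)
    rintro _ ⟨b, rfl⟩
    exact ⟨e b, ⟨b, rfl⟩, rfl⟩
  have hin : ∀ b b' : A, inner ℂ (e b) (e b') = inner ℂ η (ρ (star b * b') η) := fun b b' => by
    change inner ℂ (ρ b η) (ρ b' η) = _
    rw [map_mul, map_star, mul_apply_eq_comp, ContinuousLinearMap.star_eq_adjoint,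
      ContinuousLinearMap.adjoint_inner_right]
  obtain ⟨σ, hσ, hσe⟩ := repExt_ext L e he fun g b b' => by rw [hin, hin, hL]
  have hnorm : ‖e (L g a)‖ = ‖e a‖ := by
    rw [@norm_eq_sqrt_re_inner ℂ, hin, hL, ← hin, ← @norm_eq_sqrt_re_inner ℂ]
  have hea : ‖e a‖ ≤ ‖ρ a‖ * ‖η‖ := (ρ a).le_opNorm η
  have key : ∀ k : ℕ, (∀ ξ : K₀, (∀ g, σ g ξ = ξ) → inner ℂ ξ (e ((avg L T ^ k) (L g a - a))) = 0) ∧
      ‖e ((avg L T ^ k) (L g a - a))‖ ≤ 2 * repRate T.card c ^ k * ‖ρ a‖ * ‖η‖ := by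
    intro k
    induction k with
    | zero =>
      simp only [pow_zero, Module.End.one_apply, map_sub, mul_one]
      refine ⟨fun ξ hξ => ?_, (norm_sub_le _ _).trans (by rw [hnorm]; linarith)⟩
      rw [inner_sub_right, ← hσe, ← ContinuousLinearMap.adjoint_inner_left,
        ← ContinuousLinearMap.star_eq_adjoint, hσ, hξ, sub_self]
    | succ k ih =>
      obtain ⟨h1, h2⟩ := repExt_gap hc hT σ hσ _ ih.1
      have h3 : e ((avg L T ^ (k + 1)) (L g a - a)) = ((T.card : ℂ) + 1)⁻¹ •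
          (e ((avg L T ^ k) (L g a - a)) + ∑ t ∈ T, σ t (e ((avg L T ^ k) (L g a - a)))) := by
        rw [pow_succ', Module.End.mul_apply]
        generalize (avg L T ^ k) (L g a - a) = b
        simp only [avg, LinearMap.smul_apply, LinearMap.add_apply, Module.End.one_apply,
          LinearMap.sum_apply, map_smul, map_add, map_sum, hσe]
      rw [h3]
      refine ⟨h1, h2.trans ((mul_le_mul_of_nonneg_left ih.2 hθ0).trans (le_of_eq (by ring)))⟩
  exact (key k).2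

end Vale.Agent.P212
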