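import Vale.Agent.P212.Defs3
import Vale.Agent.P212.RepExt

/-! TASK Phi: a fibration `π : X → B` whose fibres are (coarsely) orbits of a Kazhdan group gives a
ring homomorphism `ℂ[B]⁺ → C*_max(X)⁺`, `a ↦ Q â` (`Q` the Kazhdan projection).
Plan. Write `A = roeAlg X H`, `u g = permOp X H (MulAction.toPerm g)` (finite propagation by
`disp`), `L g a = u g * a` (`IsRoe.mul_left`, `star_permOp`), `ι a = toMax _ (inrRoe X H a)`.
(1) `exists_rate` (applied to `ρ.comp inrRoe` for unital `ρ`, with `norm_toMax_le`, `le_maxNorm`,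
`norm_toMax`) gives `‖ι (avg^k (L g a - a))‖ ≤ 2 θ^k ‖ι a‖`. As
`avg a - a = (|T|+1)⁻¹ • ∑_t (L t a - a) = ∑_t (L t a' - a')`, `a' = (|T|+1)⁻¹ • a`, the sequence
`ι (avg^k a)` is Cauchy (`cauchySeq_of_le_geometric`); let `Q a` be its limit. `Q` is additive,
`Q (L g a - a) = 0`, `Q (a b) = Q a * ι b` (as `avg^k (a b) = avg^k a * b`), and
`toMax (inl c) * Q a = Q (c • a) = Q a * toMax (inl c)`.
(2) Column sums. For `a ∈ A`, `b : B`, `x' : X` let `cs a b x' = ∑ᶠ z ∈ π⁻¹ b, entry a z x'`
(a sum over `ballF x' R`). Choose `ψ x' b`: a point of the fibre over `b` with `edist x' · ≤ n` for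
the least possible `n` (`Nat.find`; arbitrary if there is none). KEY: if all column sums of `a`
vanish then `Q a = 0`. Indeed let `PropLE a R`; if `entry a z x' ≠ 0` then `z' = ψ x' (π z)` is in
the fibre of `z` with `edist x' z' ≤ R`, so `z' = g • z` for some `g = g(z, x') ∈ S` (`rel` with
`2R`). Let `a_g = kerOp` of the entries with `g(z, x') = g`; `a = ∑_{g ∈ S} a_g` and
`∑_g u g * a_g = 0` (its entry `(y, x')` vanishes unless `y = ψ x' (π y)`, and then it is
`cs a (π y) x'`), so `a = -∑_g (L g a_g - a_g)`.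
(3) `â = liftK E π a` with `E z z' := z = ψ z' (π z)` (`Ctrl` from `lift`); `cs â b x' =
entry a b (π x')`. For any `y ∈ A` and `t : G`: `â * (u t * y) - â * y = (â * u t - â) * y` and
`â * u t - â` has vanishing column sums, so `Q (â * avg^k y) = Q (â * y)`; hence
`Q â * Q b̂ = lim Q â * ι (avg^k b̂) = Q (â * b̂) = Q ((a b)^)` (equal column sums).
(4) `Φ (c, a) = toMax (inl c) + Q â`. In the situation of the last clause `â = a'` (entries) and
`L g a' = a'`, so `avg^k a' = a'` and `Q a' = ι a'`. -/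

noncomputable section

namespace Vale.Agent.P212

section PhiAbs

open Filter Topology

theorem phi_limit {G A C : Type} [Group G] [NonUnitalRing A] [Module ℂ A] [IsAlg A] [NormedRing C]
    [CompleteSpace C] (ι : A →ₙ+* C) (s : ℂ → C) (hs1 : ∀ c a, s c * ι a = ι (c • a))
    (hs2 : ∀ c a, ι a * s c = ι (c • a)) (L : G →* Module.End ℂ A)
    (hL : ∀ g a b, L g (a * b) = L g a * b) (T : Finset G) {θ : ℝ} (h0 : 0 ≤ θ) (h1 : θ < 1)
    (hrate : ∀ k g a, ‖ι ((avg L T ^ k) (L g a - a))‖ ≤ 2 * θ ^ k * ‖ι a‖) :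
    ∃ Q : A →+ C, (∀ g a, Q (L g a) = Q a) ∧ (∀ c a, s c * Q a = Q (c • a)) ∧
      (∀ c a, Q a * s c = Q (c • a)) ∧ (∀ a, (∀ g, L g a = a) → Q a = ι a) ∧
      (∀ a b, Q (a * b) = Q a * ι b) ∧
      ∀ a b, (∀ g y, Q (a * L g y) = Q (a * y)) → Q a * Q b = Q (a * b) := by
  set w : ℂ := ((T.card : ℂ) + 1)⁻¹ with hw
  have hw1 : w * ((T.card : ℂ) + 1) = 1 := inv_mul_cancel₀ (Nat.cast_add_one_ne_zero _)
  have havg : ∀ a, avg L T a = a + ∑ t ∈ T, (L t (w • a) - w • a) := by
    intro a
    simp only [avg, ← hw, LinearMap.smul_apply, LinearMap.add_apply, Module.End.one_apply,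
      LinearMap.sum_apply, map_smul, Finset.sum_sub_distrib, Finset.sum_const, smul_add,
      Finset.smul_sum]
    rw [← Nat.cast_smul_eq_nsmul ℂ, smul_smul]
    have : w • a = a - ((T.card : ℂ) * w) • a := by
      rw [eq_sub_iff_add_eq, ← add_smul]
      have h2 : w + (T.card : ℂ) * w = 1 := by linear_combination hw1
      rw [h2, one_smul]
    rw [this]
    abel
  have hc : ∀ a, CauchySeq fun k => ι ((avg L T ^ k) a) := by
    intro a
    refine cauchySeq_of_le_geometric θ (T.card * (2 * ‖ι (w • a)‖)) h1 fun k => ?_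
    rw [dist_comm, dist_eq_norm, ← map_sub, pow_succ, Module.End.mul_apply, ← map_sub, havg,
      add_sub_cancel_left, map_sum, map_sum]
    refine (norm_sum_le _ _).trans ((Finset.sum_le_sum fun t _ => hrate k t _).trans ?_)
    rw [Finset.sum_const, nsmul_eq_mul]
    apply le_of_eq
    ring
  choose q hq using fun a => cauchySeq_tendsto_of_complete (hc a)
  have hadd : ∀ a b, q (a + b) = q a + q b := fun a b =>
    tendsto_nhds_unique (hq _) (by simpa only [map_add] using (hq a).add (hq b))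
  let Q : A →+ C := AddMonoidHom.mk' q hadd
  have hQ : ∀ a, Tendsto (fun k => ι ((avg L T ^ k) a)) atTop (𝓝 (Q a)) := hq
  have hpow : ∀ k a b, (avg L T ^ k) (a * b) = (avg L T ^ k) a * b := by
    intro k
    induction k with
    | zero => intro a b; rfl
    | succ k ih =>
      intro a b
      rw [pow_succ', Module.End.mul_apply, Module.End.mul_apply, ih, havg, havg, add_mul,
        Finset.sum_mul]
      simp only [sub_mul, ← smul_mul_assoc, hL]
  have hmul : ∀ a b, Q (a * b) = Q a * ι b := fun a b =>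
    tendsto_nhds_unique (hQ _) (by simpa only [hpow, map_mul] using (hQ a).mul_const (ι b))
  refine ⟨Q, fun g a => ?_, fun c a => ?_, fun c a => ?_, fun a ha => ?_, hmul, fun a b ha => ?_⟩
  · rw [← sub_eq_zero, ← map_sub]
    refine tendsto_nhds_unique (hQ _) (squeeze_zero_norm (fun k => hrate k g a) ?_)
    simpa using ((tendsto_pow_atTop_nhds_zero_of_lt_one h0 h1).const_mul 2).mul_const ‖ι a‖
  · exact tendsto_nhds_unique ((hQ a).const_mul (s c))
      (by simpa only [map_smul, hs1] using hQ (c • a))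
  · exact tendsto_nhds_unique ((hQ a).mul_const (s c))
      (by simpa only [map_smul, hs2] using hQ (c • a))
  · have h2 : ∀ k, (avg L T ^ k) a = a := by
      intro k
      induction k with
      | zero => rfl
      | succ k ih =>
        rw [pow_succ', Module.End.mul_apply, ih, havg]
        simp [ha]
    exact tendsto_nhds_unique (hQ a) (by simpa only [h2] using tendsto_const_nhds)
  · have h2 : ∀ k, Q (a * (avg L T ^ k) b) = Q (a * b) := by
      intro k
      induction k with
      | zero => rfl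
      | succ k ih =>
        rw [pow_succ', Module.End.mul_apply, havg, mul_add, map_add, ih, Finset.mul_sum, map_sum]
        simp only [mul_sub, map_sub, ha, sub_self, Finset.sum_const_zero, add_zero]
    refine tendsto_nhds_unique ((hQ b).const_mul (Q a)) ?_
    simpa only [← hmul, h2] using tendsto_const_nhds

theorem phi_unit {A C : Type} [NonUnitalRing A] [Module ℂ A] [IsAlg A] [Ring C] (s : ℂ →+* C)
    (q : A →+ C) (h1 : ∀ c a, s c * q a = q (c • a)) (h2 : ∀ c a, q a * s c = q (c • a))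
    (h3 : ∀ a b, q a * q b = q (a * b)) :
    ∃ Φ : UnitOf A →+* C, ∀ a, Φ (Unitization.inr a) = q a := by
  refine ⟨{ toFun := fun u => s u.fst + q u.snd
            map_one' := by simp
            map_mul' := fun u v => ?_
            map_zero' := by simp
            map_add' := fun u v => ?_ }, fun a => by simp⟩
  · rw [Unitization.fst_mul, Unitization.snd_mul, map_mul, map_add, map_add, add_mul, mul_add,
      mul_add, h1, h2, h3]
    abel
  · rw [Unitization.fst_add, Unitization.snd_add, map_add, map_add]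
    abel

end PhiAbs

/-- `π` is a coarse fibration whose fibres are uniformly coarsely `G`-orbits. -/
structure IsFib (G : Type) {X B : Type} [Group G] [MulAction G X] [PseudoEMetricSpace X]
    [PseudoEMetricSpace B] (π : X → B) : Prop where
  inv : ∀ (g : G) (x : X), π (g • x) = π x
  disp : ∀ g : G, ∃ R : ℕ, ∀ x : X, edist x (g • x) ≤ R
  rel : ∀ r : ℕ, ∃ S : Finset G, ∀ x x' : X, π x = π x' → edist x x' ≤ r → ∃ g ∈ S, x' = g • x
  lift : ∀ r : ℕ, ∃ R : ℕ, ∀ (x : X) (b : B), edist (π x) b ≤ r → ∃ x', π x' = b ∧ edist x x' ≤ R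

variable {G X B H : Type} [Group G] [MulAction G X] [PseudoEMetricSpace X] [BddGeom X]
  [PseudoEMetricSpace B] [BddGeom B] [NormedAddCommGroup H] [InnerProductSpace ℂ H]
  [CompleteSpace H]

open Classical in
/-- The sum of the entries of the column `x'` over the fibre of `b`. -/
def phiCs (π : X → B) (a : Op (L2 X H) (L2 X H)) (b : B) (x' : X) : Op H H :=
  ∑ᶠ z, if π z = b then entry a z x' else 0

/-- The column sums of `a'` are the entries of `a`. -/
def PhiOver (π : X → B) (a' : Op (L2 X H) (L2 X H)) (a : Op (L2 B H) (L2 B H)) : Prop :=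
  ∀ b x', phiCs π a' b x' = entry a b (π x')

section PhiCs

open Classical

omit [PseudoEMetricSpace X] [BddGeom X] [PseudoEMetricSpace B] [BddGeom B] [CompleteSpace H] in
theorem phiCs_eq (π : X → B) (a : Op (L2 X H) (L2 X H)) (b : B) (x' : X) {s : Finset X}
    (h : ∀ z, z ∉ s → entry a z x' = 0) :
    phiCs π a b x' = ∑ z ∈ s, if π z = b then entry a z x' else 0 := by
  refine finsum_eq_sum_of_support_subset _ fun z hz => ?_
  by_contra h1
  exact hz (by simp [h z h1])

omit [CompleteSpace H] in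
theorem phi_col {a : Op (L2 X H) (L2 X H)} {R : ℕ} (h : PropLE a R) (x' z : X)
    (hz : z ∉ ballF x' R) : entry a z x' = 0 := by
  by_contra h1
  exact hz (mem_ballF.2 (by rw [edist_comm]; exact h.edist_le h1))

omit [PseudoEMetricSpace X] [BddGeom X] [PseudoEMetricSpace B] [BddGeom B] [CompleteSpace H] in
theorem phi_fiber (π : X → B) (a : Op (L2 X H) (L2 X H)) (x' : X) {s : Finset X}
    (h : ∀ z, z ∉ s → entry a z x' = 0) {t : Finset B} (ht : ∀ z ∈ s, π z ∈ t)
    (f : B → Op H H) :
    ∑ z ∈ s, f (π z) * entry a z x' = ∑ d ∈ t, f d * phiCs π a d x' := by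
  simp only [phiCs_eq π a _ x' h, Finset.mul_sum, mul_ite, mul_zero]
  rw [Finset.sum_comm]
  refine Finset.sum_congr rfl fun z hz => ?_
  rw [Finset.sum_ite_eq, if_pos (ht z hz)]

omit [PseudoEMetricSpace B] [BddGeom B] [CompleteSpace H] in
theorem phiCs_sub (π : X → B) {a a' : Op (L2 X H) (L2 X H)} (ha : FinProp a) (ha' : FinProp a')
    (b : B) (x' : X) : phiCs π (a - a') b x' = phiCs π a b x' - phiCs π a' b x' := by
  obtain ⟨R, hR⟩ := ha
  obtain ⟨R', hR'⟩ := ha'
  have h1 := hR.mono (le_max_left R R')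
  have h2 := hR'.mono (le_max_right R R')
  rw [phiCs_eq π _ b x' (phi_col h1 x'), phiCs_eq π _ b x' (phi_col h2 x'),
    phiCs_eq π _ b x' (phi_col (h1.sub h2) x'), ← Finset.sum_sub_distrib]
  refine Finset.sum_congr rfl fun z _ => ?_
  split_ifs <;> simp

omit [CompleteSpace H] in
theorem PhiOver.mul {π : X → B} {a' b' : Op (L2 X H) (L2 X H)} {a b : Op (L2 B H) (L2 B H)}
    (h1 : PhiOver π a' a) (h2 : PhiOver π b' b) (ha' : FinProp a') (hb' : FinProp b')
    (hb : FinProp b) : PhiOver π (a' * b') (a * b) := by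
  obtain ⟨R, hR⟩ := ha'
  obtain ⟨R', hR'⟩ := hb'
  obtain ⟨r, hr⟩ := hb
  intro c x'
  rw [phiCs_eq π _ c x' (phi_col (hR.mul hR') x'),
    entry_mul_right a b c (π x') ((ballF x' R').image π ∪ ballF (π x') r)
      fun z hz => phi_col hr _ z fun h => hz (Finset.mem_union_right _ h)]
  simp only [← h2 _ x']
  rw [← phi_fiber π b' x' (phi_col hR' x')
    (fun z hz => Finset.mem_union_left _ (Finset.mem_image_of_mem π hz)) fun d => entry a c d]
  have h3 : ∀ w ∈ ballF x' R', entry a c (π w) * entry b' w x' =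
      ∑ z ∈ ballF x' (R + R'), if π z = c then entry a' z w * entry b' w x' else 0 := by
    intro w hw
    rw [← h1, phiCs_eq π a' c w (s := ballF x' (R + R')), Finset.sum_mul]
    · simp only [ite_mul, zero_mul]
    · intro z hz
      refine phi_col hR w z fun h => hz (mem_ballF.2 ?_)
      refine (edist_triangle x' w z).trans ?_
      rw [Nat.cast_add, add_comm (R : ENNReal)]
      exact add_le_add (mem_ballF.1 hw) (mem_ballF.1 h)
  rw [Finset.sum_congr rfl h3, Finset.sum_comm]
  refine Finset.sum_congr rfl fun z _ => ?_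
  rw [entry_mul_right a' b' z x' _ (phi_col hR' x')]
  split_ifs <;> simp

omit [BddGeom X] [PseudoEMetricSpace B] [BddGeom B] in
theorem phi_exists_psi (π : X → B) : ∃ ψ : X → B → X, ∀ (x' z : X) (n : ℕ), edist x' z ≤ n →
    π (ψ x' (π z)) = π z ∧ edist x' (ψ x' (π z)) ≤ n := by
  have h : ∀ (x' : X) (b : B), ∃ y : X, ∀ (z : X) (n : ℕ), π z = b → edist x' z ≤ n →
      π y = b ∧ edist x' y ≤ n := by
    intro x' b
    by_cases h : ∃ n : ℕ, ∃ z, π z = b ∧ edist x' z ≤ n
    · obtain ⟨y, hy, hy'⟩ := Nat.find_spec h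
      exact ⟨y, fun z n hz hn => ⟨hy, hy'.trans (Nat.cast_le.2 (Nat.find_min' h ⟨z, hz, hn⟩))⟩⟩
    · exact ⟨x', fun z n hz hn => absurd ⟨n, z, hz, hn⟩ h⟩
  choose ψ hψ using h
  exact ⟨ψ, fun x' z n hn => hψ x' _ z n rfl hn⟩

omit [BddGeom B] [CompleteSpace H] in
theorem phi_key {π : X → B} (hπ : IsFib G π) {a : Op (L2 X H) (L2 X H)} (ha : IsRoe a)
    (h0 : ∀ b x', phiCs π a b x' = 0) :
    ∃ (S : Finset G) (f : G → Op (L2 X H) (L2 X H)), (∀ g, IsRoe (f g)) ∧ ∑ g ∈ S, f g = a ∧
      ∑ g ∈ S, permOp X H (MulAction.toPerm g) * f g = 0 := by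
  obtain ⟨ψ, hψ⟩ := phi_exists_psi π
  obtain ⟨R, hR⟩ := ha.finProp
  obtain ⟨S, hS⟩ := hπ.rel (R + R)
  have h1 : ∀ z x', ∃ g : G, entry a z x' ≠ 0 → g ∈ S ∧ ψ x' (π z) = g • z := by
    intro z x'
    by_cases h : entry a z x' = 0
    · exact ⟨1, fun h' => absurd h h'⟩
    · have h2 := hR.edist_le h
      obtain ⟨h3, h4⟩ := hψ x' z R (by rw [edist_comm]; exact h2)
      obtain ⟨g, hg, hg'⟩ := hS z _ h3.symm ((edist_triangle z x' _).trans (by
        rw [Nat.cast_add]
        exact add_le_add h2 h4))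
      exact ⟨g, fun _ => ⟨hg, hg'⟩⟩
  choose γ hγ using h1
  have hent : ∀ g z x', entry (kerOp fun z x' => if γ z x' = g then entry a z x' else 0) z x' =
      if γ z x' = g then entry a z x' else 0 := by
    intro g
    refine entry_kerOp _ ‖a‖ R (fun z x' => ?_) fun z x' h => ?_
    · split_ifs
      · exact norm_entry_le a z x'
      · rw [norm_zero]
        exact norm_nonneg _
    · rw [hR z x' h, ite_self]
  refine ⟨S, fun g => kerOp fun z x' => if γ z x' = g then entry a z x' else 0,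
    fun g => ⟨fun z x' => ?_, R, fun z x' h => ?_⟩, entry_ext fun z x' => ?_,
    entry_ext fun y x' => ?_⟩
  · rw [hent]
    split_ifs
    · exact ha.1 z x'
    · exact compacts_zero
  · rw [hent, hR z x' h, ite_self]
  · simp only [entry_sum, hent]
    rw [Finset.sum_ite_eq]
    split_ifs with h
    · rfl
    · by_contra h'
      exact h (hγ z x' (Ne.symm h')).1
  · simp only [entry_sum, entry_permOp_mul, hent, entry_zero]
    have h2 : ∀ g ∈ S, (if γ ((MulAction.toPerm g).symm y) x' = g then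
        entry a ((MulAction.toPerm g).symm y) x' else 0) =
        ∑ z ∈ ballF x' R, if γ z x' = g then (if g • z = y then entry a z x' else 0) else 0 := by
      intro g _
      rw [Finset.sum_eq_single ((MulAction.toPerm g).symm y)]
      · simp
      · intro z _ hz
        rw [if_neg (show ¬ g • z = y from fun h => hz (by simp [← h])), ite_self]
      · intro hz
        rw [phi_col hR x' _ hz, ite_self, ite_self]
    rw [Finset.sum_congr rfl h2, Finset.sum_comm]
    have h3 : ∀ z ∈ ballF x' R, (∑ g ∈ S,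
        if γ z x' = g then (if g • z = y then entry a z x' else 0) else 0) =
        (if ψ x' (π z) = y then 1 else 0) * entry a z x' := by
      intro z _
      by_cases h : entry a z x' = 0
      · simp [h]
      · rw [Finset.sum_ite_eq, if_pos (hγ z x' h).1, (hγ z x' h).2, ite_mul, one_mul, zero_mul]
    rw [Finset.sum_congr rfl h3, phi_fiber π a x' (phi_col hR x')
      (fun z hz => Finset.mem_image_of_mem π hz) fun d => if ψ x' d = y then 1 else 0]
    simp [h0]

omit [BddGeom B] [CompleteSpace H] in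
theorem phi_lift {π : X → B} (hπ : IsFib G π) : ∃ E : X → X → Prop, Ctrl E π ∧
    ∀ a : Op (L2 B H) (L2 B H), FinProp a → PhiOver π (liftK E π a) a := by
  obtain ⟨ψ, hψ⟩ := phi_exists_psi π
  have h1 : ∀ r : ℕ, ∃ R : ℕ, ∀ (x' : X) (b : B), edist (π x') b ≤ r →
      π (ψ x' b) = b ∧ edist x' (ψ x' b) ≤ R := by
    intro r
    obtain ⟨R, hR⟩ := hπ.lift r
    refine ⟨R, fun x' b h => ?_⟩
    obtain ⟨z, rfl, hz⟩ := hR x' b h
    exact hψ x' z R hz
  have hc : Ctrl (fun z z' => z = ψ z' (π z)) π := by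
    intro r
    obtain ⟨R, hR⟩ := h1 r
    refine ⟨R, fun z z' h h' => ?_⟩
    rw [edist_comm] at h' ⊢
    have := (hR z' _ h').2
    rwa [← h] at this
  refine ⟨_, hc, fun a ha b x' => ?_⟩
  rw [phiCs, finsum_eq_single _ (ψ x' b)]
  · rw [entry_liftK hc ha]
    by_cases h : entry a b (π x') = 0
    · rw [h]
      split_ifs with h2 h3
      · rw [h2, h]
      · rfl
      · rfl
    · obtain ⟨r, hr⟩ := ha
      obtain ⟨R, hR⟩ := h1 r
      have h2 := (hR x' b (by rw [edist_comm]; exact hr.edist_le h)).1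
      rw [if_pos h2, h2, if_pos rfl]
  · intro z hz
    rw [entry_liftK hc ha]
    split_ifs with h2 h3
    · exact absurd (h2 ▸ h3) hz
    · rfl
    · rfl

end PhiCs

/-- Left multiplication by the permutation operators. -/
def phiL {π : X → B} (hπ : IsFib G π) : G →* Module.End ℂ (roeAlg X H) where
  toFun g :=
    { toFun := fun a => ⟨permOp X H (MulAction.toPerm g) * a.1,
        IsRoe.mul_left ((hπ.disp g).elim fun R hR => ⟨R, PropLE.permOp hR⟩) a.2⟩
      map_add' := fun a b => Subtype.ext (mul_add _ a.1 b.1)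
      map_smul' := fun c a => Subtype.ext (mul_smul_comm c _ a.1) }
  map_one' := LinearMap.ext fun a => Subtype.ext (entry_ext fun x y => by
    change entry (_ * a.1) x y = entry a.1 x y
    rw [entry_permOp_mul]
    simp)
  map_mul' g h := LinearMap.ext fun a => Subtype.ext (entry_ext fun x y => by
    change entry (_ * a.1) x y = entry (_ * (_ * a.1)) x y
    rw [entry_permOp_mul, entry_permOp_mul, entry_permOp_mul]
    simp [mul_smul])

omit [BddGeom B] in
theorem phiL_val {π : X → B} (hπ : IsFib G π) (g : G) (a : roeAlg X H) :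
    (phiL hπ g a).1 = permOp X H (MulAction.toPerm g) * a.1 := rfl

theorem exists_phi {π : X → B} (hπ : IsFib G π) {T : Finset G} {c : ℝ} (hc : 0 < c)
    (hT : KazhdanSet T c) :
    ∃ Φ : UnitOf (roeAlg B H) →+* MaxRoePlus X H, ∀ (a : roeAlg B H) (a' : roeAlg X H),
      (∀ x x', entry a'.1 x x' = entry a.1 (π x) (π x')) →
      (∀ x x' x'', entry a.1 (π x) (π x') ≠ 0 → π x'' = π x → x'' = x) →
      Φ (Unitization.inr a) = toMax (RoePlus X H) (inrRoe X H a') := by
  classical
  obtain ⟨θ, h0, h1, hθ⟩ := exists_rate hc hT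
  let ι : roeAlg X H →ₙ+* MaxRoePlus X H :=
    { toFun := fun a => toMax (RoePlus X H) (inrRoe X H a)
      map_mul' := fun a b => by rw [map_mul, map_mul]
      map_zero' := by rw [map_zero, map_zero]
      map_add' := fun a b => by rw [map_add, map_add] }
  have hι : ∀ a, ι a = toMax (RoePlus X H) (inrRoe X H a) := fun _ => rfl
  let s : ℂ →+* MaxRoePlus X H := (toMax (RoePlus X H)).comp (algebraMap ℂ (RoePlus X H))
  have hs1 : ∀ c a, s c * ι a = ι (c • a) := fun c a => by
    rw [hι, hι, map_smul, Algebra.smul_def, map_mul]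
    rfl
  have hs2 : ∀ c a, ι a * s c = ι (c • a) := fun c a => by
    rw [hι, hι, map_smul, Algebra.smul_def, Algebra.commutes, map_mul]
    rfl
  have hstar : ∀ (g : G) (a b : roeAlg X H),
      star (phiL hπ g a) * phiL hπ g b = star a * b := by
    intro g a b
    refine Subtype.ext ?_
    change star (_ * a.1) * (_ * b.1) = star a.1 * b.1
    rw [star_mul, star_permOp, mul_assoc, ← mul_assoc (permOp X H _), ← map_mul, inv_mul_cancel,
      map_one, one_mul]
  obtain ⟨Q, hQ1, hQ2, hQ3, hQ4, hQ5, hQ6⟩ := phi_limit ι s hs1 hs2 (phiL hπ)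
    (fun g a b => Subtype.ext (mul_assoc _ a.1 b.1).symm) T h0 h1 (fun k g a => by
      refine norm_toMax_le (by positivity) fun K _ _ _ ρ => ?_
      refine (hθ _ K (phiL hπ) hstar (ρ.toNonUnitalStarAlgHom.comp (inrRoe X H)) k g a).trans ?_
      rw [hι, norm_toMax]
      exact mul_le_mul_of_nonneg_left (le_maxNorm ρ _) (by positivity))
  have hkey : ∀ a : roeAlg X H, (∀ b x', phiCs π a.1 b x' = 0) → Q a = 0 := by
    intro a ha
    obtain ⟨S, f, hf, hf1, hf2⟩ := phi_key hπ a.2 ha
    have h2 : a = ∑ g ∈ S, (⟨f g, hf g⟩ : roeAlg X H) :=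
      Subtype.ext (by rw [AddSubmonoidClass.coe_finsetSum, hf1])
    have h3 : ∑ g ∈ S, phiL hπ g (⟨f g, hf g⟩ : roeAlg X H) = 0 :=
      Subtype.ext (by rw [AddSubmonoidClass.coe_finsetSum]; exact hf2)
    rw [h2, map_sum, ← map_zero Q, ← h3, map_sum]
    simp only [hQ1]
  have huniq : ∀ (a' a'' : roeAlg X H) (a : Op (L2 B H) (L2 B H)), PhiOver π a'.1 a →
      PhiOver π a''.1 a → Q a' = Q a'' := by
    intro a' a'' a h h'
    rw [← sub_eq_zero, ← map_sub]
    refine hkey _ fun b x' => ?_
    change phiCs π (a'.1 - a''.1) b x' = 0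
    rw [phiCs_sub π a'.2.2 a''.2.2, h, h', sub_self]
  obtain ⟨E, hE, hover⟩ := phi_lift (H := H) hπ
  let hat : roeAlg B H →+ roeAlg X H := AddMonoidHom.mk'
    (fun a => ⟨liftK E π a.1, isRoe_liftK hE a.2⟩)
    fun a b => Subtype.ext (liftK_add hE a.2.2 b.2.2)
  have hhat : ∀ a, PhiOver π (hat a).1 a.1 := fun a => hover a.1 a.2.2
  have hsm : ∀ (c : ℂ) a, hat (c • a) = c • hat a := fun c a =>
    Subtype.ext (liftK_smul hE c a.2.2)
  obtain ⟨Φ, hΦ⟩ := phi_unit s (Q.comp hat)
    (fun c a => by rw [AddMonoidHom.comp_apply, AddMonoidHom.comp_apply, hsm, hQ2])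
    (fun c a => by rw [AddMonoidHom.comp_apply, AddMonoidHom.comp_apply, hsm, hQ3])
    (fun a b => by
      simp only [AddMonoidHom.comp_apply]
      rw [hQ6]
      · exact huniq _ _ (a.1 * b.1) ((hhat a).mul (hhat b) (hat a).2.2 (hat b).2.2 b.2.2)
          (hhat (a * b))
      · intro g y
        let a₁ : roeAlg X H := ⟨(hat a).1 * permOp X H (MulAction.toPerm g),
          IsRoe.mul_right (hat a).2 ((hπ.disp g).elim fun R hR => ⟨R, PropLE.permOp hR⟩)⟩
        have h2 : hat a * phiL hπ g y = a₁ * y := Subtype.ext (mul_assoc _ _ y.1).symm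
        rw [h2, hQ5, hQ5, huniq a₁ (hat a) a.1 (fun b x' => ?_) (hhat a)]
        rw [← hπ.inv g x', ← hhat a]
        simp only [phiCs, a₁, entry_mul_permOp, MulAction.toPerm_apply])
  refine ⟨Φ, fun a a' ha ha' => ?_⟩
  rw [hΦ, AddMonoidHom.comp_apply, huniq (hat a) a' a.1 (hhat a) fun b x' => ?_, hQ4, hι]
  · intro g
    refine Subtype.ext (entry_ext fun x y => ?_)
    rw [phiL_val, entry_permOp_mul, ha, ha, MulAction.toPerm_symm_apply, hπ.inv]
  · by_cases h : entry a.1 b (π x') = 0
    · rw [h]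
      refine finsum_eq_zero_of_forall_eq_zero fun z => ?_
      split_ifs with hz
      · rw [ha, hz, h]
      · rfl
    · obtain ⟨r, hr⟩ := a.2.2
      obtain ⟨R, hR⟩ := hπ.lift r
      obtain ⟨z, rfl, -⟩ := hR x' b (by rw [edist_comm]; exact PropLE.edist_le hr h)
      rw [phiCs, finsum_eq_single _ z, if_pos rfl, ha]
      intro w hw
      exact if_neg fun hz => hw (ha' z x' w h hz)

end Vale.Agent.P212
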