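import Vale.Agent.P212.Defs2

/-! TASK RepBound: every `*`-representation of `ℂ[X]` is bounded on operators of bounded
propagation.
Plan. (1) The diagonal operators `𝒟 = {T | entry T x y = 0 for x ≠ y, entry T x x compact}` form a
closed `NonUnitalStarSubalgebra` of `B(ℓ²(X,H))` contained in `roeAlg`, hence a nonunital
C⋆-algebra (instance for closed nonunital star subalgebras), so `‖ρ d‖ ≤ ‖d‖` on `𝒟`
(`NonUnitalStarAlgHom.norm_apply_le` for `ρ ∘ inclusion`). (2) Let `N = ballN X R`; enumerate each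
ball `ballF y R` by an injection `ι y : ballF y R → Fin N` and write `a = ∑_{m : Fin N} a_m` where
`a_m = kerOp` of the entries `(x, y)` with `x ∈ ballF y R`, `ι y x = m`. Each column of `a_m` has at
most one nonzero entry, so `a_m * star a_m ∈ 𝒟`, and
`‖ρ a_m‖² = ‖ρ (a_m a_m*)‖ ≤ ‖a_m‖² ≤ (N ‖a‖)²` (`norm_le_of_entries`, `norm_entry_le`).
(3) `repBdd_roe`: `‖π (inl c + inr a)‖ ≤ ‖c‖ + ‖π (inr a)‖`. -/

noncomputable section

namespace Vale.Agent.P212

variable {X H : Type} [PseudoEMetricSpace X] [BddGeom X] [NormedAddCommGroup H]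
  [InnerProductSpace ℂ H] [CompleteSpace H]

theorem mem_roeAlg {T : Op (L2 X H) (L2 X H)} : T ∈ roeAlg X H ↔ IsRoe T := Iff.rfl

/-- The locally compact operators of propagation zero. -/
def repDiag (X H : Type) [PseudoEMetricSpace X] [BddGeom X] [NormedAddCommGroup H]
    [InnerProductSpace ℂ H] [CompleteSpace H] :
    NonUnitalStarSubalgebra ℂ (L2 X H →L[ℂ] L2 X H) where
  carrier := {T | (∀ x y, entry T x y ∈ compacts H) ∧ PropLE T 0}
  add_mem' ha hb := ⟨(IsRoe.add ⟨ha.1, 0, ha.2⟩ ⟨hb.1, 0, hb.2⟩).1, ha.2.add hb.2⟩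
  zero_mem' := ⟨isRoe_zero.1, PropLE.zero 0⟩
  mul_mem' ha hb := ⟨(IsRoe.mul_left ⟨0, ha.2⟩ ⟨hb.1, 0, hb.2⟩).1, ha.2.mul hb.2⟩
  smul_mem' c _ ha := ⟨(IsRoe.smul c ⟨ha.1, 0, ha.2⟩).1, ha.2.smul c⟩
  star_mem' ha := ⟨(IsRoe.star ⟨ha.1, 0, ha.2⟩).1, ha.2.star⟩

theorem repDiag_isClosed : IsClosed (repDiag X H : Set (L2 X H →L[ℂ] L2 X H)) := by
  have h : (repDiag X H : Set (L2 X H →L[ℂ] L2 X H)) =
      (⋂ x, ⋂ y, (fun T => entry T x y) ⁻¹' compacts H) ∩
        ⋂ x, ⋂ y, ⋂ _ : ((0 : ℕ) : ENNReal) < edist x y, {T | entry T x y = 0} := by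
    ext T
    simp only [Set.mem_inter_iff, Set.mem_iInter]
    rfl
  rw [h]
  exact (isClosed_iInter fun x => isClosed_iInter fun y =>
    isClosed_compacts.preimage (continuous_entry x y)).inter
    (isClosed_iInter fun x => isClosed_iInter fun y => isClosed_iInter fun _ =>
      isClosed_eq (continuous_entry x y) continuous_const)

theorem repDiag_le : repDiag X H ≤ roeAlg X H := fun _ h => ⟨h.1, 0, h.2⟩

theorem repBound_abs {B C : Type} [CStarAlgebra B] [CStarAlgebra C]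
    {S T : NonUnitalStarSubalgebra ℂ B} (hS : IsClosed (S : Set B)) (h : S ≤ T)
    (ρ : T →⋆ₙₐ[ℂ] C) (a : T) (ha : a.1 ∈ S) : ‖ρ a‖ ≤ ‖a.1‖ :=
  NonUnitalStarAlgHom.norm_apply_le (ρ.comp (NonUnitalStarSubalgebra.inclusion h)) ⟨a.1, ha⟩

theorem repBound_diag {K : Type} [NormedAddCommGroup K] [InnerProductSpace ℂ K] [CompleteSpace K]
    (ρ : roeAlg X H →⋆ₙₐ[ℂ] (K →L[ℂ] K)) (a : roeAlg X H) (h : PropLE a.1 0) :
    ‖ρ a‖ ≤ ‖a.1‖ :=
  repBound_abs (B := L2 X H →L[ℂ] L2 X H) (C := K →L[ℂ] K) (S := repDiag X H) (T := roeAlg X H)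
    repDiag_isClosed repDiag_le ρ a ⟨a.2.1, h⟩

theorem repBound_col {K : Type} [NormedAddCommGroup K] [InnerProductSpace ℂ K] [CompleteSpace K]
    (ρ : roeAlg X H →⋆ₙₐ[ℂ] (K →L[ℂ] K)) (a : roeAlg X H)
    (h : ∀ x x' y, entry a.1 x y ≠ 0 → entry a.1 x' y ≠ 0 → x = x') : ‖ρ a‖ ≤ ‖a.1‖ := by
  have h1 : PropLE (a * star a).1 0 := fun x x' hx => by
    have hne : x ≠ x' := fun e => by simp [e] at hx
    refine (entry_mul a.1 (star a.1) x x' ∅ fun y _ => ?_).trans (Finset.sum_empty)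
    rw [entry_star]
    by_cases h2 : entry a.1 x y = 0
    · rw [h2, zero_mul]
    · rw [not_not.1 fun h3 => hne (h x x' y h2 h3), star_zero, mul_zero]
  have h2 := repBound_diag ρ _ h1
  rw [map_mul, map_star, CStarRing.norm_self_mul_star] at h2
  have h3 : ‖(a * star a).1‖ = ‖a.1‖ * ‖a.1‖ := CStarRing.norm_self_mul_star (x := a.1)
  rw [h3] at h2
  exact abs_le_of_sq_le_sq' (by simpa only [sq] using h2) (norm_nonneg _) |>.2

theorem repBound_enum (R : ℕ) : ∃ c : X → X → ℕ, (∀ y, ∀ x ∈ ballF y R, c y x < ballN X R) ∧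
    ∀ y, ∀ x ∈ ballF y R, ∀ x' ∈ ballF y R, c y x = c y x' → x = x' := by
  classical
  refine ⟨fun y x => if h : x ∈ ballF y R then ((ballF y R).equivFin ⟨x, h⟩ : ℕ) else 0,
    fun y x hx => ?_, fun y x hx x' hx' h => ?_⟩
  · simp only [dif_pos hx]
    exact (Fin.is_lt _).trans_le (card_ballF_le y R)
  · simp only [dif_pos hx, dif_pos hx'] at h
    exact congrArg Subtype.val ((ballF y R).equivFin.injective (Fin.ext h))

theorem norm_rep_le {K : Type} [NormedAddCommGroup K] [InnerProductSpace ℂ K] [CompleteSpace K]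
    (ρ : roeAlg X H →⋆ₙₐ[ℂ] (K →L[ℂ] K)) (a : roeAlg X H) {R : ℕ} (hR : PropLE a.1 R) :
    ‖ρ a‖ ≤ (ballN X R : ℝ) ^ 2 * ‖a.1‖ := by
  classical
  obtain ⟨c, hc1, hc2⟩ := repBound_enum (X := X) R
  have hz : ∀ (m : ℕ) (x y : X), (R : ENNReal) < edist x y →
      (if x ∈ ballF y R ∧ c y x = m then entry a.1 x y else 0) = 0 := fun m x y h => by
    rw [hR x y h, ite_self]
  choose T hT hT' using fun m : ℕ => exists_kernel
    (fun x y => if x ∈ ballF y R ∧ c y x = m then entry a.1 x y else 0) ‖a.1‖ R (norm_nonneg _)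
    (fun x y => by
      split_ifs
      · exact norm_entry_le _ _ _
      · exact norm_zero.trans_le (norm_nonneg _)) (hz m)
  have hroe : ∀ m, IsRoe (T m) := fun m => ⟨fun x y => by
    rw [hT]
    split_ifs
    · exact a.2.1 x y
    · exact compacts_zero, R, fun x y h => (hT m x y).trans (hz m x y h)⟩
  let b : ℕ → roeAlg X H := fun m => ⟨T m, hroe m⟩
  have hsum : a = ∑ m ∈ Finset.range (ballN X R), b m := by
    refine Subtype.ext (entry_ext fun x y => ?_)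
    rw [AddSubmonoidClass.coe_finsetSum, entry_sum]
    simp only [b, hT]
    by_cases hx : x ∈ ballF y R
    · simp [hx, hc1 y x hx]
    · rw [hR x y (by rw [edist_comm]; exact not_le.1 fun h => hx (mem_ballF.2 h))]
      simp
  have hb : ∀ m, ‖ρ (b m)‖ ≤ ballN X R * ‖a.1‖ := fun m => by
    refine (repBound_col ρ (b m) fun x x' y h h' => ?_).trans (hT' m)
    simp only [b, hT, ne_eq, ite_eq_right_iff, Classical.not_imp] at h h'
    exact hc2 y x h.1.1 x' h'.1.1 (h.1.2.trans h'.1.2.symm)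
  calc ‖ρ a‖ = ‖∑ m ∈ Finset.range (ballN X R), ρ (b m)‖ := by rw [← map_sum, ← hsum]
    _ ≤ ∑ _m ∈ Finset.range (ballN X R), ballN X R * ‖a.1‖ :=
      (norm_sum_le _ _).trans (Finset.sum_le_sum fun m _ => hb m)
    _ = _ := by rw [Finset.sum_const, Finset.card_range, nsmul_eq_mul, sq, mul_assoc]

/-- The inclusion `ℂ[X] → ℂ[X]⁺`. -/
def inrRoe (X H : Type) [PseudoEMetricSpace X] [BddGeom X] [NormedAddCommGroup H]
    [InnerProductSpace ℂ H] [CompleteSpace H] : roeAlg X H →⋆ₙₐ[ℂ] RoePlus X H :=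
  Unitization.inrNonUnitalStarAlgHom ℂ (roeAlg X H)

theorem inrRoe_apply (a : roeAlg X H) : inrRoe X H a = Unitization.inr a := rfl

theorem repBound_inr {K : Type} [NormedAddCommGroup K] [InnerProductSpace ℂ K] [CompleteSpace K]
    (ρ : RepOn (RoePlus X H) K) (a : roeAlg X H) {R : ℕ} (hR : PropLE a.1 R) :
    ‖ρ (inrRoe X H a)‖ ≤ (ballN X R : ℝ) ^ 2 * ‖a.1‖ :=
  norm_rep_le (ρ.toNonUnitalStarAlgHom.comp (inrRoe X H)) a hR

theorem repBdd_roe_aux : RepBdd (RoePlus X H) := by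
  refine ⟨fun a => ?_⟩
  obtain ⟨c, b, h1⟩ : ∃ (c : ℂ) (b : roeAlg X H),
      a = algebraMap ℂ (RoePlus X H) c + inrRoe X H b :=
    ⟨_, _, (Unitization.inl_fst_add_inr_snd_eq (R := ℂ) (A := roeAlg X H) a).symm⟩
  obtain ⟨R, hR⟩ := b.2.2
  refine ⟨‖c‖ + (ballN X R : ℝ) ^ 2 * ‖b.1‖, ?_⟩
  rintro _ ⟨K, _, _, _, ρ, rfl⟩
  have h2 : ρ a = algebraMap ℂ (K →L[ℂ] K) c + ρ (inrRoe X H b) := by
    rw [← AlgHomClass.commutes ρ, ← map_add, ← h1]
  rw [homNorm, h2]
  refine (norm_add_le _ _).trans (add_le_add ?_ (repBound_inr ρ _ hR))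
  rw [Algebra.algebraMap_eq_smul_one, norm_smul]
  exact mul_le_of_le_one_right (norm_nonneg _) ContinuousLinearMap.norm_id_le

theorem norm_toMax {A : Type} [Ring A] [StarRing A] [Algebra ℂ A] [RepBdd A] (a : A) :
    ‖toMax A a‖ = maxNorm a :=
  UniformSpace.Completion.norm_coe (E := WithMaxNorm A) a

instance CStarMax.completeSpace {A : Type} [Ring A] [StarRing A] [Algebra ℂ A] [RepBdd A] :
    CompleteSpace (CStarMax A) :=
  UniformSpace.Completion.completeSpace (WithMaxNorm A)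

theorem norm_toMax_le {A : Type} [Ring A] [StarRing A] [Algebra ℂ A] [RepBdd A] {a : A} {C : ℝ}
    (hC : 0 ≤ C) (h : ∀ (K : Type) [NormedAddCommGroup K] [InnerProductSpace ℂ K]
      [CompleteSpace K] (ρ : RepOn A K), ‖ρ a‖ ≤ C) : ‖toMax A a‖ ≤ C := by
  rw [norm_toMax]; exact maxNorm_le hC h

theorem norm_toMax_inr_le [RepBdd (RoePlus X H)] (a : roeAlg X H) {R : ℕ} (hR : PropLE a.1 R) :
    ‖toMax (RoePlus X H) (inrRoe X H a)‖ ≤ (ballN X R : ℝ) ^ 2 * ‖a.1‖ :=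
  norm_toMax_le (by positivity) fun _ _ _ _ ρ => repBound_inr ρ a hR

/-- The inclusion `ℂ[X] → B(ℓ²(X, H))`. -/
def roeVal (X H : Type) [PseudoEMetricSpace X] [BddGeom X] [NormedAddCommGroup H]
    [InnerProductSpace ℂ H] [CompleteSpace H] : roeAlg X H →ₙₐ[ℂ] (L2 X H →L[ℂ] L2 X H) where
  toFun a := a.1
  map_smul' _ _ := rfl
  map_zero' := rfl
  map_add' _ _ := rfl
  map_mul' _ _ := rfl

@[simp] theorem roeVal_apply (a : roeAlg X H) : roeVal X H a = a.1 := rfl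

theorem roeVal_injective : Function.Injective (roeVal X H) := Subtype.val_injective

end Vale.Agent.P212
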