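import Vale.Agent.P212.OpKit2

/-! TASK RipsTop: topology of the Rips complex of a bounded geometry space.
Plan. `rips_top_eq`: the weak topology is the topology induced from `X → ℝ`. One inequality is
formal. For the other let `U` be weakly open, `μ ∈ U`, `μ.t x₀ ≠ 0`; the open star
`V = {ν | ν.t x₀ ≠ 0}` is covered by the finitely many cells `|σ|`, `σ ⊆ ballF x₀ r`; each `|σ|`
is closed in the induced topology and `Uᶜ ∩ |σ|` is closed in `|σ|`, so `V ∩ U` is open.
`isCompact_supp`: the points supported in a finite set `s` form a compact set (the map `ν ↦ ν.t`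
is inducing with image a closed subset of a product of intervals `[0,1]` and `{0}`; on it
`∑ᶠ = ∑ x ∈ s`). `cocompactOf`: a compact subset of `Rips X r` is covered by finitely many open
stars. -/

noncomputable section

open Classical
open scoped ZeroAtInfty

namespace Vale.Agent.P212

variable {X Y Ω : Type} [PseudoEMetricSpace X] [PseudoEMetricSpace Y] [TopologicalSpace Ω]
  {r r' : ℕ}

theorem Rips.ext' {μ ν : Rips X r} (h : μ.t = ν.t) : μ = ν := by
  cases μ; cases ν; cases h; rfl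

theorem Rips.exists_ne_zero (μ : Rips X r) : ∃ x, μ.t x ≠ 0 := by
  by_contra h
  push Not at h
  have h1 := μ.sum_eq
  simp [h] at h1

/-- the coordinates sum to one over any finset containing the support -/
theorem Rips.sum_eq_one (μ : Rips X r) (s : Finset X) (h : ∀ x, μ.t x ≠ 0 → x ∈ s) :
    ∑ x ∈ s, μ.t x = 1 := by
  rw [← μ.sum_eq]
  symm
  apply finsum_eq_sum_of_support_subset
  intro x hx
  exact Finset.mem_coe.2 (h x hx)

theorem Rips.sum_le_one (μ : Rips X r) (s : Finset X) : ∑ x ∈ s, μ.t x ≤ 1 := by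
  have h1 := μ.sum_eq_one (s ∪ μ.finite.toFinset) fun x hx =>
    Finset.mem_union_right _ (μ.finite.mem_toFinset.2 hx)
  rw [← h1]
  exact Finset.sum_le_sum_of_subset_of_nonneg Finset.subset_union_left fun x _ _ => μ.nonneg x

theorem Rips.top_le_induced_rt : Rips.top X r ≤
    TopologicalSpace.induced (fun μ : Rips X r => μ.t) Pi.topologicalSpace := by
  refine iSup_le fun σ => ?_
  rw [coinduced_le_iff_le_induced, induced_compose]
  exact le_rfl

theorem Rips.continuous_coords_rt : Continuous fun μ : Rips X r => μ.t :=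
  continuous_iff_le_induced.2 Rips.top_le_induced_rt

theorem Rips.continuous_t (x : X) : Continuous fun μ : Rips X r => μ.t x :=
  (continuous_apply x).comp Rips.continuous_coords_rt

theorem Rips.continuous_sqrtAt (x : X) : Continuous (Rips.sqrtAt x : Rips X r → ℂ) :=
  Complex.continuous_ofReal.comp (Real.continuous_sqrt.comp (Rips.continuous_t x))

theorem Rips.sqrtAt_mul_self (x : X) (μ : Rips X r) :
    Rips.sqrtAt x μ * Rips.sqrtAt x μ = (μ.t x : ℂ) := by
  unfold Rips.sqrtAt
  rw [← Complex.ofReal_mul, Real.mul_self_sqrt (μ.nonneg x)]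

theorem Rips.star_sqrtAt (x : X) (μ : Rips X r) : star (Rips.sqrtAt x μ) = Rips.sqrtAt x μ := by
  unfold Rips.sqrtAt
  exact Complex.conj_ofReal _

theorem Rips.sqrtAt_eq_zero {x : X} {μ : Rips X r} : Rips.sqrtAt x μ = 0 ↔ μ.t x = 0 := by
  unfold Rips.sqrtAt
  rw [Complex.ofReal_eq_zero, Real.sqrt_eq_zero (μ.nonneg x)]

theorem Rips.sum_sqrtAt_le (s : Finset X) (μ : Rips X r) :
    ∑ x ∈ s, ‖Rips.sqrtAt x μ‖ ^ 2 ≤ 1 := by
  refine le_trans (le_of_eq (Finset.sum_congr rfl fun x _ => ?_)) (μ.sum_le_one s)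
  unfold Rips.sqrtAt
  rw [Complex.norm_real, Real.norm_eq_abs, sq_abs, Real.sq_sqrt (μ.nonneg x)]

variable [BddGeom X]

theorem rips_top_eq : Rips.top X r =
    TopologicalSpace.induced (fun μ : Rips X r => μ.t) Pi.topologicalSpace := by
  refine le_antisymm Rips.top_le_induced_rt ?_
  intro U hU
  have hU' : ∀ σ : RipsSimplex X r, ∃ W : Set (X → ℝ), IsOpen W ∧
      ∀ μ : RipsCell σ, μ.1.t ∈ W ↔ μ.1 ∈ U := by
    intro σ
    have h1 := isOpen_iSup_iff.1 hU σ
    rw [isOpen_coinduced, isOpen_induced_iff] at h1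
    obtain ⟨W, hW, hWU⟩ := h1
    exact ⟨W, hW, fun μ => Set.ext_iff.1 hWU μ⟩
  choose W hWo hWU using hU'
  have key : ∀ μ ∈ U, ∃ N : Set (X → ℝ), IsOpen N ∧ μ.t ∈ N ∧ ∀ ν : Rips X r, ν.t ∈ N → ν ∈ U := by
    intro μ hμ
    obtain ⟨x₀, hx₀⟩ := μ.exists_ne_zero
    have hfin : {σ : RipsSimplex X r | σ.1 ⊆ ballF x₀ r}.Finite := by
      have h1 : {s : Finset X | s ⊆ ballF x₀ r}.Finite := by
        refine ((ballF x₀ r).powerset.finite_toSet).subset fun s hs => ?_
        exact Finset.mem_coe.2 (Finset.mem_powerset.2 hs)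
      exact h1.preimage Subtype.val_injective.injOn
    have hcl : IsClosed (⋃ σ ∈ {σ : RipsSimplex X r | σ.1 ⊆ ballF x₀ r},
        ((W σ)ᶜ ∩ ⋂ x ∈ ((σ.1 : Set X)ᶜ), {f : X → ℝ | f x = 0})) := by
      refine hfin.isClosed_biUnion fun σ _ => ?_
      refine (hWo σ).isClosed_compl.inter (isClosed_biInter fun x _ => ?_)
      exact isClosed_eq (continuous_apply x) continuous_const
    refine ⟨{f : X → ℝ | f x₀ ≠ 0} ∩ (⋃ σ ∈ {σ : RipsSimplex X r | σ.1 ⊆ ballF x₀ r},
        ((W σ)ᶜ ∩ ⋂ x ∈ ((σ.1 : Set X)ᶜ), {f : X → ℝ | f x = 0}))ᶜ,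
      (isOpen_ne_fun (continuous_apply x₀) continuous_const).inter hcl.isOpen_compl,
      ⟨hx₀, ?_⟩, ?_⟩
    · intro hmem
      simp only [Set.mem_iUnion, Set.mem_inter_iff, Set.mem_iInter] at hmem
      obtain ⟨σ, _, hW, hz⟩ := hmem
      refine hW ((hWU σ ⟨μ, fun x hx => ?_⟩).2 hμ)
      by_contra hxσ
      exact hx (hz x hxσ)
    · rintro ν ⟨hν0, hν⟩
      let σ : RipsSimplex X r := ⟨ν.finite.toFinset, fun x hx y hy =>
        ν.diam x y (ν.finite.mem_toFinset.1 hx) (ν.finite.mem_toFinset.1 hy)⟩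
      have hσ : σ.1 ⊆ ballF x₀ r := fun x hx =>
        mem_ballF.2 (ν.diam x₀ x hν0 (ν.finite.mem_toFinset.1 hx))
      refine (hWU σ ⟨ν, fun x hx => ν.finite.mem_toFinset.2 hx⟩).1 ?_
      by_contra hW
      apply hν
      simp only [Set.mem_iUnion, Set.mem_inter_iff, Set.mem_iInter]
      refine ⟨σ, hσ, hW, fun x hx => ?_⟩
      by_contra hx0
      exact hx (Finset.mem_coe.2 (ν.finite.mem_toFinset.2 hx0))
  choose! N hNo hNμ hNU using key
  refine ⟨⋃ μ ∈ U, N μ, isOpen_biUnion hNo, ?_⟩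
  ext ν
  simp only [Set.mem_preimage, Set.mem_iUnion]
  constructor
  · rintro ⟨μ, hμ, hν⟩
    exact hNU μ hμ ν hν
  · intro hν
    exact ⟨ν, hν, hNμ ν hν⟩

theorem Rips.isInducing_coords_rt : Topology.IsInducing fun μ : Rips X r => μ.t :=
  ⟨rips_top_eq⟩

theorem continuous_to_rips {g : Ω → Rips X r} (h : ∀ x, Continuous fun ω => (g ω).t x) :
    Continuous g :=
  Rips.isInducing_coords_rt.continuous_iff.2 (continuous_pi h)

instance : T2Space (Rips X r) :=
  T2Space.of_injective_continuous (fun _ _ h => Rips.ext' h) Rips.continuous_coords_rt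

theorem isCompact_supp (s : Finset X) : IsCompact {μ : Rips X r | ∀ x, μ.t x ≠ 0 → x ∈ s} := by
  rw [Rips.isInducing_coords_rt.isCompact_iff]
  have hK : IsCompact (Set.pi Set.univ fun _ : X => Set.Icc (0 : ℝ) 1) :=
    isCompact_univ_pi fun _ => isCompact_Icc
  have hcl : IsClosed ({f : X → ℝ | ∑ x ∈ s, f x = 1} ∩
      ((⋂ x ∈ ((s : Set X)ᶜ), {f : X → ℝ | f x = 0}) ∩
        ⋂ p ∈ {p : X × X | ¬ edist p.1 p.2 ≤ r}, {f : X → ℝ | f p.1 * f p.2 = 0})) := by
    refine (isClosed_eq (continuous_finsetSum _ fun x _ => continuous_apply x)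
      continuous_const).inter (IsClosed.inter (isClosed_biInter fun x _ => ?_)
      (isClosed_biInter fun p _ => ?_))
    · exact isClosed_eq (continuous_apply x) continuous_const
    · exact isClosed_eq ((continuous_apply p.1).mul (continuous_apply p.2)) continuous_const
  have heq : (fun μ : Rips X r => μ.t) '' {μ : Rips X r | ∀ x, μ.t x ≠ 0 → x ∈ s} =
      (Set.pi Set.univ fun _ : X => Set.Icc (0 : ℝ) 1) ∩ ({f : X → ℝ | ∑ x ∈ s, f x = 1} ∩
      ((⋂ x ∈ ((s : Set X)ᶜ), {f : X → ℝ | f x = 0}) ∩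
        ⋂ p ∈ {p : X × X | ¬ edist p.1 p.2 ≤ r}, {f : X → ℝ | f p.1 * f p.2 = 0})) := by
    ext f
    simp only [Set.mem_image, Set.mem_inter_iff, Set.mem_iInter, Set.mem_ofPred_eq, Set.mem_pi,
      Set.mem_univ, true_imp_iff, Set.mem_Icc]
    constructor
    · rintro ⟨μ, hμ, rfl⟩
      refine ⟨fun x => ⟨μ.nonneg x, ?_⟩, μ.sum_eq_one s hμ, fun x hx => ?_, fun p hp => ?_⟩
      · simpa using μ.sum_le_one {x}
      · by_contra h0
        exact hx (Finset.mem_coe.2 (hμ x h0))
      · by_contra h0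
        exact hp (μ.diam _ _ (left_ne_zero_of_mul h0) (right_ne_zero_of_mul h0))
    · rintro ⟨h01, hsum, hz, hd⟩
      have hsupp : Function.support f ⊆ (s : Set X) := fun x hx => by
        by_contra hxs
        exact hx (hz x hxs)
      refine ⟨⟨f, fun x => (h01 x).1, s.finite_toSet.subset hsupp, ?_, fun x y hx hy => ?_⟩,
        fun x hx => Finset.mem_coe.1 (hsupp hx), rfl⟩
      · rw [finsum_eq_sum_of_support_subset f hsupp, hsum]
      · by_contra hxy
        exact mul_ne_zero hx hy (hd (x, y) hxy)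
  rw [heq]
  exact hK.inter_right hcl

theorem isCompact_star_rt (x : X) :
    ∃ K : Set (Rips X r), IsCompact K ∧ ∀ μ : Rips X r, μ.t x ≠ 0 → μ ∈ K :=
  ⟨_, isCompact_supp (ballF x r), fun μ hμ y hy => mem_ballF.2 (μ.diam x y hμ hy)⟩

/-- A function supported in the star of a vertex vanishes at infinity. -/
theorem tendsto_cocompact_of_star (x : X) (f : Rips X r → ℂ) (h : ∀ μ, μ.t x = 0 → f μ = 0) :
    Filter.Tendsto f (Filter.cocompact (Rips X r)) (nhds 0) := by
  obtain ⟨K, hK, hKx⟩ := isCompact_star_rt (r := r) x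
  refine tendsto_const_nhds.congr' ?_
  filter_upwards [hK.compl_mem_cocompact] with μ hμ
  symm
  apply h
  by_contra h0
  exact hμ (hKx μ h0)

theorem Rips.tendsto_sqrtAt (x : X) :
    Filter.Tendsto (Rips.sqrtAt x : Rips X r → ℂ) (Filter.cocompact (Rips X r)) (nhds 0) :=
  tendsto_cocompact_of_star x _ fun _ h => Rips.sqrtAt_eq_zero.2 h

/-- Criterion for a map into the Rips complex to be proper. -/
theorem tendsto_cocompact_rips {g : Ω → Rips X r}
    (h : ∀ x, ∃ K : Set Ω, IsCompact K ∧ ∀ ω, (g ω).t x ≠ 0 → ω ∈ K) :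
    Filter.Tendsto g (Filter.cocompact Ω) (Filter.cocompact (Rips X r)) := by
  choose K hK hKx using h
  rw [Filter.hasBasis_cocompact.tendsto_right_iff]
  intro C hC
  obtain ⟨s, hs⟩ := hC.elim_finite_subcover (fun x : X => {μ : Rips X r | μ.t x ≠ 0})
    (fun x => isOpen_ne_fun (Rips.continuous_t x) continuous_const)
    (fun μ _ => Set.mem_iUnion.2 μ.exists_ne_zero)
  have hc : IsCompact (⋃ x ∈ s, K x) := s.isCompact_biUnion fun x _ => hK x
  filter_upwards [hc.compl_mem_cocompact] with ω hω hmem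
  apply hω
  have h1 := hs hmem
  simp only [Set.mem_iUnion] at h1 ⊢
  obtain ⟨x, hx, hx0⟩ := h1
  exact ⟨x, hx, hKx x ω hx0⟩

/-- A proper map into the Rips complex. -/
def cocompactOf (g : Ω → Rips X r) (hc : ∀ x, Continuous fun ω => (g ω).t x)
    (h : ∀ x, ∃ K : Set Ω, IsCompact K ∧ ∀ ω, (g ω).t x ≠ 0 → ω ∈ K) :
    CocompactMap Ω (Rips X r) :=
  ⟨⟨g, continuous_to_rips hc⟩, tendsto_cocompact_rips h⟩

theorem Rips.continuous_incl (h : r ≤ r') : Continuous (Rips.incl h : Rips X r → Rips X r') :=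
  continuous_to_rips fun x => Rips.continuous_t x

theorem Rips.tendsto_incl (h : r ≤ r') : Filter.Tendsto (Rips.incl h : Rips X r → Rips X r')
    (Filter.cocompact _) (Filter.cocompact _) :=
  tendsto_cocompact_rips fun x => isCompact_star_rt (r := r) x

omit [BddGeom X] [PseudoEMetricSpace X] [PseudoEMetricSpace Y] in
theorem extend_ne_zero_rt {s : Y → X} (hs : Function.Injective s) {f : Y → ℝ} {x : X}
    (hx : Function.extend s f 0 x ≠ 0) : ∃ y, s y = x ∧ f y ≠ 0 := by
  by_cases h : ∃ y, s y = x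
  · obtain ⟨y, rfl⟩ := h
    rw [hs.extend_apply] at hx
    exact ⟨y, rfl, hx⟩
  · rw [Function.extend_apply' _ _ _ h] at hx
    exact absurd rfl hx

/-- The simplicial map induced by an injective map `s`. -/
def Rips.map (s : Y → X) (hs : Function.Injective s)
    (hd : ∀ y y', edist y y' ≤ r → edist (s y) (s y') ≤ r') (μ : Rips Y r) : Rips X r' where
  t := Function.extend s μ.t 0
  nonneg := by
    intro x
    by_cases h : Function.extend s μ.t 0 x = 0
    · exact h.ge
    · obtain ⟨y, rfl, _⟩ := extend_ne_zero_rt hs h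
      rw [hs.extend_apply]
      exact μ.nonneg y
  finite := by
    refine (μ.finite.image s).subset fun x hx => ?_
    obtain ⟨y, rfl, hy⟩ := extend_ne_zero_rt hs hx
    exact ⟨y, hy, rfl⟩
  sum_eq := by
    rw [finsum_eq_sum_of_support_subset _ (s := μ.finite.toFinset.image s)]
    · rw [Finset.sum_image fun a _ b _ hab => hs hab]
      simp only [hs.extend_apply]
      exact μ.sum_eq_one _ fun y hy => μ.finite.mem_toFinset.2 hy
    · intro x hx
      obtain ⟨y, rfl, hy⟩ := extend_ne_zero_rt hs hx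
      exact Finset.mem_coe.2 (Finset.mem_image_of_mem s (μ.finite.mem_toFinset.2 hy))
  diam := by
    intro x x' hx hx'
    obtain ⟨y, rfl, hy⟩ := extend_ne_zero_rt hs hx
    obtain ⟨y', rfl, hy'⟩ := extend_ne_zero_rt hs hx'
    exact hd y y' (μ.diam y y' hy hy')

omit [BddGeom X] in
theorem Rips.map_t (s : Y → X) (hs : Function.Injective s)
    (hd : ∀ y y', edist y y' ≤ r → edist (s y) (s y') ≤ r') (μ : Rips Y r) (y : Y) :
    (Rips.map s hs hd μ).t (s y) = μ.t y := hs.extend_apply _ _ _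

omit [BddGeom X] in
theorem Rips.map_t_of_not_mem (s : Y → X) (hs : Function.Injective s)
    (hd : ∀ y y', edist y y' ≤ r → edist (s y) (s y') ≤ r') (μ : Rips Y r) {x : X}
    (hx : x ∉ Set.range s) : (Rips.map s hs hd μ).t x = 0 :=
  Function.extend_apply' _ _ _ hx

/-- The simplicial map induced by `s` as a proper map. -/
def ripsMap [BddGeom Y] (s : Y → X) (hs : Function.Injective s)
    (hd : ∀ y y', edist y y' ≤ r → edist (s y) (s y') ≤ r') :
    CocompactMap (Rips Y r) (Rips X r') :=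
  cocompactOf (Rips.map s hs hd)
    (by
      intro x
      by_cases hx : x ∈ Set.range s
      · obtain ⟨y, rfl⟩ := hx
        simp only [Rips.map_t]
        exact Rips.continuous_t y
      · simp only [Rips.map_t_of_not_mem s hs hd _ hx]
        exact continuous_const)
    (by
      intro x
      by_cases hx : x ∈ Set.range s
      · obtain ⟨y, rfl⟩ := hx
        simp only [Rips.map_t]
        exact isCompact_star_rt y
      · exact ⟨∅, isCompact_empty, fun μ hμ => absurd (Rips.map_t_of_not_mem s hs hd μ hx) hμ⟩)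

theorem ripsMap_apply [BddGeom Y] (s : Y → X) (hs : Function.Injective s)
    (hd : ∀ y y', edist y y' ≤ r → edist (s y) (s y') ≤ r') (μ : Rips Y r) :
    ripsMap s hs hd μ = Rips.map s hs hd μ := rfl

end Vale.Agent.P212
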