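import Vale.Agent.P212.IndexOp

/-! TASK Swindle: on the mapping cylinder `Cyl L` of unbounded length the two ends give the same
class in `K₀(ℂ[Cyl L]⁺)` (an Eilenberg swindle).
Plan. For `J : Cyl L → Prop` depending only on `(k, L y)`, say `J k l`, let
`E_J p q := p.k = q.k ∧ L p.y = L q.y ∧ J p.k (L p.y)`; it is `Flat` for `π p = p.y`
(`hL` gives `lift`). Let `c_J = liftHom` restricted to `roeAlg` (`isRoe_liftK`), a nonunital algebra
homomorphism `roeAlg Y H → roeAlg (Cyl L) H`, so `unitMat (α.map c_J)` is idempotent (map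
`unitMat α` by the ring homomorphism `Unitization.lift`/`Unitization.map`, or use `unitMat_idem`),
call its class `κ J`. If `J, J'` are disjoint then `c_{J ∪ J'} = c_J + c_{J'}` and
`κ (J ∪ J') = κ J + κ J'` by `kap_add` with `χ` the diagonal projection onto `J`
(`diagOp`, propagation `0`, `FinProp.isMult`). If `τ` is an involution of `Cyl L` of the form
`(y, k) ↦ (y, τ_{L y} k)` with `|τ k - k| ≤ 1` then `permOp τ * c_J a * permOp τ = c_{τ J} a`
(entries), so `κ (τ J) = κ J` by `kap_conj`. With `τ₁ : 2j ↔ 2j+1` (fixing `L`) and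
`τ₂ : 2j+1 ↔ 2j+2` (fixing `0`): `κ (even, < L) = κ odd = κ (even, > 0)`. Since `L` is even and
positive, `κ {0} + κ (even, 0 < k < L) = κ (even, 0 < k < L) + κ {L}`. Finally the entries of
`c_{0} a` are as stated because `entry a y y' ≠ 0` forces `L y = L y'`. -/

noncomputable section

open Classical

namespace Vale.Agent.P212

/-- The cylinder `{(y, k) | k ≤ L y}` with the sup metric. -/
def Cyl {Y : Type} (L : Y → ℕ) : Type := {p : Y × ℕ // p.2 ≤ L p.1}

variable {Y H : Type} [PseudoEMetricSpace Y] {L : Y → ℕ}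

instance : PseudoEMetricSpace (Cyl L) :=
  inferInstanceAs (PseudoEMetricSpace {p : Y × ℕ // p.2 ≤ L p.1})

omit [PseudoEMetricSpace Y] in
theorem Cyl.ext {p q : Cyl L} (h1 : p.1.1 = q.1.1) (h2 : p.1.2 = q.1.2) : p = q :=
  Subtype.ext (Prod.ext h1 h2)

theorem Cyl.edist_le_iff (p q : Cyl L) (r : ℕ) :
    edist p q ≤ r ↔ edist p.1.1 q.1.1 ≤ r ∧ p.1.2 ≤ q.1.2 + r ∧ q.1.2 ≤ p.1.2 + r := by
  have e : edist p q = max (edist p.1.1 q.1.1) (edist p.1.2 q.1.2) := rfl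
  rw [e, max_le_iff, edist_dist p.1.2, ENNReal.ofReal_le_natCast, Nat.dist_eq, abs_le]
  refine and_congr_right fun _ => ⟨fun ⟨h1, h2⟩ => ⟨?_, ?_⟩, fun ⟨h1, h2⟩ => ?_⟩
  · have : (p.1.2 : ℝ) ≤ q.1.2 + r := by linarith
    exact_mod_cast this
  · have : (q.1.2 : ℝ) ≤ p.1.2 + r := by linarith
    exact_mod_cast this
  · have h1' : (p.1.2 : ℝ) ≤ q.1.2 + r := by exact_mod_cast h1
    have h2' : (q.1.2 : ℝ) ≤ p.1.2 + r := by exact_mod_cast h2
    constructor <;> linarith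

instance [BddGeom Y] : BddGeom (Cyl L) := by
  refine ⟨fun R => ⟨ballN Y R * (2 * R + 1), fun p => ?_⟩⟩
  have h := Set.encard_le_encard_of_injOn (s := {q : Cyl L | edist p q ≤ R})
    (t := ((ballF p.1.1 R ×ˢ Finset.Icc (p.1.2 - R) (p.1.2 + R) : Finset (Y × ℕ)) : Set (Y × ℕ)))
    (f := fun q => q.1) (fun q hq => ?_) fun q _ q' _ h => Subtype.ext h
  · refine h.trans ?_
    rw [Set.encard_coe_eq_coe_finsetCard, Finset.card_product, Nat.card_Icc, Nat.cast_le]
    exact Nat.mul_le_mul (card_ballF_le _ _) (by omega)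
  · obtain ⟨h1, h2, h3⟩ := (Cyl.edist_le_iff p q R).1 hq
    simp only [Finset.coe_product, Set.mem_prod, Finset.mem_coe, mem_ballF, Finset.mem_Icc]
    exact ⟨h1, by omega, h3⟩

variable [BddGeom Y] [NormedAddCommGroup H] [InnerProductSpace ℂ H] [CompleteSpace H]

/-- the support relation of the lift to the levels in `J` -/
def swE (L : Y → ℕ) (J : ℕ → ℕ → Prop) (p q : Cyl L) : Prop :=
  p.1.2 = q.1.2 ∧ L p.1.1 = L q.1.1 ∧ J p.1.2 (L p.1.1)

omit [BddGeom Y] in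
theorem sw_ctrl (J : ℕ → ℕ → Prop) : Ctrl (swE L J) fun p => p.1.1 := fun r =>
  ⟨r, fun p q h h' => (Cyl.edist_le_iff p q r).2 ⟨h', by rw [h.1]; omega, by rw [h.1]; omega⟩⟩

omit [BddGeom Y] in
theorem sw_flat (hL : ∀ y y', edist y y' ≠ ⊤ → L y = L y') (J : ℕ → ℕ → Prop) :
    Flat (swE L J) fun p => p.1.1 where
  ctrl := sw_ctrl J
  symm _ _ h := ⟨h.1.symm, h.2.1.symm, h.1 ▸ h.2.1 ▸ h.2.2⟩
  trans _ _ _ h h' := ⟨h.1.trans h'.1, h.2.1.trans h'.2.1, h.2.2⟩
  lift z y h h' := ⟨⟨(y, z.1.2), hL _ _ h' ▸ z.2⟩, ⟨rfl, hL _ _ h', h.2.2⟩, rfl⟩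
  uniq _ _ h h' := Cyl.ext h' h.1

/-- the lift as a homomorphism on `ℂ[Y]` -/
def swHom (hL : ∀ y y', edist y y' ≠ ⊤ → L y = L y') (J : ℕ → ℕ → Prop) :
    roeAlg Y H →ₙₐ[ℂ] (L2 (Cyl L) H →L[ℂ] L2 (Cyl L) H) where
  toFun a := liftK (swE L J) (fun p => p.1.1) a.1
  map_smul' c a := liftK_smul (sw_ctrl J) c a.2.2
  map_zero' := map_zero (liftHom (H := H) (sw_flat hL J))
  map_add' a b := liftK_add (sw_ctrl J) a.2.2 b.2.2
  map_mul' a b := liftK_mul (sw_flat hL J) a.2.2 b.2.2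

/-- the lifted matrix -/
def swM (L : Y → ℕ) (J : ℕ → ℕ → Prop) (α : M2 (roeAlg Y H)) : M2 (roeAlg (Cyl L) H) := fun i k =>
  ⟨liftK (swE L J) (fun p => p.1.1) (α i k).1, isRoe_liftK (sw_ctrl J) (α i k).2⟩

theorem entry_swM (J : ℕ → ℕ → Prop) (α : M2 (roeAlg Y H)) (i k : Fin 2) (p q : Cyl L) :
    entry (swM L J α i k).1 p q = if swE L J p q then entry (α i k).1 p.1.1 q.1.1 else 0 :=
  entry_liftK (sw_ctrl J) (α i k).2.2 p q

theorem swM_idem (hL : ∀ y y', edist y y' ≠ ⊤ → L y = L y') (J : ℕ → ℕ → Prop)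
    {α : M2 (roeAlg Y H)} (hα : unitMat α * unitMat α = unitMat α) :
    unitMat (swM L J α) * unitMat (swM L J α) = unitMat (swM L J α) := by
  have h := idem_of_unitMat (swHom hL J) α hα
  have e : (swM L J α).map (roeVal (Cyl L) H) = α.map (swHom (H := H) hL J) := by
    funext i k
    rfl
  refine unitMat_idem (roeVal (Cyl L) H) roeVal_injective _ ?_
  rw [e]
  exact h

/-- the class of the lifted matrix -/
def swK (hL : ∀ y y', edist y y' ≠ ⊤ → L y = L y') {α : M2 (roeAlg Y H)}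
    (hα : unitMat α * unitMat α = unitMat α) (J : ℕ → ℕ → Prop) :
    K0 (UnitOf (roeAlg (Cyl L) H)) :=
  kap (swM L J α) (swM_idem hL J hα)

theorem sw_kap_congr {A : Type} [NonUnitalRing A] [Module ℂ A] [IsAlg A] {a b : M2 A}
    (h : a = b) (ha : unitMat a * unitMat a = unitMat a) (hb : unitMat b * unitMat b = unitMat b) :
    kap a ha = kap b hb := by
  subst h
  rfl

omit [CompleteSpace H] in
theorem sw_diag_mul {X : Type} (D : X → Op H H) (h : ∀ x, ‖D x‖ ≤ 1) (T : Op (L2 X H) (L2 X H))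
    (x y : X) : entry (diagOp D 1 zero_le_one h * T) x y = D x * entry T x y := by
  rw [entry_mul_left _ _ x y {x} fun z hz => by
    rw [entry_diagOp, if_neg fun e => hz (Finset.mem_singleton.2 e.symm)]]
  rw [Finset.sum_singleton, entry_diagOp, if_pos rfl]

omit [CompleteSpace H] in
theorem sw_mul_diag {X : Type} (D : X → Op H H) (h : ∀ x, ‖D x‖ ≤ 1) (T : Op (L2 X H) (L2 X H))
    (x y : X) : entry (T * diagOp D 1 zero_le_one h) x y = entry T x y * D y := by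
  rw [entry_mul_right _ _ x y {y} fun z hz => by
    rw [entry_diagOp, if_neg fun e => hz (Finset.mem_singleton.2 e)]]
  rw [Finset.sum_singleton, entry_diagOp, if_pos rfl]

theorem swK_add (hL : ∀ y y', edist y y' ≠ ⊤ → L y = L y') {α : M2 (roeAlg Y H)}
    (hα : unitMat α * unitMat α = unitMat α) (J J' J'' : ℕ → ℕ → Prop)
    (hd : ∀ p : Cyl L, J p.1.2 (L p.1.1) → ¬J' p.1.2 (L p.1.1))
    (hu : ∀ p : Cyl L, J'' p.1.2 (L p.1.1) ↔ J p.1.2 (L p.1.1) ∨ J' p.1.2 (L p.1.1)) :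
    swK hL hα J'' = swK hL hα J + swK hL hα J' := by
  have e : swM L J'' α = swM L J α + swM L J' α := by
    funext i k
    apply Subtype.ext
    refine entry_ext fun p q => ?_
    show _ = entry ((swM L J α i k).1 + (swM L J' α i k).1) p q
    rw [entry_add, entry_swM, entry_swM, entry_swM]
    by_cases h1 : swE L J p q
    · rw [if_pos h1, if_pos ⟨h1.1, h1.2.1, (hu p).2 (Or.inl h1.2.2)⟩,
        if_neg fun h => hd p h1.2.2 h.2.2, add_zero]
    · rw [if_neg h1, zero_add]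
      refine if_congr ⟨fun h => ⟨h.1, h.2.1, ((hu p).1 h.2.2).resolve_left
        fun h' => h1 ⟨h.1, h.2.1, h'⟩⟩, fun h => ⟨h.1, h.2.1, (hu p).2 (Or.inr h.2.2)⟩⟩ rfl rfl
  have hc := swM_idem hL J'' hα
  rw [e] at hc
  let D : Cyl L → Op H H := fun p => if J p.1.2 (L p.1.1) then 1 else 0
  have hD : ∀ p, ‖D p‖ ≤ 1 := fun p => by
    simp only [D]
    split_ifs
    · exact ContinuousLinearMap.norm_id_le
    · exact (norm_zero (E := H →L[ℂ] H)).trans_le zero_le_one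
  have hχ : FinProp (diagOp D 1 zero_le_one hD) := ⟨0, fun p q h => by
    rw [entry_diagOp, if_neg]
    rintro rfl
    simp at h⟩
  have hq : ∀ {I : ℕ → ℕ → Prop} {p q : Cyl L}, swE L I p q →
      (J q.1.2 (L q.1.1) ↔ J p.1.2 (L p.1.1)) := fun h => by rw [h.1, h.2.1]
  refine (sw_kap_congr e _ hc).trans (kap_add (roeVal (Cyl L) H) roeVal_injective hχ.isMult ?_
    _ _ hc (fun i k => ?_) fun i k => ?_)
  · refine entry_ext fun p q => ?_
    rw [sw_diag_mul, entry_diagOp]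
    simp only [D]
    split_ifs <;> simp
  · refine entry_ext fun p q => ?_
    rw [sw_mul_diag, sw_diag_mul, roeVal_apply, entry_swM]
    split_ifs with h
    · simp only [D, if_pos h.2.2, if_pos ((hq h).2 h.2.2), one_mul, mul_one]
    · simp
  · have h1 : diagOp D 1 zero_le_one hD * (swM L J' α i k).1 = 0 := by
      refine entry_ext fun p q => ?_
      rw [sw_diag_mul, entry_swM, entry_zero]
      split_ifs with h
      · simp only [D, if_neg fun h' => hd p h' h.2.2, zero_mul]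
      · simp
    have h2 : (swM L J' α i k).1 * diagOp D 1 zero_le_one hD = 0 := by
      refine entry_ext fun p q => ?_
      rw [sw_mul_diag, entry_swM, entry_zero]
      split_ifs with h
      · simp only [D, if_neg fun h' => hd p ((hq h).1 h') h.2.2, mul_zero]
      · simp
    rw [roeVal_apply, sub_mul, one_mul, h1, sub_zero, mul_sub, mul_one, h2, sub_zero]

theorem swK_conj (hL : ∀ y y', edist y y' ≠ ⊤ → L y = L y') {α : M2 (roeAlg Y H)}
    (hα : unitMat α * unitMat α = unitMat α) (J J' : ℕ → ℕ → Prop) (τ : ℕ → ℕ → ℕ)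
    (hτ : ∀ y k, k ≤ L y → τ (L y) k ≤ L y ∧ τ (L y) (τ (L y) k) = k ∧ τ (L y) k ≤ k + 1 ∧
      k ≤ τ (L y) k + 1 ∧ (J' k (L y) ↔ J (τ (L y) k) (L y))) :
    swK hL hα J' = swK hL hα J := by
  let f : Cyl L → Cyl L := fun p => ⟨(p.1.1, τ (L p.1.1) p.1.2), (hτ _ _ p.2).1⟩
  have hf : Function.Involutive f := fun p => Cyl.ext rfl (hτ _ _ p.2).2.1
  have hσ : FinProp (permOp (Cyl L) H hf.toPerm) := ⟨1, PropLE.permOp fun p =>
    (Cyl.edist_le_iff p (f p) 1).2 ⟨by simp [f], (hτ _ _ p.2).2.2.2.1, (hτ _ _ p.2).2.2.1⟩⟩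
  refine kap_conj (roeVal (Cyl L) H) roeVal_injective hσ.isMult hσ.isMult ?_ _ _ fun i k => ?_
  · rw [← map_mul, show hf.toPerm * hf.toPerm = 1 from Equiv.ext hf, map_one]
  · refine entry_ext fun p q => ?_
    rw [entry_mul_permOp, entry_permOp_mul, roeVal_apply, roeVal_apply, entry_swM, entry_swM]
    refine if_congr ⟨fun h => ⟨?_, h.2.1, (hτ _ _ p.2).2.2.2.2.1 h.2.2⟩,
      fun h => ⟨?_, h.2.1, (hτ _ _ p.2).2.2.2.2.2 h.2.2⟩⟩ rfl rfl
    · show τ (L p.1.1) p.1.2 = τ (L q.1.1) q.1.2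
      rw [h.1, h.2.1]
    · have h1 : τ (L p.1.1) p.1.2 = τ (L q.1.1) q.1.2 := h.1
      have h2 : L p.1.1 = L q.1.1 := h.2.1
      rw [← (hτ _ _ p.2).2.1, ← (hτ _ _ q.2).2.1, h1, h2]

theorem exists_swindle (hL : ∀ y y', edist y y' ≠ ⊤ → L y = L y') (hev : ∀ y, Even (L y))
    (hpos : ∀ y, 0 < L y) (α : M2 (roeAlg Y H)) (hα : unitMat α * unitMat α = unitMat α) :
    ∃ (a₀ a₁ : M2 (roeAlg (Cyl L) H)) (h₀ : unitMat a₀ * unitMat a₀ = unitMat a₀)
      (h₁ : unitMat a₁ * unitMat a₁ = unitMat a₁), kap a₀ h₀ = kap a₁ h₁ ∧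
      (∀ i k p q, entry (a₀ i k).1 p q =
        if p.1.2 = 0 ∧ q.1.2 = 0 then entry (α i k).1 p.1.1 q.1.1 else 0) ∧
      (∀ i k p q, entry (a₁ i k).1 p q =
        if p.1.2 = L p.1.1 ∧ q.1.2 = L q.1.1 then entry (α i k).1 p.1.1 q.1.1 else 0) := by
  have h1 := swK_conj hL hα (fun k _ => k % 2 = 1) (fun k l => k % 2 = 0 ∧ k < l)
    (fun l k => if k = l then k else if k % 2 = 0 then k + 1 else k - 1) fun y k hk => by
      obtain ⟨m, hm⟩ := hev y
      rw [hm] at hk ⊢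
      split_ifs <;> omega
  have h2 := swK_conj hL hα (fun k _ => k % 2 = 1) (fun k _ => k % 2 = 0 ∧ 0 < k)
    (fun _ k => if k = 0 then k else if k % 2 = 1 then k + 1 else k - 1) fun y k hk => by
      obtain ⟨m, hm⟩ := hev y
      rw [hm] at hk ⊢
      split_ifs <;> first | omega | contradiction
  have h3 := swK_add hL hα (fun k _ => k = 0) (fun k l => k % 2 = 0 ∧ 0 < k ∧ k < l)
    (fun k l => k % 2 = 0 ∧ k < l) (fun p => by omega) fun p => by
      have := hpos p.1.1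
      omega
  have h4 := swK_add hL hα (fun k l => k = l) (fun k l => k % 2 = 0 ∧ 0 < k ∧ k < l)
    (fun k _ => k % 2 = 0 ∧ 0 < k) (fun p => by omega) fun p => by
      have := hpos p.1.1
      have := p.2
      obtain ⟨m, hm⟩ := hev p.1.1
      omega
  have hz : ∀ i k y y', L y ≠ L y' → entry (α i k).1 y y' = 0 := fun i k y y' h => by
    obtain ⟨R, hR⟩ := (α i k).2.2
    refine hR y y' ?_
    rw [show edist y y' = ⊤ from by_contra fun h' => h (hL _ _ h')]
    exact ENNReal.natCast_lt_top R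
  refine ⟨swM L (fun k _ => k = 0) α, swM L (fun k l => k = l) α, swM_idem hL _ hα,
    swM_idem hL _ hα, add_right_cancel (h3.symm.trans (h1.trans (h2.symm.trans h4))),
    fun i k p q => ?_, fun i k p q => ?_⟩
  · rw [entry_swM]
    by_cases h : L p.1.1 = L q.1.1
    · exact if_congr ⟨fun h' => ⟨h'.2.2, h'.1 ▸ h'.2.2⟩,
        fun h' => ⟨h'.1.trans h'.2.symm, h, h'.1⟩⟩ rfl rfl
    · rw [hz i k _ _ h, ite_self, ite_self]
  · rw [entry_swM]
    by_cases h : L p.1.1 = L q.1.1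
    · exact if_congr ⟨fun h' => ⟨h'.2.2, h'.1.symm.trans (h'.2.2.trans h)⟩,
        fun h' => ⟨h'.1.trans (h.trans h'.2.symm), h, h'.1⟩⟩ rfl rfl
    · rw [hz i k _ _ h, ite_self, ite_self]

end Vale.Agent.P212
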