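import Vale.Agent.P212.Grp
import Vale.Agent.P212.Near
import Vale.Agent.P212.Swindle

/-! TASK Space: the base `Ysp = ⊔_n (ℤ/R_n)²`, the cylinder `Bsp` over it and the total space `Xsp`.
Plan. Degrees: a `StepY`-neighbour of `p` is determined by `(e, e') ∈ {-1,0,1}²`; a
`StepX`-neighbour `q` of `p` is determined by `q.b` (at most `27` choices) and `t` (a finite set,
`finite_small`), since `q.w = red n (dil _ t * p.w)` (`IsRed.eq_red`). Levels are finite by
`finite_isRed`. `dep` is `1`-Lipschitz in `k`.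
`iter_rel`: induction on `r`; if `S_r` is a finite set for `r` put `S_{r+1} = {dil e t * dil e' g |
e ≤ 2r+2, e' ≤ 1, t or t⁻¹ small, g ∈ S_r}`: for `Iter r p q`, `StepX q z`, `j = dep p - (r+1)` one
has `dep p - r = j + e'` and `min (dep q) (dep z) = j + e`; use `dil_dil`, `exists_small`. -/

noncomputable section

namespace Vale.Agent.P212

/-- The points of `⊔_n (ℤ/R_n)²`. -/
@[ext] structure Ysp : Type where
  n : ℕ
  x : ℕ
  y : ℕ
  hx : x < RR n
  hy : y < RR n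

/-- `a` and `b` are at cyclic distance at most `r` modulo `R`. -/
def Cyc (R r a b : ℕ) : Prop := ∃ e : ℤ, |e| ≤ r ∧ (R : ℤ) ∣ (a : ℤ) - b - e

theorem Cyc.refl (R r a : ℕ) : Cyc R r a a := ⟨0, by simp, by simp⟩

theorem Cyc.symm {R r a b : ℕ} (h : Cyc R r a b) : Cyc R r b a := by
  obtain ⟨e, he, hd⟩ := h
  refine ⟨-e, by rwa [abs_neg], ?_⟩
  have : (b : ℤ) - a - -e = -((a : ℤ) - b - e) := by ring
  rw [this]
  exact hd.neg_right

theorem Cyc.trans {R r r' a b c : ℕ} (h : Cyc R r a b) (h' : Cyc R r' b c) :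
    Cyc R (r + r') a c := by
  obtain ⟨e, he, hd⟩ := h
  obtain ⟨e', he', hd'⟩ := h'
  refine ⟨e + e', (abs_add_le _ _).trans (by push_cast; linarith), ?_⟩
  have : (a : ℤ) - c - (e + e') = ((a : ℤ) - b - e) + ((b : ℤ) - c - e') := by ring
  rw [this]
  exact hd.add hd'

/-- Adjacency in `Ysp`. -/
def StepY (p q : Ysp) : Prop := p.n = q.n ∧ Cyc (RR p.n) 1 p.x q.x ∧ Cyc (RR p.n) 1 p.y q.y

theorem StepY.refl (p : Ysp) : StepY p p := ⟨rfl, Cyc.refl _ _ _, Cyc.refl _ _ _⟩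

theorem StepY.symm (p q : Ysp) (h : StepY p q) : StepY q p :=
  ⟨h.1.symm, h.1 ▸ h.2.1.symm, h.1 ▸ h.2.2.symm⟩

/-- The path filtration of `Ysp`. -/
def nearY : NearSys Ysp := iterSys StepY StepY.refl StepY.symm

instance : PseudoEMetricSpace Ysp := nearY.toPseudo

theorem Ysp.edist_le_iff (p q : Ysp) (r : ℕ) : edist p q ≤ r ↔ Iter StepY r p q :=
  nearY.d_le_iff p q r

theorem Iter.n_eq {r : ℕ} {p q : Ysp} (h : Iter StepY r p q) : p.n = q.n := by
  induction h with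
  | zero x => rfl
  | succ _ h2 ih => exact ih.trans h2.1

theorem Ysp.n_eq_of_edist {p q : Ysp} (h : edist p q ≠ ⊤) : p.n = q.n := by
  obtain ⟨r, hr⟩ := (nearY.d_ne_top_iff p q).1 h
  exact Iter.n_eq hr

theorem SpaceAux.encard_cyc (R a : ℕ) : {b : ℕ | b < R ∧ Cyc R 1 a b}.encard ≤ 3 := by
  have hsub : {b : ℕ | b < R ∧ Cyc R 1 a b} ⊆
      (fun e : ℤ => (((a : ℤ) - e) % R).toNat) '' (Finset.Icc (-1 : ℤ) 1 : Finset ℤ) := by
    rintro b ⟨hb, e, he, hd⟩
    refine ⟨e, by simpa [abs_le] using he, ?_⟩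
    have h1 : ((a : ℤ) - e) % R = (b : ℤ) % R := by
      refine (Int.emod_emod_of_dvd _ dvd_rfl).symm.trans ?_
      rw [Int.emod_emod_of_dvd _ dvd_rfl, Int.emod_eq_emod_iff_emod_sub_eq_zero]
      refine Int.emod_eq_zero_of_dvd ?_
      rwa [sub_right_comm]
    have h2 : (b : ℤ) % R = b := Int.emod_eq_of_lt (Nat.cast_nonneg _) (by exact_mod_cast hb)
    simp only [h1, h2, Int.toNat_natCast]
  refine (Set.encard_le_encard hsub).trans ((Set.encard_image_le _ _).trans ?_)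
  rw [Set.encard_coe_eq_coe_finsetCard]
  simp

theorem SpaceAux.encard_stepY (p : Ysp) : {q | StepY p q}.encard ≤ (9 : ℕ) := by
  have h : {q | StepY p q}.encard ≤ ({b : ℕ | b < RR p.n ∧ Cyc (RR p.n) 1 p.x b} ×ˢ
      {b : ℕ | b < RR p.n ∧ Cyc (RR p.n) 1 p.y b}).encard := by
    refine Set.encard_le_encard_of_injOn (f := fun q : Ysp => (q.x, q.y)) ?_ ?_
    · intro q hq
      exact ⟨⟨hq.1 ▸ q.hx, hq.2.1⟩, ⟨hq.1 ▸ q.hy, hq.2.2⟩⟩
    · intro q hq q' hq' h
      exact Ysp.ext (hq.1.symm.trans hq'.1) (congrArg Prod.fst h) (congrArg Prod.snd h)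
  rw [Set.encard_prod] at h
  exact h.trans ((mul_le_mul' (SpaceAux.encard_cyc _ _) (SpaceAux.encard_cyc _ _)).trans
    (by norm_num))

instance : BddGeom Ysp := by
  exact nearY.bddGeom_of_edist (fun _ _ => rfl)
    (iterSys_bdd StepY StepY.refl StepY.symm 9 SpaceAux.encard_stepY)

theorem Ysp.finite_level (n : ℕ) : {p : Ysp | p.n = n}.Finite := by
  refine Set.Finite.of_injOn (f := fun p : Ysp => (p.x, p.y))
    (t := Set.Iio (RR n) ×ˢ Set.Iio (RR n)) ?_ ?_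
    ((Set.finite_Iio _).prod (Set.finite_Iio _))
  · rintro p rfl
    exact ⟨p.hx, p.hy⟩
  · intro p hp q hq h
    exact Ysp.ext (hp.trans hq.symm) (congrArg Prod.fst h) (congrArg Prod.snd h)

/-- The length of the cylinder. -/
def LY (p : Ysp) : ℕ := 10 * nu p.n

/-- The base space. -/
abbrev Bsp : Type := Cyl LY

/-- The dilation exponent at height `k`. -/
def dep (n k : ℕ) : ℕ := min (Nat.dist k (3 * nu n)) (Nat.dist k (7 * nu n))

theorem dep_le {n k : ℕ} (h : k ≤ 10 * nu n) : dep n k ≤ 3 * nu n := by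
  unfold dep Nat.dist
  omega

theorem dep_le_add {n k k' r : ℕ} (h : k ≤ k' + r) (h' : k' ≤ k + r) : dep n k ≤ dep n k' + r := by
  unfold dep Nat.dist
  omega

/-- The prescribed `x` (or `y`) coordinate over the base coordinate `b` at height `k`. -/
def cc (n k b : ℕ) : ℕ := if k ≤ 5 * nu n then 2 ^ dep n k * (b / 2 ^ dep n k) else 0

theorem cc_le (n k b : ℕ) : cc n k b ≤ b := by
  unfold cc
  split_ifs
  · exact Nat.mul_div_le _ _
  · exact Nat.zero_le _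

/-- The total space. -/
@[ext] structure Xsp : Type where
  b : Bsp
  w : G9
  isRed : IsRed b.1.1.n w
  inDil : InDil (dep b.1.1.n b.1.2) w
  hx : w.x = cc b.1.1.n b.1.2 b.1.1.x
  hy : w.y = cc b.1.1.n b.1.2 b.1.1.y

namespace Xsp

/-- The level. -/
abbrev n (p : Xsp) : ℕ := p.b.1.1.n

/-- The height. -/
abbrev k (p : Xsp) : ℕ := p.b.1.2

/-- The point of `Ysp` below `p`. -/
abbrev y (p : Xsp) : Ysp := p.b.1.1

/-- The dilation exponent. -/
abbrev i (p : Xsp) : ℕ := dep p.n p.k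

theorem k_le (p : Xsp) : p.k ≤ 10 * nu p.n := p.b.2

theorem i_le (p : Xsp) : p.i ≤ 3 * nu p.n := dep_le p.k_le

end Xsp

theorem SpaceAux.small_one : Small 5 1 := by
  refine ⟨?_, by simp, by simp, by simp, by simp, by simp⟩
  change ∀ a b, |(1 : Matrix (Fin 3) (Fin 3) ℤ) a b| ≤ 5
  decide

theorem SpaceAux.coord_inj : Function.Injective fun p : Xsp => (p.y, p.k, p.w) := by
  intro p q h
  simp only [Prod.mk.injEq] at h
  exact Xsp.ext (Cyl.ext h.1 h.2.1) h.2.2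

theorem SpaceAux.finite_steps : {t : G9 | Small 5 t ∨ Small 5 t⁻¹}.Finite :=
  (finite_small 5).union ((finite_small 5).preimage inv_injective.injOn)

theorem SpaceAux.i_le {p q : Xsp} {r : ℕ} (hn : p.n = q.n) (h : p.k ≤ q.k + r)
    (h' : q.k ≤ p.k + r) : p.i ≤ q.i + r := by
  change dep p.n p.k ≤ dep q.n q.k + r
  rw [hn]
  exact dep_le_add h h'

theorem SpaceAux.cc_zero {n b : ℕ} (hb : b < RR n) : cc n 0 b = 0 := by
  have h1 : dep n 0 = 3 * nu n := by unfold dep Nat.dist; omega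
  have h2 : b < 2 ^ (3 * nu n) :=
    hb.trans_le (by rw [RR_eq]; exact Nat.pow_le_pow_right two_pos (by omega))
  unfold cc
  rw [h1, Nat.div_eq_of_lt h2]
  simp

theorem SpaceAux.cc_top (n b : ℕ) : cc n (10 * nu n) b = 0 := by
  unfold cc
  rw [if_neg]
  unfold nu
  omega

/-- Adjacency in `Xsp`. -/
def StepX (p q : Xsp) : Prop :=
  StepY p.y q.y ∧ p.k ≤ q.k + 1 ∧ q.k ≤ p.k + 1 ∧
    ∃ t : G9, (Small 5 t ∨ Small 5 t⁻¹) ∧ q.w⁻¹ * (dil (min p.i q.i) t * p.w) ∈ Lam p.n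

theorem StepX.refl (p : Xsp) : StepX p p := by
  exact ⟨StepY.refl _, Nat.le_succ _, Nat.le_succ _, 1, Or.inl SpaceAux.small_one, by simp⟩

theorem StepX.symm (p q : Xsp) (h : StepX p q) : StepX q p := by
  obtain ⟨h1, h2, h3, t, ht, hl⟩ := h
  refine ⟨h1.symm, h3, h2, t⁻¹, by rw [inv_inv]; exact ht.symm, ?_⟩
  have hn : q.n = p.n := h1.1.symm
  rw [hn, min_comm]
  simpa [mul_assoc] using (Lam p.n).inv_mem hl

theorem Iter.lv_eq (r : ℕ) (p q : Xsp) (h : Iter StepX r p q) : p.n = q.n := by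
  induction h with
  | zero x => rfl
  | succ _ h2 ih => exact ih.trans h2.1.1

/-- The capped path filtration of `Xsp`. -/
def nearX : NearSys Xsp := (iterSys StepX StepX.refl StepX.symm).cap Xsp.n Iter.lv_eq

theorem nearX_zero (p q : Xsp) (h : nearX.rel 0 p q) : p = q := by
  rcases h with h | h
  · exact Iter.eq_of_zero h
  · exact absurd h.1 (Nat.not_lt_zero _)

instance Xsp.metricSpace : MetricSpace Xsp :=
  nearX.toMetric nearX_zero (NearSys.cap_fin _ _ _)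

theorem Xsp.edist_le_iff (p q : Xsp) (r : ℕ) :
    edist p q ≤ r ↔ Iter StepX r p q ∨ (p.n < r ∧ q.n < r) :=
  nearX.d_le_iff p q r

theorem Xsp.one_le_dist {p q : Xsp} (h : p ≠ q) : 1 ≤ dist p q :=
  nearX.toMetric_one_le nearX_zero (NearSys.cap_fin _ _ _) h

theorem Xsp.finite_level (n : ℕ) : {p : Xsp | p.n = n}.Finite := by
  refine Set.Finite.of_injOn (f := fun p : Xsp => (p.y, p.k, p.w))
    (t := {y : Ysp | y.n = n} ×ˢ Set.Iic (10 * nu n) ×ˢ {w | IsRed n w}) ?_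
    SpaceAux.coord_inj.injOn
    ((Ysp.finite_level n).prod ((Set.finite_Iic _).prod (finite_isRed n)))
  rintro p rfl
  exact ⟨rfl, p.k_le, p.isRed⟩

theorem SpaceAux.encard_stepX : ∃ M : ℕ, ∀ p : Xsp, {q | StepX p q}.encard ≤ M := by
  refine ⟨9 * (3 * (2 * SpaceAux.finite_steps.toFinset.card)), fun p => ?_⟩
  have h : {q | StepX p q}.encard ≤ ({y | StepY p.y y} ×ˢ
      ((Finset.Icc (p.k - 1) (p.k + 1) : Finset ℕ) : Set ℕ) ×ˢ
      ((fun x : ℕ × G9 => red p.n (dil (p.i - x.1) x.2 * p.w)) ''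
        (((Finset.range 2 : Finset ℕ) : Set ℕ) ×ˢ {t : G9 | Small 5 t ∨ Small 5 t⁻¹}))).encard := by
    refine Set.encard_le_encard_of_injOn (f := fun p : Xsp => (p.y, p.k, p.w)) ?_
      SpaceAux.coord_inj.injOn
    rintro q ⟨h1, h2, h3, t, ht, hl⟩
    have hn : p.n = q.n := h1.1
    have hi := SpaceAux.i_le hn h2 h3
    refine ⟨h1, by simp; omega, (p.i - min p.i q.i, t), ⟨by simp; omega, ht⟩, ?_⟩
    have : p.i - (p.i - min p.i q.i) = min p.i q.i := by omega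
    simp only [this]
    exact ((hn ▸ q.isRed : IsRed p.n q.w).eq_red hl).symm
  refine h.trans ?_
  rw [Set.encard_prod, Set.encard_prod, Nat.cast_mul, Nat.cast_mul, Nat.cast_mul]
  refine mul_le_mul' (SpaceAux.encard_stepY _) (mul_le_mul' ?_ ?_)
  · rw [Set.encard_coe_eq_coe_finsetCard, Nat.card_Icc]
    exact_mod_cast (by omega : p.k + 1 + 1 - (p.k - 1) ≤ 3)
  · refine (Set.encard_image_le _ _).trans ?_
    rw [Set.encard_prod, Set.encard_coe_eq_coe_finsetCard, Finset.card_range,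
      SpaceAux.finite_steps.encard_eq_coe_toFinset_card]

instance Xsp.bddGeom : BddGeom Xsp := by
  obtain ⟨M, hM⟩ := SpaceAux.encard_stepX
  exact nearX.bddGeom_of_edist (fun _ _ => rfl)
    ((iterSys_bdd StepX StepX.refl StepX.symm M hM).cap _ _ Xsp.finite_level)

theorem SpaceAux.iter_rel_set (r : ℕ) : ∃ S : Set G9, S.Finite ∧ ∀ p q : Xsp, Iter StepX r p q →
    p.k ≤ q.k + r ∧ q.k ≤ p.k + r ∧ Cyc (RR p.n) r p.y.x q.y.x ∧ Cyc (RR p.n) r p.y.y q.y.y ∧
      ∃ g ∈ S, q.w⁻¹ * (dil (p.i - r) g * p.w) ∈ Lam p.n := by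
  induction r with
  | zero =>
    refine ⟨{1}, Set.finite_singleton _, fun p q h => ?_⟩
    obtain rfl := h.eq_of_zero
    exact ⟨le_rfl, le_rfl, Cyc.refl _ _ _, Cyc.refl _ _ _, 1, rfl, by simp⟩
  | succ r ih =>
    obtain ⟨S, hS, h⟩ := ih
    refine ⟨(fun x : (ℕ × G9) × (ℕ × G9) => dil x.1.1 x.1.2 * dil x.2.1 x.2.2) ''
      ((Set.Iic (2 * r + 2) ×ˢ {t : G9 | Small 5 t ∨ Small 5 t⁻¹}) ×ˢ (Set.Iic 1 ×ˢ S)),
      ((((Set.finite_Iic _).prod SpaceAux.finite_steps).prod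
        ((Set.finite_Iic _).prod hS)).image _), fun p z hz => ?_⟩
    cases hz with
    | @succ _ _ q _ hpq hqz =>
      obtain ⟨h1, h2, h3, h4, g, hg, h5⟩ := h p q hpq
      obtain ⟨s1, s2, s3, t, ht, hl⟩ := hqz
      have hn : p.n = q.n := Iter.lv_eq _ _ _ hpq
      have hn' : q.n = z.n := s1.1
      have i1 := SpaceAux.i_le hn h1 h2
      have i2 := SpaceAux.i_le hn.symm h2 h1
      have i3 := SpaceAux.i_le hn' s2 s3
      refine ⟨by omega, by omega, h3.trans (hn ▸ s1.2.1), h4.trans (hn ▸ s1.2.2), _,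
        ⟨((min q.i z.i - (p.i - (r + 1)), t), (p.i - r - (p.i - (r + 1)), g)),
          ⟨⟨by simp; omega, ht⟩, ⟨by simp; omega, hg⟩⟩, rfl⟩, ?_⟩
      have e1 : p.i - (r + 1) + (min q.i z.i - (p.i - (r + 1))) = min q.i z.i := by omega
      have e2 : p.i - (r + 1) + (p.i - r - (p.i - (r + 1))) = p.i - r := by omega
      simp only [map_mul, dil_dil, e1, e2]
      rw [← hn] at hl
      simpa [mul_assoc] using (Lam p.n).mul_mem hl h5

theorem iter_rel (r : ℕ) : ∃ C : ℕ, ∀ p q : Xsp, Iter StepX r p q →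
    p.k ≤ q.k + r ∧ q.k ≤ p.k + r ∧ Cyc (RR p.n) r p.y.x q.y.x ∧ Cyc (RR p.n) r p.y.y q.y.y ∧
      ∃ g : G9, Small C g ∧ q.w⁻¹ * (dil (p.i - r) g * p.w) ∈ Lam p.n := by
  obtain ⟨S, hS, h⟩ := SpaceAux.iter_rel_set r
  obtain ⟨C, hC⟩ := exists_small hS
  refine ⟨C, fun p q hpq => ?_⟩
  obtain ⟨h1, h2, h3, h4, g, hg, h5⟩ := h p q hpq
  exact ⟨h1, h2, h3, h4, g, hC g hg, h5⟩

/-! ### the action of `G7` -/

/-- The action of `g ∈ G7` through `δ^i`. -/
def Xsp.act (g : G7) (p : Xsp) : Xsp where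
  b := p.b
  w := red p.n (dil p.i g.1 * p.w)
  isRed := isRed_red _ _
  inDil := (p.inDil.dil_mul g.1).red p.i_le
  hx := by
    refine red_x (Nat.cast_nonneg _) ?_ ?_
    · exact_mod_cast (cc_le _ _ _).trans_lt p.y.hx
    · simp [g.2.1, p.hx]
  hy := by
    refine red_y (Nat.cast_nonneg _) ?_ ?_
    · exact_mod_cast (cc_le _ _ _).trans_lt p.y.hy
    · simp [g.2.2, p.hy]

instance : MulAction G7 Xsp where
  smul := Xsp.act
  one_smul := by
    intro p
    refine Xsp.ext rfl ?_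
    change red p.n (dil p.i 1 * p.w) = p.w
    rw [map_one, one_mul, p.isRed.red_eq]
  mul_smul := by
    intro g h p
    refine Xsp.ext rfl ?_
    change red p.n (dil p.i (g.1 * h.1) * p.w) = red p.n (dil p.i g.1 * red p.n (dil p.i h.1 * p.w))
    rw [red_mul_red, map_mul, mul_assoc]

theorem Xsp.smul_b (g : G7) (p : Xsp) : (g • p).b = p.b := rfl

theorem Xsp.smul_w (g : G7) (p : Xsp) : (g • p).w = red p.n (dil p.i g.1 * p.w) := rfl

/-! ### the tips -/

/-- The tip at height `0`. -/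
def tip₀ (y : Ysp) : Xsp where
  b := ⟨(y, 0), Nat.zero_le _⟩
  w := 1
  isRed := isRed_one _
  inDil := ⟨fun _ => dvd_zero _, fun _ => dvd_zero _, dvd_zero _, dvd_zero _, dvd_zero _⟩
  hx := by
    change (0 : ℤ) = cc y.n 0 y.x
    rw [SpaceAux.cc_zero y.hx]; rfl
  hy := by
    change (0 : ℤ) = cc y.n 0 y.y
    rw [SpaceAux.cc_zero y.hy]; rfl

/-- The tip at height `L`. -/
def tip₁ (y : Ysp) : Xsp where
  b := ⟨(y, LY y), le_rfl⟩
  w := 1
  isRed := isRed_one _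
  inDil := ⟨fun _ => dvd_zero _, fun _ => dvd_zero _, dvd_zero _, dvd_zero _, dvd_zero _⟩
  hx := by
    change (0 : ℤ) = cc y.n (10 * nu y.n) y.x
    rw [SpaceAux.cc_top]; rfl
  hy := by
    change (0 : ℤ) = cc y.n (10 * nu y.n) y.y
    rw [SpaceAux.cc_top]; rfl

theorem tip₀_injective : Function.Injective tip₀ := fun _ _ h => congrArg Xsp.y h

theorem tip₁_injective : Function.Injective tip₁ := fun _ _ h => congrArg Xsp.y h

theorem eq_tip₀ (p : Xsp) (h : p.k = 0) : p = tip₀ p.y := by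
  refine Xsp.ext (Cyl.ext rfl h) (p.isRed.eq_one ?_)
  have h1 : p.i = 3 * nu p.n := by
    change dep p.n p.k = _
    rw [h]; unfold dep Nat.dist; omega
  exact h1 ▸ p.inDil

theorem eq_tip₁ (p : Xsp) (h : p.k = LY p.y) : p = tip₁ p.y := by
  refine Xsp.ext (Cyl.ext rfl h) (p.isRed.eq_one ?_)
  have h1 : p.i = 3 * nu p.n := by
    change dep p.n p.k = _
    have h' : p.k = 10 * nu p.n := h
    rw [h']; unfold dep Nat.dist; omega
  exact h1 ▸ p.inDil

theorem edist_tip₀ (R : ℕ) (y y' : Ysp) (h : edist y y' ≤ R) : edist (tip₀ y) (tip₀ y') ≤ R := by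
  refine (Xsp.edist_le_iff _ _ _).2 (Or.inl (Iter.map tip₀ (fun a b hab => ?_)
    ((Ysp.edist_le_iff _ _ _).1 h)))
  exact ⟨hab, Nat.zero_le _, Nat.zero_le _, 1, Or.inl SpaceAux.small_one, by simp [tip₀]⟩

theorem edist_tip₁ (R : ℕ) (y y' : Ysp) (h : edist y y' ≤ R) : edist (tip₁ y) (tip₁ y') ≤ R := by
  refine (Xsp.edist_le_iff _ _ _).2 (Or.inl (Iter.map tip₁ (fun a b hab => ?_)
    ((Ysp.edist_le_iff _ _ _).1 h)))
  have hL : LY a = LY b := by unfold LY; rw [hab.1]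
  exact ⟨hab, hL.le.trans (Nat.le_succ _), hL.ge.trans (Nat.le_succ _), 1,
    Or.inl SpaceAux.small_one, by simp [tip₁]⟩

end Vale.Agent.P212
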