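import Vale.Agent.P212.Space
import Vale.Agent.P212.Phi

/-! TASK SpaceFib: `Xsp → Bsp` is a coarse fibration with `G7`-orbits as fibres.
Plan. `disp`: for `g ∈ gens`, `StepX p (g • p)` (`small_of_mem_gens`, `red_rel`); conclude by
`Subgroup.closure_induction` with `closure_gens` (the bound is uniform in `p`, so inverses are
fine). `rel`: on paths use `iter_rel` and `descent` (with `j = i - r`) and the finite set
`{g : G7 | Small (C*C+C) g}`; for the finitely many pairs of level `< r` use transitivity on fibres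
(`descent` with `j = 0`, `g₀ = q.w * p.w⁻¹`, `exists_small` for a singleton).
`cc_step`: `cc n k b` is divisible by `2^(dep n k)`. If `k, k' ≤ 5ν`: when `R ∣ 2^(min)` take
`p = 0` or `1` (parity); otherwise `2^min ∣ R`, `b' = b - e + R m`, and
`D = cc' - cc - R m` is divisible by `2^min` with `|D| ≤ 2^i + 2^i' + 1 ≤ 4 · 2^min`; `p = D / 2^min`
works (if `i' = i + 1` then `2^(i+1) ∣ R`, both being powers of two, so the last divisibility is
automatic). At `k = 5ν`, `dep = 2ν`, `2^dep = R` and `cc = 0`, so the case `5ν ≤ k, k'` has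
`cc = cc' = 0` and `p = 0`.
`lift_step`: put `w' = red n (dil (min) κ * p.w)` with `κ = (1, u, ψ, a, a', t)`, `a, a'` from
`cc_step`; if `i' ≤ i` take `u = ψ = 0, t = 0`; if `i' = i + 1` choose `u, ψ ∈ {0,1}³`,
`t ∈ [0, 4)` to make the product lie in `InDil (i+1)`. Use `InDil.red`, `red_x`, `red_y`.
`lift`: `Cyl.edist_le_iff`; first follow a path in `Ysp` at fixed height, then change the height;
`R = 2r`. -/

noncomputable section

namespace Vale.Agent.P212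

theorem cc_zero_sf {n k b : ℕ} (hb : b < RR n) (h : 5 * nu n ≤ k ∨ 2 * nu n ≤ dep n k) :
    cc n k b = 0 := by
  unfold cc
  split_ifs with hk
  · have h2 : 2 * nu n ≤ dep n k := by
      rcases h with h | h
      · unfold dep Nat.dist
        omega
      · exact h
    have h3 : b < 2 ^ dep n k := by
      rw [RR_eq] at hb
      exact hb.trans_le (Nat.pow_le_pow_right (by norm_num) h2)
    rw [Nat.div_eq_of_lt h3, mul_zero]
  · rfl

theorem cc_step {n k k' b b' : ℕ} (hb : b < RR n) (hb' : b' < RR n) (hk : k ≤ k' + 1)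
    (hk' : k' ≤ k + 1) (hc : Cyc (RR n) 1 b b') : ∃ p : ℤ, |p| ≤ 5 ∧
      (RR n : ℤ) ∣ 2 ^ min (dep n k) (dep n k') * p + cc n k b - cc n k' b' ∧
      (2 ^ dep n k' : ℤ) ∣ 2 ^ min (dep n k) (dep n k') * p + cc n k b := by
  by_cases hA : (5 * nu n ≤ k ∧ 5 * nu n ≤ k') ∨ 2 * nu n ≤ min (dep n k) (dep n k')
  · rw [cc_zero_sf hb (by omega), cc_zero_sf hb' (by omega)]
    exact ⟨0, by simp, by simp, by simp⟩
  have d1 := dep_le_add (n := n) hk hk'
  have d2 := dep_le_add (n := n) hk' hk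
  have e1 : cc n k b = 2 ^ dep n k * (b / 2 ^ dep n k) := by
    unfold cc
    rw [if_pos (by omega)]
  have e2 : cc n k' b' = 2 ^ dep n k' * (b' / 2 ^ dep n k') := by
    unfold cc
    rw [if_pos (by omega)]
  generalize cc n k b = c at *
  generalize cc n k' b' = c' at *
  generalize dep n k = i at *
  generalize dep n k' = i' at *
  obtain ⟨e, he, t, ht⟩ := hc
  have bd : ∀ {c b i m : ℕ}, c = 2 ^ i * (b / 2 ^ i) → i ≤ m + 1 →
      (c : ℤ) ≤ b ∧ (b : ℤ) < c + 2 * 2 ^ m := by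
    intro c b i m h1 h2
    have h3 := Nat.div_add_mod b (2 ^ i)
    have h4 : b % 2 ^ i < 2 ^ i := Nat.mod_lt _ (by positivity)
    have h5 : 2 ^ i ≤ 2 * 2 ^ m := by
      rw [← pow_succ']
      exact Nat.pow_le_pow_right (by norm_num) h2
    constructor
    · exact_mod_cast (by omega : c ≤ b)
    · exact_mod_cast (by omega : b < c + 2 * 2 ^ m)
  obtain ⟨b1, b2⟩ := bd (m := min i i') e1 (by omega)
  obtain ⟨b3, b4⟩ := bd (m := min i i') e2 (by omega)
  have hR : ∀ j, j ≤ 2 * nu n → (2 ^ j : ℤ) ∣ RR n := by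
    intro j hj
    rw [RR_eq]
    push_cast
    exact pow_dvd_pow _ hj
  have hcd : ∀ {c b i j : ℕ}, c = 2 ^ i * (b / 2 ^ i) → j ≤ i → (2 ^ j : ℤ) ∣ c := by
    intro c b i j h1 h2
    rw [h1]
    push_cast
    exact (pow_dvd_pow _ h2).mul_right _
  obtain ⟨p, hp⟩ : (2 ^ min i i' : ℤ) ∣ c' - c + RR n * t :=
    dvd_add (dvd_sub (hcd e2 (min_le_right _ _)) (hcd e1 (min_le_left _ _)))
      ((hR _ (by omega)).mul_right _)
  have hpos : (0 : ℤ) < 2 ^ min i i' := by positivity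
  obtain ⟨he1, he2⟩ := abs_le.1 he
  push_cast at he1 he2
  refine ⟨p, ?_, ⟨t, by linarith⟩, ?_⟩
  · rw [abs_le]
    constructor <;> nlinarith
  · have : 2 ^ min i i' * p + (c : ℤ) = c' + RR n * t := by linarith
    rw [this]
    exact dvd_add (hcd e2 le_rfl) ((hR _ (by omega)).mul_right _)

theorem lift_step (p : Xsp) (b : Bsp) (h : StepY p.y b.1.1) (hk : p.k ≤ b.1.2 + 1)
    (hk' : b.1.2 ≤ p.k + 1) : ∃ q : Xsp, q.b = b ∧ StepX p q := by
  obtain ⟨⟨⟨n', x', y', hx', hy'⟩, k'⟩, hb⟩ := b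
  obtain ⟨hn, hcx, hcy⟩ := h
  change p.n = n' at hn
  subst hn
  change p.k ≤ k' + 1 at hk
  change k' ≤ p.k + 1 at hk'
  obtain ⟨a, ha, ha1, ha2⟩ := cc_step p.y.hx hx' hk hk' hcx
  obtain ⟨a', ha', ha1', ha2'⟩ := cc_step p.y.hy hy' hk hk' hcy
  have d2 := dep_le_add (n := p.n) hk' hk
  set m := min (dep p.n p.k) (dep p.n k') with hm
  obtain ⟨w, hw⟩ := inDil_iff.1 (p.inDil.mono (min_le_left _ _ : m ≤ _))
  have hγ : w.γ = 1 := by
    have := p.isRed.γ
    rw [← hw] at this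
    exact this
  let ψ : Fin 3 → ℤ := fun l => w.φ l % 2
  let κ : G9 := ⟨1, fun l => w.v l % 2, ψ, a, a', (-(w.s + ψ ⬝ᵥ w.v + a' * w.x)) % 4⟩
  have hm1 : dep p.n k' ≤ m + 1 := by omega
  have two : ∀ z : ℤ, (2 ^ dep p.n k' : ℤ) ∣ 2 ^ m * (z % 2 + z) := by
    intro z
    refine (pow_dvd_pow _ hm1).trans ?_
    rw [pow_succ]
    exact mul_dvd_mul_left _ (by omega)
  have ex : (dil m κ * p.w).x = 2 ^ m * a + cc p.n p.k p.y.x := by
    rw [G9.mul_x, dil_x, p.hx]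
  have ey : (dil m κ * p.w).y = 2 ^ m * a' + cc p.n p.k p.y.y := by
    rw [G9.mul_y, dil_y, p.hy]
  have hd : InDil (dep p.n k') (dil m κ * p.w) := by
    refine ⟨fun l => ?_, fun l => ?_, ex ▸ ha2, ey ▸ ha2', ?_⟩
    · rw [← hw, ← map_mul]
      simpa [κ, mul_add] using two (w.v l)
    · rw [← hw, ← map_mul]
      simpa [κ, ψ, hγ, mul_add] using two (w.φ l)
    · rw [← hw, ← map_mul, dil_s]
      refine (pow_dvd_pow _ hm1).trans ?_
      rw [pow_succ]
      refine mul_dvd_mul_left _ ?_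
      change (4 : ℤ) ∣ (-(w.s + ψ ⬝ᵥ w.v + a' * w.x)) % 4 + w.s + ψ ⬝ᵥ w.v + a' * w.x
      generalize ψ ⬝ᵥ w.v = A
      generalize a' * w.x = B
      omega
  have hs : Small 5 κ := by
    refine ⟨fun i j => ?_, fun l => ?_, fun l => ?_, ha, ha', ?_⟩
    · change |(1 : Matrix (Fin 3) (Fin 3) ℤ) i j| ≤ _
      rw [Matrix.one_apply]
      split_ifs <;> simp
    · change |w.v l % 2| ≤ 5
      rw [abs_le]
      omega
    · change |w.φ l % 2| ≤ 5
      rw [abs_le]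
      omega
    · change |(-(w.s + ψ ⬝ᵥ w.v + a' * w.x)) % 4| ≤ 5
      rw [abs_le]
      omega
  refine ⟨⟨⟨(⟨p.n, x', y', hx', hy'⟩, k'), hb⟩, red p.n (dil m κ * p.w), isRed_red _ _,
    hd.red (dep_le hb), ?_, ?_⟩, rfl, ⟨rfl, hcx, hcy⟩, hk, hk', κ, Or.inl hs, red_rel _ _⟩
  · refine red_x (by positivity) ?_ (ex ▸ ha1)
    exact_mod_cast (cc_le _ _ _).trans_lt hx'
  · refine red_y (by positivity) ?_ (ey ▸ ha1')
    exact_mod_cast (cc_le _ _ _).trans_lt hy'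

theorem desc_sf {x x' : Xsp} (hb : x.b = x'.b) {j C : ℕ} {g₀ : G9} (hj : j ≤ x.i) (hs : Small C g₀)
    (h : x'.w⁻¹ * (dil j g₀ * x.w) ∈ Lam x.n) :
    ∃ g : G7, Small (C * C + C) g.1 ∧ x' = g • x := by
  have hi := x.i_le
  obtain ⟨b, w, r1, d1, x1, y1⟩ := x
  obtain ⟨b', w', r2, d2, x2, y2⟩ := x'
  change b = b' at hb
  subst hb
  obtain ⟨g, hg, hsm, hl⟩ := descent hi hj r1 r2 d1 d2 (x1.trans x2.symm) (y1.trans y2.symm) hs h
  exact ⟨⟨g, hg⟩, hsm, Xsp.ext rfl (r2.eq_red hl)⟩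

theorem trans_sf {x x' : Xsp} (hb : x.b = x'.b) : ∃ g : G7, x' = g • x := by
  obtain ⟨C, hC⟩ := exists_small (Set.finite_singleton (x'.w * x.w⁻¹))
  obtain ⟨g, -, hg⟩ := desc_sf hb (Nat.zero_le _) (hC _ rfl) (by simp [dil_zero])
  exact ⟨g, hg⟩

theorem liftY_sf {r : ℕ} {y y' : Ysp} (h : Iter StepY r y y') (x : Xsp) (hx : x.y = y) :
    ∃ x' : Xsp, x'.y = y' ∧ x'.k = x.k ∧ Iter StepX r x x' := by
  induction h with
  | zero => exact ⟨x, hx, rfl, Iter.zero _⟩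
  | @succ r y y₁ z _ hs ih =>
    obtain ⟨x₁, h1, h2, h3⟩ := ih hx
    subst h1
    have hz : x₁.k ≤ LY z := by
      have := x₁.k_le
      have e : x₁.n = z.n := hs.1
      rw [e] at this
      exact this
    obtain ⟨q, hq, hst⟩ := lift_step x₁ ⟨(z, x₁.k), hz⟩ hs (Nat.le_succ _) (Nat.le_succ _)
    exact ⟨q, congrArg (fun b : Bsp => b.1.1) hq, (congrArg (fun b : Bsp => b.1.2) hq).trans h2,
      h3.succ hst⟩

theorem liftK_sf (x : Xsp) (r : ℕ) : ∀ b : Bsp, x.y = b.1.1 → x.k ≤ b.1.2 + r → b.1.2 ≤ x.k + r →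
    ∃ x' : Xsp, x'.b = b ∧ Iter StepX r x x' := by
  induction r with
  | zero => exact fun b h1 h2 h3 => ⟨x, Cyl.ext h1 (le_antisymm h2 h3), Iter.zero _⟩
  | succ r ih =>
    intro b h1 h2 h3
    have hb : b.1.2 ≤ LY b.1.1 := b.2
    have hx : x.k ≤ LY b.1.1 := h1 ▸ x.b.2
    obtain ⟨k₁, a1, a2, a3, a4, a5⟩ : ∃ k₁, k₁ ≤ LY b.1.1 ∧ x.k ≤ k₁ + r ∧ k₁ ≤ x.k + r ∧
        k₁ ≤ b.1.2 + 1 ∧ b.1.2 ≤ k₁ + 1 := by
      rcases lt_trichotomy x.k b.1.2 with h | h | h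
      · exact ⟨b.1.2 - 1, by omega⟩
      · exact ⟨b.1.2, by omega⟩
      · exact ⟨b.1.2 + 1, by omega⟩
    obtain ⟨x₁, e1, e2⟩ := ih ⟨(b.1.1, k₁), a1⟩ h1 a2 a3
    have ey : x₁.y = b.1.1 := by rw [Xsp.y, e1]
    have ek : x₁.k = k₁ := congrArg (fun b : Bsp => b.1.2) e1
    obtain ⟨q, hq, hst⟩ := lift_step x₁ b (ey ▸ StepY.refl _) (by omega) (by omega)
    exact ⟨q, hq, e2.succ hst⟩

theorem isFib_Xsp : IsFib G7 Xsp.b := by
  classical
  refine ⟨fun _ _ => rfl, fun g => ?_, fun r => ?_, fun r => ⟨r + r, fun x b hb => ?_⟩⟩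
  · have hg : g ∈ Subgroup.closure gens := closure_gens ▸ Subgroup.mem_top g
    induction hg using Subgroup.closure_induction with
    | mem g hg =>
      refine ⟨1, fun p => (Xsp.edist_le_iff _ _ 1).2 (Or.inl (Iter.single ?_))⟩
      refine ⟨StepY.refl _, Nat.le_succ _, Nat.le_succ _, g.1,
        Or.inl ((small_of_mem_gens hg).mono (by norm_num)), ?_⟩
      have e : min p.i (g • p).i = p.i := min_self _
      rw [e, Xsp.smul_w]
      exact red_rel _ _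
    | one => exact ⟨0, fun p => by simp⟩
    | mul g h _ _ ihg ihh =>
      obtain ⟨R, hR⟩ := ihg
      obtain ⟨R', hR'⟩ := ihh
      refine ⟨R' + R, fun p => ?_⟩
      rw [mul_smul, Nat.cast_add]
      exact (edist_triangle _ (h • p) _).trans (add_le_add (hR' _) (hR _))
    | inv g _ ih =>
      obtain ⟨R, hR⟩ := ih
      refine ⟨R, fun p => ?_⟩
      have := hR (g⁻¹ • p)
      rwa [smul_inv_smul, edist_comm] at this
  · obtain ⟨C, hC⟩ := iter_rel r
    have f1 : {g : G7 | Small (C * C + C) g.1}.Finite :=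
      (finite_small _).preimage Subtype.val_injective.injOn
    have f2 : {p : Xsp | p.n < r}.Finite := by
      refine ((Set.finite_lt_nat r).biUnion fun n _ => Xsp.finite_level n).subset fun p hp => ?_
      exact Set.mem_biUnion hp rfl
    have ch : ∀ z : Xsp × Xsp, ∃ g : G7, z.1.b = z.2.b → z.2 = g • z.1 := by
      intro z
      by_cases hz : z.1.b = z.2.b
      · obtain ⟨g, hg⟩ := trans_sf hz
        exact ⟨g, fun _ => hg⟩
      · exact ⟨1, fun h => absurd h hz⟩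
    choose G hG using ch
    refine ⟨(f1.union ((f2.prod f2).image G)).toFinset, fun x x' hb hd => ?_⟩
    rcases (Xsp.edist_le_iff _ _ _).1 hd with h | h
    · obtain ⟨-, -, -, -, g₀, hs, hl⟩ := hC x x' h
      obtain ⟨g, h1, h2⟩ := desc_sf hb (Nat.sub_le _ _) hs hl
      exact ⟨g, (Set.Finite.mem_toFinset _).2 (Or.inl h1), h2⟩
    · exact ⟨G (x, x'), (Set.Finite.mem_toFinset _).2 (Or.inr ⟨(x, x'), h, rfl⟩), hG (x, x') hb⟩
  · obtain ⟨h1, h2, h3⟩ := (Cyl.edist_le_iff _ _ _).1 hb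
    obtain ⟨x₁, e1, e2, e3⟩ := liftY_sf ((Ysp.edist_le_iff _ _ _).1 h1) x rfl
    obtain ⟨x₂, e4, e5⟩ := liftK_sf x₁ r b e1 (e2 ▸ h2) (e2 ▸ h3)
    exact ⟨x₂, e4, (Xsp.edist_le_iff _ _ _).2
      (Or.inl ((iterSys StepX StepX.refl StepX.symm).trans e3 e5))⟩

end Vale.Agent.P212
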