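import Vale.Agent.P212.Defs3

/-! TASK WellDef: the maximal index respects the relations of coarse `K`-homology.
Plan. `maxIndex_eq` is `map_kap`. Put `j = roeVal X H`, `S = ampl X s`.
* If `star s * s = 1`, `θ a = S * a * star S` is a nonunital algebra homomorphism of
`B(ℓ²(X,H))`. For a unitary `u` intertwining `x, z`: `coverProj z.π = θ (coverProj x.π)`
(entries, `entry_coverProj`), `θ (a * ampl x.γ) = θ a * ampl z.γ` and the same for `F`, so
`index0_map` and `kap_conj` apply.
* Sum: `z.π f = s₁ x.π f s₁* + s₂ y.π f s₂*`, the same for `γ`, `F`, and `s₁* s₂ = 0`. Use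
`θ (a, b) = S₁ a S₁* + S₂ b S₂*` on the product algebra, `index0_map`, `index0_fst/snd`, then
`kap_add` with `χ = S₁ S₁*` and `kap_conj` twice (idempotency of `unitMat` of the conjugated
matrices: `unitMat_idem`, `idem_of_unitMat`).
* Homotopy: `K0.of_path` for `s ↦ (indexPlus ⟨π, γ, F s, _⟩).map (toMax _)`; continuity from
`continuous_index0`, `continuous_ampl`, `propLE_index0`, `norm_toMax_inr_le`.
* Inclusion: `sqrtCoord r' x` pulls back to `sqrtCoord r x`, so `coverProj` and `indexOp` agree. -/

noncomputable section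

namespace Vale.Agent.P212

section Alg

variable {B : Type} [Ring B]

theorem wd_idem {e D D' A : B} (he : e * e = e) (hD : D * e = e * D) (hD' : D' * e = e * D')
    (h : D' * D = 1) (hA : (e + A) * (e + A) = e + A) :
    (e + D * A * D') * (e + D * A * D') = e + D * A * D' := by
  have h1 : e * A + A * e + A * A = A := by
    rw [add_mul, mul_add, mul_add, he, add_assoc, add_right_inj] at hA
    rw [add_assoc]
    exact hA
  have h2 : D * A * D' * (D * A * D') = D * (A * A) * D' := by
    calc D * A * D' * (D * A * D') = D * A * (D' * D) * A * D' := by noncomm_ring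
      _ = _ := by rw [h]; noncomm_ring
  have h3 : e * (D * A * D') = D * (e * A) * D' := by
    calc e * (D * A * D') = e * D * A * D' := by noncomm_ring
      _ = _ := by rw [← hD]; noncomm_ring
  have h4 : D * A * D' * e = D * (A * e) * D' := by
    calc D * A * D' * e = D * A * (D' * e) := by noncomm_ring
      _ = _ := by rw [hD']; noncomm_ring
  rw [add_mul, mul_add, mul_add, he, h2, h3, h4, add_assoc, add_right_inj]
  calc D * (e * A) * D' + (D * (A * e) * D' + D * (A * A) * D')
      = D * (e * A + A * e + A * A) * D' := by noncomm_ring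
    _ = _ := by rw [h1]

theorem wd_diag_comm (s : B) :
    Matrix.diagonal (fun _ => s) * e10 B = e10 B * Matrix.diagonal (fun _ => s) := by
  ext i k
  rw [Matrix.diagonal_mul, Matrix.mul_diagonal]
  fin_cases i <;> fin_cases k <;> simp [e10, mat2]

theorem wd_idem_mat {s s' : B} (h : s' * s = 1) {A A' : M2 B} (hA' : ∀ i k, A' i k = s * A i k * s')
    (hA : (e10 B + A) * (e10 B + A) = e10 B + A) :
    (e10 B + A') * (e10 B + A') = e10 B + A' := by
  have e : A' = Matrix.diagonal (fun _ => s) * A * Matrix.diagonal (fun _ => s') := by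
    ext i k
    rw [Matrix.mul_diagonal, Matrix.diagonal_mul, hA']
  rw [e]
  refine wd_idem (idem10 B).idem (wd_diag_comm s) (wd_diag_comm s') ?_ hA
  rw [Matrix.diagonal_mul_diagonal]
  simp only [h]
  exact Matrix.diagonal_one

variable [Algebra ℂ B]

/-- `(a, b) ↦ s a s' + t b t'` -/
def wdHom {s s' t t' : B} (hs : s' * s = 1) (ht : t' * t = 1) (hst : s' * t = 0)
    (hts : t' * s = 0) : (B × B) →ₙₐ[ℂ] B where
  toFun a := s * a.1 * s' + t * a.2 * t'
  map_smul' c a := by simp
  map_zero' := by simp
  map_add' a b := by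
    simp only [Prod.fst_add, Prod.snd_add]
    noncomm_ring
  map_mul' a b := by
    simp only [Prod.fst_mul, Prod.snd_mul]
    calc s * (a.1 * b.1) * s' + t * (a.2 * b.2) * t'
        = s * a.1 * (s' * s) * b.1 * s' + s * a.1 * (s' * t) * b.2 * t' +
          t * a.2 * (t' * s) * b.1 * s' + t * a.2 * (t' * t) * b.2 * t' := by
          rw [hs, ht, hst, hts]; noncomm_ring
      _ = _ := by noncomm_ring

/-- `a ↦ s a s'` -/
def wdConj {s s' : B} (hs : s' * s = 1) : B →ₙₐ[ℂ] B where
  toFun a := s * a * s'
  map_smul' c a := by simp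
  map_zero' := by simp
  map_add' a b := by noncomm_ring
  map_mul' a b := by
    calc s * (a * b) * s' = s * a * (s' * s) * b * s' := by rw [hs]; noncomm_ring
      _ = _ := by noncomm_ring

theorem wd_index0_conj {s s' P G F G' F' : B} (hs : s' * s = 1) (hG : s' * G' = G * s')
    (hF : s' * F' = F * s') (i k : Fin 2) :
    index0 (s * P * s') G' F' i k = s * index0 P G F i k * s' := by
  have h := index0_map (wdConj hs) (P := P) (G := G) (F := F) (G' := G') (F' := F')
    (fun a => by
      show s * (a * G) * s' = s * a * s' * G'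
      rw [mul_assoc (s * a), hG]; noncomm_ring)
    (fun a => by
      show s * (a * F) * s' = s * a * s' * F'
      rw [mul_assoc (s * a), hF]; noncomm_ring)
  exact (congrFun (congrFun h i) k).symm

theorem wd_index0_sum {s s' t t' P G F Q H K G' F' : B} (hs : s' * s = 1) (ht : t' * t = 1)
    (hst : s' * t = 0) (hts : t' * s = 0) (hG : s' * G' = G * s') (hF : s' * F' = F * s')
    (hH : t' * G' = H * t') (hK : t' * F' = K * t') (i k : Fin 2) :
    index0 (s * P * s' + t * Q * t') G' F' i k =
      s * index0 P G F i k * s' + t * index0 Q H K i k * t' := by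
  have h := index0_map (wdHom hs ht hst hts) (P := (P, Q)) (G := (G, H)) (F := (F, K))
    (G' := G') (F' := F')
    (fun a => by
      show s * (a.1 * G) * s' + t * (a.2 * H) * t' = (s * a.1 * s' + t * a.2 * t') * G'
      rw [add_mul, mul_assoc (s * a.1), mul_assoc (t * a.2), hG, hH]; noncomm_ring)
    (fun a => by
      show s * (a.1 * F) * s' + t * (a.2 * K) * t' = (s * a.1 * s' + t * a.2 * t') * F'
      rw [add_mul, mul_assoc (s * a.1), mul_assoc (t * a.2), hF, hK]; noncomm_ring)
  have h2 := congrFun (congrFun h i) k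
  have h3 := index0_fst (P, Q) (G, H) (F, K) i k
  have h4 := index0_snd (P, Q) (G, H) (F, K) i k
  simp only at h3 h4
  rw [← h3, ← h4]
  exact h2.symm

end Alg

theorem wd_kap_congr {A : Type} [NonUnitalRing A] [Module ℂ A] [IsAlg A] {a b : M2 A}
    (h : a = b) (ha : unitMat a * unitMat a = unitMat a) (hb : unitMat b * unitMat b = unitMat b) :
    kap a ha = kap b hb := by
  subst h
  rfl

theorem wd_maxClass {A : Type} [Ring A] [StarRing A] [Algebra ℂ A] [RepBdd A] (e : M2 A)
    (h : IsIdem e) : maxClass e h = K0.map (toMax A) (K0.diff ⟨2, e, h⟩ (idem10 A)) := by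
  rw [maxClass, K0.diff_eq, K0.diff_eq, map_sub, K0.map_of, K0.map_of]
  congr 2
  simp only [Idem.map, idem10, Idem.mk.injEq, heq_eq_eq, true_and]
  exact (e10_map _).symm

theorem wd_continuous {C D : Type} [SeminormedAddCommGroup C] [SeminormedAddCommGroup D]
    {f : ℝ → C} {g : ℝ → D} (K : ℝ) (hg : Continuous g)
    (h : ∀ s t, ‖f s - f t‖ ≤ K * ‖g s - g t‖) : Continuous f := by
  rw [continuous_iff_continuousAt]
  intro t
  rw [ContinuousAt, tendsto_iff_norm_sub_tendsto_zero]
  refine squeeze_zero (fun _ => norm_nonneg _) (fun s => h s t) ?_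
  have h1 : Continuous fun s => K * ‖g s - g t‖ := by fun_prop
  simpa using h1.tendsto t

variable {X H : Type} [PseudoEMetricSpace X] [BddGeom X] [NormedAddCommGroup H]
  [InnerProductSpace ℂ H] [CompleteSpace H] {r : ℕ}

theorem maxIndex_eq (z : Cycle0 (Rips X r) H) : maxIndex ⟨r, z⟩ =
    K0.map (toMax (RoePlus X H)) (kap (indexRoe z) (indexRoe_idem z)) := by
  have h := wd_maxClass (indexPlus z) (indexPlus_idem z)
  refine h.trans ?_
  rfl

omit [PseudoEMetricSpace X] [BddGeom X] in
theorem wd_ampl_mul (S T : Op H H) : ampl X S * ampl X T = ampl X (S * T) :=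
  (map_mul (amplHom X H) S T).symm

omit [PseudoEMetricSpace X] [BddGeom X] in
theorem wd_ampl_one : ampl X (1 : Op H H) = 1 := map_one (amplHom X H)

omit [PseudoEMetricSpace X] [BddGeom X] in
theorem wd_ampl_zero : ampl X (0 : Op H H) = 0 := map_zero (amplHom X H)

theorem wd_isMult (s : Op H H) : IsMult (roeVal X H) (ampl X s) :=
  FinProp.isMult ⟨0, PropLE.ampl s 0⟩

/-- Conjugation of a matrix over `ℂ[X]`. -/
def wdMat (s s' : Op H H) (a : M2 (roeAlg X H)) : M2 (roeAlg X H) := fun i k =>
  ⟨ampl X s * (a i k).1 * ampl X s',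
    IsRoe.mul_right (IsRoe.mul_left ⟨0, PropLE.ampl s 0⟩ (a i k).2) ⟨0, PropLE.ampl s' 0⟩⟩

theorem wdMat_idem {s s' : Op H H} (h : s' * s = 1) {a : M2 (roeAlg X H)}
    (ha : unitMat a * unitMat a = unitMat a) :
    unitMat (wdMat s s' a) * unitMat (wdMat s s' a) = unitMat (wdMat s s' a) :=
  unitMat_idem (roeVal X H) roeVal_injective _
    (wd_idem_mat (s := ampl X s) (s' := ampl X s') (by rw [wd_ampl_mul, h, wd_ampl_one])
      (fun _ _ => rfl) (idem_of_unitMat (roeVal X H) a ha))

theorem kap_wdMat {s s' : Op H H} (h : s' * s = 1) {a : M2 (roeAlg X H)}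
    (ha : unitMat a * unitMat a = unitMat a) : kap (wdMat s s' a) (wdMat_idem h ha) = kap a ha :=
  kap_conj (roeVal X H) roeVal_injective (wd_isMult s) (wd_isMult s')
    (by rw [wd_ampl_mul, h, wd_ampl_one]) ha _ (fun _ _ => rfl)

theorem maxIndex_unitary {x z : Cycle0 (Rips X r) H} (h : Cycle0.Unitary x z) :
    maxIndex ⟨r, x⟩ = maxIndex ⟨r, z⟩ := by
  obtain ⟨u, h1, h2, h3⟩ := h
  have key : ∀ a b : Op H H, b * u = u * a → star u * b = a * star u := by
    intro a b hab
    calc star u * b = star u * (b * u) * star u := by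
          rw [mul_assoc, mul_assoc, h2, mul_one]
      _ = a * star u := by rw [hab, ← mul_assoc, h1, one_mul]
  have hP : coverProj z.π = ampl X u * coverProj x.π * ampl X (star u) := by
    refine entry_ext fun a b => ?_
    rw [entry_mul_ampl, entry_ampl_mul, entry_coverProj, entry_coverProj, ← h3.rep, mul_assoc, h2,
      mul_one]
  have e : indexRoe z = wdMat u (star u) (indexRoe x) := by
    funext i k
    apply Subtype.ext
    show _ = ampl X u * (indexRoe x i k).1 * ampl X (star u)
    rw [indexRoe_val, indexRoe_val, hP]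
    refine wd_index0_conj ?_ ?_ ?_ i k
    · rw [wd_ampl_mul, h1, wd_ampl_one]
    · rw [wd_ampl_mul, wd_ampl_mul, key _ _ h3.grading]
    · rw [wd_ampl_mul, wd_ampl_mul, key _ _ h3.op]
  rw [maxIndex_eq, maxIndex_eq, wd_kap_congr e _ (wdMat_idem h1 (indexRoe_idem x)), kap_wdMat h1]

theorem maxIndex_homotopic {x z : Cycle0 (Rips X r) H} (h : Cycle0.Homotopic x z) :
    maxIndex ⟨r, x⟩ = maxIndex ⟨r, z⟩ := by
  obtain ⟨π, γ, F0, hx⟩ := x
  obtain ⟨π', γ', F1, hz⟩ := z
  obtain ⟨h1, h2, F, hF, h0, h3, h4⟩ := h
  simp only at h1 h2 h0 h3 h4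
  subst h1 h2 h0 h3
  let c : ℝ → Cycle0 (Rips X r) H := fun s => ⟨π, γ, F s, h4 s⟩
  have hF' : Continuous F := hF
  have key := K0.of_path (C := MaxRoePlus X H) (n := 2)
    (fun s => (indexPlus (c s)).map (toMax (RoePlus X H))) (fun i k => ?_)
    (fun s => (Idem.image (toMax (RoePlus X H)) (indexPlus (c s)) (indexPlus_idem (c s))).idem)
  · show K0.diff _ _ = K0.diff _ _
    rw [K0.diff_eq, K0.diff_eq]
    exact congrArg (· - _) key
  · refine wd_continuous (g := fun s => index0 (coverProj π) (ampl X γ) (ampl X (F s)) i k)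
      ((ballN X (30 * r) : ℝ) ^ 2)
      (continuous_index0 (coverProj π) (ampl X γ) (continuous_ampl.comp hF') i k) fun s t => ?_
    have e : ∀ s, indexPlus (c s) i k =
        e10 (RoePlus X H) i k + inrRoe X H (indexRoe (c s) i k) := fun s => rfl
    have hv : (indexRoe (c s) i k - indexRoe (c t) i k).1 =
        index0 (coverProj π) (ampl X γ) (ampl X (F s)) i k -
          index0 (coverProj π) (ampl X γ) (ampl X (F t)) i k := by
      rw [← indexRoe_val (c s), ← indexRoe_val (c t)]
      rfl
    have := norm_toMax_inr_le (indexRoe (c s) i k - indexRoe (c t) i k) (R := 30 * r)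
      (by rw [hv]; exact (propLE_index0 _ _ _ i k).sub (propLE_index0 _ _ _ i k))
    rw [hv] at this
    refine le_trans (le_of_eq ?_) this
    rw [Matrix.map_apply, Matrix.map_apply, ← map_sub, e, e, add_sub_add_left_eq_sub, ← map_sub]

theorem maxIndex_sum {z x y : Cycle0 (Rips X r) H} (h : Cycle0.IsSum z x y) :
    maxIndex ⟨r, z⟩ = maxIndex ⟨r, x⟩ + maxIndex ⟨r, y⟩ := by
  obtain ⟨s, t, hs, ht, hst, hx, hy⟩ := h
  have o1 : star s * t = 0 := by
    have : star s * t = star s * t + star s * t := by
      calc star s * t = star s * (s * star s + t * star t) * t := by rw [hst, mul_one]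
        _ = (star s * s) * star s * t + star s * t * (star t * t) := by noncomm_ring
        _ = _ := by rw [hs, ht, one_mul, mul_one]
    simpa using this
  have o2 : star t * s = 0 := by
    have := congrArg star o1
    rwa [star_mul, star_star, star_zero] at this
  have dec : ∀ a b c : Op H H, c * s = s * a → c * t = t * b →
      c = s * a * star s + t * b * star t := by
    intro a b c ha hb
    rw [← ha, ← hb, mul_assoc, mul_assoc, ← mul_add, hst, mul_one]
  have k1 : ∀ a b c : Op H H, c * s = s * a → c * t = t * b → star s * c = a * star s := by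
    intro a b c ha hb
    rw [dec a b c ha hb]
    calc star s * (s * a * star s + t * b * star t)
        = (star s * s) * a * star s + (star s * t) * b * star t := by noncomm_ring
      _ = _ := by rw [hs, o1]; noncomm_ring
  have k2 : ∀ a b c : Op H H, c * s = s * a → c * t = t * b → star t * c = b * star t := by
    intro a b c ha hb
    rw [dec a b c ha hb]
    calc star t * (s * a * star s + t * b * star t)
        = (star t * s) * a * star s + (star t * t) * b * star t := by noncomm_ring
      _ = _ := by rw [ht, o2]; noncomm_ring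
  have hS : ampl X (star s) * ampl X s = 1 := by rw [wd_ampl_mul, hs, wd_ampl_one]
  have hT : ampl X (star t) * ampl X t = 1 := by rw [wd_ampl_mul, ht, wd_ampl_one]
  have hST : ampl X (star s) * ampl X t = 0 := by rw [wd_ampl_mul, o1, wd_ampl_zero]
  have hTS : ampl X (star t) * ampl X s = 0 := by rw [wd_ampl_mul, o2, wd_ampl_zero]
  have hP : coverProj z.π = ampl X s * coverProj x.π * ampl X (star s) +
      ampl X t * coverProj y.π * ampl X (star t) := by
    refine entry_ext fun a b => ?_
    rw [entry_add, entry_mul_ampl, entry_ampl_mul, entry_mul_ampl, entry_ampl_mul,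
      entry_coverProj, entry_coverProj, entry_coverProj]
    exact dec _ _ _ (hx.rep _) (hy.rep _)
  have e : indexRoe z = wdMat s (star s) (indexRoe x) + wdMat t (star t) (indexRoe y) := by
    funext i k
    apply Subtype.ext
    show _ = ampl X s * (indexRoe x i k).1 * ampl X (star s) +
      ampl X t * (indexRoe y i k).1 * ampl X (star t)
    rw [indexRoe_val, indexRoe_val, indexRoe_val, hP]
    refine wd_index0_sum hS hT hST hTS ?_ ?_ ?_ ?_ i k
    · rw [wd_ampl_mul, wd_ampl_mul, k1 _ _ _ hx.grading hy.grading]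
    · rw [wd_ampl_mul, wd_ampl_mul, k1 _ _ _ hx.op hy.op]
    · rw [wd_ampl_mul, wd_ampl_mul, k2 _ _ _ hx.grading hy.grading]
    · rw [wd_ampl_mul, wd_ampl_mul, k2 _ _ _ hx.op hy.op]
  have hc := indexRoe_idem z
  rw [e] at hc
  have hχ : IsMult (roeVal X H) (ampl X s * ampl X (star s)) := by
    rw [wd_ampl_mul]
    exact wd_isMult _
  have hadd := kap_add (roeVal X H) roeVal_injective hχ
    (by rw [mul_assoc, ← mul_assoc (ampl X (star s)), hS, one_mul])
    (wdMat_idem hs (indexRoe_idem x)) (wdMat_idem ht (indexRoe_idem y)) hc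
    (fun i k => by
      show _ * (ampl X s * (indexRoe x i k).1 * ampl X (star s)) * _ =
        ampl X s * (indexRoe x i k).1 * ampl X (star s)
      generalize (indexRoe x i k).1 = a
      calc ampl X s * ampl X (star s) * (ampl X s * a * ampl X (star s)) *
            (ampl X s * ampl X (star s))
          = ampl X s * (ampl X (star s) * ampl X s) * a * (ampl X (star s) * ampl X s) *
            ampl X (star s) := by noncomm_ring
        _ = _ := by rw [hS, mul_one, mul_one])
    (fun i k => by
      show _ * (ampl X t * (indexRoe y i k).1 * ampl X (star t)) * _ =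
        ampl X t * (indexRoe y i k).1 * ampl X (star t)
      generalize (indexRoe y i k).1 = a
      have a1 : (1 - ampl X s * ampl X (star s)) * ampl X t = ampl X t := by
        rw [sub_mul, mul_assoc, hST, mul_zero, sub_zero, one_mul]
      have a2 : ampl X (star t) * (1 - ampl X s * ampl X (star s)) = ampl X (star t) := by
        rw [mul_sub, ← mul_assoc, hTS, zero_mul, sub_zero, mul_one]
      rw [← mul_assoc, ← mul_assoc, a1, mul_assoc, a2])
  rw [maxIndex_eq, maxIndex_eq, maxIndex_eq, wd_kap_congr e _ hc, hadd, kap_wdMat hs,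
    kap_wdMat ht]
  exact map_add (K0.map (toMax (RoePlus X H))) _ _

theorem maxIndex_incl {r' : ℕ} (h : r ≤ r') (z : Cycle0 (Rips X r) H) :
    maxIndex ⟨r, z⟩ = maxIndex ⟨r', Cycle0.push (ripsIncl h) z⟩ := by
  have hP : coverProj z.π = coverProj (Cycle0.push (ripsIncl h) z).π := by
    refine entry_ext fun a b => ?_
    rw [entry_coverProj, entry_coverProj]
    rfl
  have e : indexRoe z = indexRoe (Cycle0.push (ripsIncl h) z) := by
    funext i k
    apply Subtype.ext
    rw [indexRoe_val, indexRoe_val, hP]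
    rfl
  rw [maxIndex_eq, maxIndex_eq, wd_kap_congr e _ (indexRoe_idem _)]

omit [BddGeom X] in
theorem lift_gen {M : Type} [AddCommGroup M] (f : Gen X H → M) (z : Cycle0 (Rips X r) H) :
    FreeAbelianGroup.lift f (gen z) = f ⟨r, z⟩ := FreeAbelianGroup.lift_apply_of f _

theorem respects_maxIndex_aux :
    Respects (maxIndex : Gen X H → K0 (MaxRoePlus X H)) {w | KRel X H w} := by
  rw [Respects, AddSubgroup.closure_le]
  rintro _ (⟨r, x, z, h⟩ | ⟨r, x, z, h⟩ | ⟨r, z, x, y, h⟩ | ⟨r, r', h, z⟩)
  · simpa [lift_gen, sub_eq_zero] using maxIndex_unitary h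
  · simpa [lift_gen, sub_eq_zero] using maxIndex_homotopic h
  · simpa [lift_gen, sub_eq_zero] using maxIndex_sum h
  · simpa [lift_gen, sub_eq_zero] using maxIndex_incl h z

end Vale.Agent.P212
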