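import Vale.Agent.P212.Phi
import Vale.Agent.P212.Swindle
import Vale.Agent.P212.WellDef

/-! TASK Vanish: the two tips of a fibration over a cylinder have the same maximal index.
Plan. `entry_indexRoe_push`: let `p : X → Y` with `p (s y) = y` and
`E x x' := x ∈ range s ∧ x' ∈ range s`, which is `Flat` for `p`. By `entry_coverProj`,
`coverProj (push z).π = liftK E p (coverProj z.π)` (the pull back of `√t_x` along `ripsMap s` is
`√t_y` if `x = s y` and `0` if `x ∉ range s`: `Rips.map_t`, `Rips.map_t_of_not_mem`). Consider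
`P, G, F` as elements of `propAlg Y H` (`propLE_coverProj`, `PropLE.ampl`) and apply `index0_map`
twice: to `liftHom` (`liftK_mul_ampl`) and to the inclusion of `propAlg Y H`; conclude with
`indexRoe_val` and `entry_liftK`.
`maxIndex_tips`: take `α = indexRoe z`, `a₀, a₁` from `exists_swindle` and `Φ` from `exists_phi`.
Then `Φ (inr (a₀ i k)) = toMax (inr (indexRoe (push z) i k))`, so `(unitMat a₀).map Φ =
(unitMat (indexRoe (push z))).map toMax` (`e10_map`), and `maxIndex_eq`, `map_kap` give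
`maxIndex (push s₀ z) = K0.map Φ (kap a₀) = K0.map Φ (kap a₁) = maxIndex (push s₁ z)`. -/

noncomputable section

open Classical

namespace Vale.Agent.P212

variable {G X Y H : Type} [Group G] [MulAction G X] [PseudoEMetricSpace X] [BddGeom X]
  [PseudoEMetricSpace Y] [BddGeom Y] [NormedAddCommGroup H] [InnerProductSpace ℂ H]
  [CompleteSpace H] {r : ℕ}

theorem entry_indexRoe_push (s : Y → X) (p : X → Y) (hp : ∀ y, p (s y) = y)
    (hs : Function.Injective s) (hd : ∀ (R : ℕ) y y', edist y y' ≤ R → edist (s y) (s y') ≤ R)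
    (z : Cycle0 (Rips Y r) H) (i k : Fin 2) (x x' : X) :
    entry (indexRoe (Cycle0.push (ripsMap s hs (hd r)) z) i k).1 x x' =
      if x ∈ Set.range s ∧ x' ∈ Set.range s then entry (indexRoe z i k).1 (p x) (p x') else 0 := by
  let E : X → X → Prop := fun x x' => x ∈ Set.range s ∧ x' ∈ Set.range s
  have hE : Flat E p := by
    refine ⟨fun R => ⟨R, ?_⟩, fun z z' h => ⟨h.2, h.1⟩, fun z z' z'' h h' => ⟨h.1, h'.2⟩, ?_, ?_⟩
    · rintro _ _ ⟨⟨y, rfl⟩, ⟨y', rfl⟩⟩ h
      rw [hp, hp] at h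
      exact hd R y y' h
    · intro z y hz _
      exact ⟨s y, ⟨hz.1, y, rfl⟩, hp y⟩
    · rintro _ _ ⟨⟨y, rfl⟩, ⟨y', rfl⟩⟩ h
      rw [hp, hp] at h
      rw [h]
  have hP : coverProj (Cycle0.push (ripsMap s hs (hd r)) z).π = liftK E p (coverProj z.π) := by
    refine entry_ext fun a b => ?_
    rw [entry_liftK hE.ctrl ⟨r, propLE_coverProj z.π⟩, entry_coverProj, entry_coverProj]
    change z.π (precomp (ripsMap s hs (hd r)) (sqrtCoord r a * sqrtCoord r b)) = _
    split_ifs with h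
    · obtain ⟨⟨y, rfl⟩, ⟨y', rfl⟩⟩ := h
      rw [hp, hp]
      refine congrArg z.π (ZeroAtInftyContinuousMap.ext fun μ => ?_)
      change Rips.sqrtAt (s y) (Rips.map s hs (hd r) μ) * Rips.sqrtAt (s y') (Rips.map s hs (hd r) μ)
        = Rips.sqrtAt y μ * Rips.sqrtAt y' μ
      simp only [Rips.sqrtAt, Rips.map_t]
    · rw [← map_zero z.π]
      refine congrArg z.π (ZeroAtInftyContinuousMap.ext fun μ => ?_)
      change Rips.sqrtAt a (Rips.map s hs (hd r) μ) * Rips.sqrtAt b (Rips.map s hs (hd r) μ) = 0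
      rcases not_and_or.1 h with h | h
      · rw [Rips.sqrtAt_eq_zero.2 (Rips.map_t_of_not_mem s hs (hd r) μ h), zero_mul]
      · rw [Rips.sqrtAt_eq_zero.2 (Rips.map_t_of_not_mem s hs (hd r) μ h), mul_zero]
  let P' : propAlg Y H := ⟨coverProj z.π, r, propLE_coverProj z.π⟩
  let G' : propAlg Y H := ⟨ampl Y z.γ, 0, PropLE.ampl z.γ 0⟩
  let F' : propAlg Y H := ⟨ampl Y z.F, 0, PropLE.ampl z.F 0⟩
  have h5 := index0_map (indexOpVal Y H) (P := P') (G := G') (F := F') (G' := ampl Y z.γ)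
    (F' := ampl Y z.F) (fun _ => rfl) (fun _ => rfl)
  have h6 : (index0 P' G' F' i k).1 = index0 (coverProj z.π) (ampl Y z.γ) (ampl Y z.F) i k :=
    congrFun (congrFun h5 i) k
  have h7 := index0_map (liftHom hE) (P := P') (G := G') (F := F') (G' := ampl X z.γ)
    (F' := ampl X z.F) (fun a => liftK_mul_ampl hE.ctrl a.2 z.γ)
    (fun a => liftK_mul_ampl hE.ctrl a.2 z.F)
  have h8 : liftK E p (index0 P' G' F' i k).1 =
      index0 (liftK E p (coverProj z.π)) (ampl X z.γ) (ampl X z.F) i k :=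
    congrFun (congrFun h7 i) k
  rw [indexRoe_val, indexRoe_val, hP]
  change entry (index0 (liftK E p (coverProj z.π)) (ampl X z.γ) (ampl X z.F) i k) x x' = _
  rw [← h8, entry_liftK hE.ctrl (index0 P' G' F' i k).2, h6]
  by_cases h : E x x'
  · rw [if_pos h, if_pos h]
  · rw [if_neg h, if_neg h]

theorem vanish_map_kap {A A' C : Type} [NonUnitalRing A] [Module ℂ A] [IsAlg A]
    [NonUnitalRing A'] [Module ℂ A'] [IsAlg A'] [Ring C] (Φ : UnitOf A →+* C)
    (Ψ : UnitOf A' →+* C) (a : M2 A) (a' : M2 A') (ha : unitMat a * unitMat a = unitMat a)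
    (ha' : unitMat a' * unitMat a' = unitMat a')
    (h : ∀ i k, Φ (Unitization.inr (a i k)) = Ψ (Unitization.inr (a' i k))) :
    K0.map Ψ (kap a' ha') = K0.map Φ (kap a ha) := by
  have hm : (unitMat a).map Φ = (unitMat a').map Ψ := by
    ext i k
    have e1 := congrFun (congrFun (e10_map Φ) i) k
    have e2 := congrFun (congrFun (e10_map Ψ) i) k
    rw [Matrix.map_apply] at e1 e2
    change Φ (e10 _ i k + Unitization.inr (a i k)) = Ψ (e10 _ i k + Unitization.inr (a' i k))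
    rw [map_add, map_add, e1, e2, h]
  have hi : (unitMat a).map Φ * (unitMat a).map Φ = (unitMat a).map Φ := by
    rw [← Matrix.map_mul, ha]
  rw [map_kap Φ a ha hi, map_kap Ψ a' ha' (hm ▸ hi)]
  congr 2
  exact hm.symm

theorem maxIndex_tips {L : Y → ℕ} (hL : ∀ y y', edist y y' ≠ ⊤ → L y = L y')
    (hev : ∀ y, Even (L y)) (hpos : ∀ y, 0 < L y) {π : X → Cyl L} (hπ : IsFib G π)
    {T : Finset G} {c : ℝ} (hc : 0 < c) (hT : KazhdanSet T c) (s₀ s₁ : Y → X)
    (h₀ : ∀ y, (π (s₀ y)).1 = (y, 0)) (h₁ : ∀ y, (π (s₁ y)).1 = (y, L y))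
    (u₀ : ∀ x, (π x).1.2 = 0 → x = s₀ (π x).1.1)
    (u₁ : ∀ x, (π x).1.2 = L (π x).1.1 → x = s₁ (π x).1.1)
    (i₀ : Function.Injective s₀) (i₁ : Function.Injective s₁)
    (d₀ : ∀ (R : ℕ) y y', edist y y' ≤ R → edist (s₀ y) (s₀ y') ≤ R)
    (d₁ : ∀ (R : ℕ) y y', edist y y' ≤ R → edist (s₁ y) (s₁ y') ≤ R)
    (z : Cycle0 (Rips Y r) H) :
    maxIndex ⟨r, Cycle0.push (ripsMap s₀ i₀ (d₀ r)) z⟩ =
      maxIndex ⟨r, Cycle0.push (ripsMap s₁ i₁ (d₁ r)) z⟩ := by
  obtain ⟨a₀, a₁, ha₀, ha₁, hk, e₀, e₁⟩ :=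
    exists_swindle (H := H) hL hev hpos (indexRoe z) (indexRoe_idem z)
  obtain ⟨Φ, hΦ⟩ := exists_phi (H := H) hπ hc hT
  have key : ∀ (s : Y → X) (hs : Function.Injective s)
      (hd : ∀ (R : ℕ) y y', edist y y' ≤ R → edist (s y) (s y') ≤ R) (J : Cyl L → Prop)
      (a : M2 (roeAlg (Cyl L) H)) (ha : unitMat a * unitMat a = unitMat a),
      (∀ y, (π (s y)).1.1 = y) → (∀ y, J (π (s y))) → (∀ x, J (π x) → x = s (π x).1.1) →
      (∀ i k p q, entry (a i k).1 p q =
        if J p ∧ J q then entry (indexRoe z i k).1 p.1.1 q.1.1 else 0) →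
      maxIndex ⟨r, Cycle0.push (ripsMap s hs (hd r)) z⟩ = K0.map Φ (kap a ha) := by
    intro s hs hd J a ha h1 h2 h3 h4
    have hJ : ∀ x, J (π x) ↔ x ∈ Set.range s := fun x =>
      ⟨fun h => ⟨_, (h3 x h).symm⟩, by rintro ⟨y, rfl⟩; exact h2 y⟩
    have hent : ∀ i k, Φ (Unitization.inr (a i k)) = toMax (RoePlus X H)
        (inrRoe X H (indexRoe (Cycle0.push (ripsMap s hs (hd r)) z) i k)) := by
      intro i k
      refine hΦ _ _ (fun x x' => ?_) (fun x x' x'' hne he => ?_)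
      · rw [entry_indexRoe_push s (fun x => (π x).1.1) h1 hs hd z i k x x', h4]
        simp only [hJ]
      · rw [h4] at hne
        have hx : J (π x) := by
          by_contra hx
          exact hne (if_neg fun h => hx h.1)
        rw [h3 x hx, h3 x'' (he ▸ hx), he]
    exact (maxIndex_eq _).trans (vanish_map_kap Φ (toMax (RoePlus X H)) a _ ha _ hent)
  rw [key s₀ i₀ d₀ (fun p => p.1.2 = 0) a₀ ha₀ (fun y => by rw [h₀]) (fun y => by simp only [h₀])
      u₀ (fun i k p q => by rw [e₀]; split_ifs <;> rfl),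
    key s₁ i₁ d₁ (fun p => p.1.2 = L p.1.1) a₁ ha₁ (fun y => by rw [h₁])
      (fun y => by simp only [h₁]) u₁ (fun i k p q => by rw [e₁]; split_ifs <;> rfl), hk]

end Vale.Agent.P212
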